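import Claimed.Agent.R257.Fl.Defs
import Claimed.Agent.R257.Weak.HeavyMain

/-!
# R257 / Fl / A1 : FL-A, STEP F1 = ASSIGNMENT OF THE PACKETS TO THE PLATES (H flattening.tex l.1-31)            (architect helper18)            CONTRACT
PAPER-FREE.  All quantities are ABSOLUTE reals (no powers of `X`): `w₀` = half thickness of the plates, `w₈` = closeness threshold, `v₉` = threshold of the normal velocity, `T = T₀ L²` = time range, `Λ L` = truncation of the tube moment.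
* `A.lpt α t` = point of the central line at the time `t`;   `P.nvel ω = 2⟪ν_x, ω⟫ + ν_t` = normal velocity;   `FlaAsg A T w₈ v₉ P α` = "`α` may be assigned to `P`".
* `FlaD` = data (array, plates, thresholds, `h`);   `F.asg α : Option (Fin Np)` a choice;   `F.su`, `F.sa` unassigned / assigned labels;   `F.key j` = cell of side `1/h` of the normal of `P j`;   `F.clu k` = assigned labels whose plate has the cell `k`.
EXIT: `fla_F1`.
Every `sorry` is a leaf `L-FLA-*`.  Statements are frozen (a FALSE statement: one line to helper18); auxiliary lemmas (prefix `fla_`) directly above your theorem; edit only your block.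
-/

set_option autoImplicit false

namespace Claimed.Agent.R257

open MeasureTheory Metric Set
open scoped ENNReal InnerProductSpace

variable {n : ℕ} {ι : Type}

/-- the point of the central line of `α` at the time `t` -/
noncomputable def Arr.lpt (A : Arr n ι) (α : ι) (t : ℝ) : ST n := (A.y α + (2 * t) • A.om α, t)

/-- the normal velocity of the frequency `w` with respect to the plate -/
noncomputable def Plate.nvel (P : Plate n) (w : E n) : ℝ := 2 * ⟪P.nx, w⟫_ℝ + P.nt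

/-- `α` may be assigned to `P`: the line comes within `w₈` of the central hyperplane at some time `|t| ≤ T`, and the normal velocity is at most `v₉` -/
def FlaAsg (A : Arr n ι) (T w₈ v₉ : ℝ) (P : Plate n) (α : ι) : Prop :=
  (∃ t : ℝ, |t| ≤ T ∧ P.dist (A.lpt α t) ≤ w₈) ∧ |P.nvel (A.om α)| ≤ v₉

/-- data of FL-A -/
structure FlaD (n : ℕ) (ι : Type) where
  /-- the array -/
  A : Arr n ι
  /-- the subarray -/
  s : Finset ι
  /-- the coefficients -/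
  c : ι → ℂ
  /-- number of plates -/
  Np : ℕ
  /-- the plates -/
  P : Fin Np → Plate n
  /-- time range -/
  T : ℝ
  /-- closeness threshold -/
  w₈ : ℝ
  /-- velocity threshold -/
  v₉ : ℝ
  /-- inverse side of the cells of normals -/
  h : ℝ

namespace FlaD

variable (F : FlaD n ι)

open scoped Classical in
/-- the chosen plate -/
noncomputable def asg (α : ι) : Option (Fin F.Np) :=
  if hh : ∃ j, FlaAsg F.A F.T F.w₈ F.v₉ (F.P j) α then some hh.choose else none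

open scoped Classical in
/-- the unassigned labels -/
noncomputable def su : Finset ι := F.s.filter fun α => F.asg α = none

open scoped Classical in
/-- the assigned labels -/
noncomputable def sa : Finset ι := F.s.filter fun α => F.asg α ≠ none

/-- the cell of side `1/h` of the normal of the plate `j` -/
noncomputable def key (j : Fin F.Np) : MI n := (fun i => ⌊F.h * (F.P j).nx i⌋, ⌊F.h * (F.P j).nt⌋)

open scoped Classical in
/-- the occupied cells -/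
noncomputable def keys : Finset (MI n) := Finset.univ.image F.key

open scoped Classical in
/-- the cluster of the cell `k` -/
noncomputable def clu (k : MI n) : Finset ι := F.s.filter fun α => ∃ j, F.asg α = some j ∧ F.key j = k

end FlaD

/-! ## LEAF L-FLA-1A : the affine function of a plate along a line      (~60 l.) -/

/-- unfold `Plate.dist`, `Arr.lpt`, `Plate.nvel`; `inner_add_right`, `inner_smul_right`; `ring_nf`. -/
theorem fla_dist_lpt (A : Arr n ι) (P : Plate n) (α : ι) (t : ℝ) :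
    P.dist (A.lpt α t) = |⟪P.nx, A.y α⟫_ℝ - P.a + t * P.nvel (A.om α)| := by
  unfold Plate.dist Arr.lpt Plate.nvel
  simp only [inner_add_right, inner_smul_right]
  congr 1
  ring

/-- `z - lpt α z.2 = (x - y - 2tω, 0)`;  `|⟪ν_x, x - y - 2tω⟫| ≤ ‖ν_x‖ tdist ≤ tdist` (`abs_real_inner_le_norm`);  `abs_abs_sub_abs_le`. -/
theorem fla_dist_tri (A : Arr n ι) (P : Plate n) (hP : ‖P.nx‖ ≤ 1) (α : ι) (z : ST n) :
    |P.dist z - P.dist (A.lpt α z.2)| ≤ A.tdist α z := by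
  have h1 : |P.dist z - P.dist (A.lpt α z.2)| ≤
      |(⟪P.nx, z.1⟫_ℝ + P.nt * z.2 - P.a) - (⟪P.nx, (A.lpt α z.2).1⟫_ℝ + P.nt * (A.lpt α z.2).2 - P.a)| := by
    unfold Plate.dist
    exact abs_abs_sub_abs_le _ _
  refine h1.trans ?_
  have e : (⟪P.nx, z.1⟫_ℝ + P.nt * z.2 - P.a) - (⟪P.nx, (A.lpt α z.2).1⟫_ℝ + P.nt * (A.lpt α z.2).2 - P.a)
      = ⟪P.nx, z.1 - A.y α - (2 * z.2) • A.om α⟫_ℝ := by
    unfold Arr.lpt
    simp only [inner_add_right, inner_sub_right]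
    ring
  rw [e]
  refine (abs_real_inner_le_norm _ _).trans ?_
  unfold Arr.tdist
  calc ‖P.nx‖ * ‖z.1 - A.y α - (2 * z.2) • A.om α‖ ≤ 1 * ‖z.1 - A.y α - (2 * z.2) • A.om α‖ :=
        mul_le_mul_of_nonneg_right hP (norm_nonneg _)
    _ = _ := one_mul _

/-- `fla_dist_lpt` twice. -/
theorem fla_dist_move (A : Arr n ι) (P : Plate n) (α : ι) (t t' : ℝ) :
    P.dist (A.lpt α t') ≤ P.dist (A.lpt α t) + |t' - t| * |P.nvel (A.om α)| := by
  rw [fla_dist_lpt, fla_dist_lpt, ← abs_mul]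
  have e : ⟪P.nx, A.y α⟫_ℝ - P.a + t' * P.nvel (A.om α)
      = (⟪P.nx, A.y α⟫_ℝ - P.a + t * P.nvel (A.om α)) + (t' - t) * P.nvel (A.om α) := by ring
  rw [e]
  exact abs_add_le _ _

/-- `|p + t v| ≤ w`, `|v| > v₉ > 0`  ⟹  `|t + p/v| = |p + t v|/|v| ≤ w/v₉`. -/
theorem fla_time {p v w v₉ t : ℝ} (hv₉ : 0 < v₉) (hv : v₉ < |v|) (h : |p + t * v| ≤ w) : |t - -(p / v)| ≤ w / v₉ := by
  have hv0 : 0 < |v| := hv₉.trans hv
  have hvne : v ≠ 0 := abs_pos.1 hv0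
  have e : t - -(p / v) = (p + t * v) / v := by
    field_simp
    ring
  rw [e, abs_div]
  have hw : 0 ≤ w := (abs_nonneg _).trans h
  calc |p + t * v| / |v| ≤ w / |v| := div_le_div_of_nonneg_right h hv0.le
    _ ≤ w / v₉ := div_le_div_of_nonneg_left hw hv₉ hv.le

/-- unit normal ⟹ `‖ν_x‖ ≤ 1`, `|ν_t| ≤ 1`. -/
theorem fla_unit_le (P : Plate n) (h : ‖P.nx‖ ^ 2 + P.nt ^ 2 = 1) : ‖P.nx‖ ≤ 1 ∧ |P.nt| ≤ 1 := by
  constructor
  · have h1 : ‖P.nx‖ ^ 2 ≤ 1 := by nlinarith [sq_nonneg P.nt]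
    exact (sq_le_one_iff₀ (norm_nonneg _)).1 h1
  · have h1 : P.nt ^ 2 ≤ 1 := by nlinarith [sq_nonneg ‖P.nx‖]
    exact (sq_le_one_iff_abs_le_one _).1 h1

/-! ## LEAF L-FLA-1B : the mass of a piece of a tube      (~90 l.) -/

/-- **PLAN** (as in `inf_A8_tube`).  `K = max 1 ⌈τ/r⌉₊` (`(K:ℝ) ≤ τ/r + 1`, `τ ≤ K r`);  `inf_A6_cut t₀ r K`: every `t` with `|t - t₀| ≤ τ` has `|t - t_i| ≤ r` for some `i < K`;  `inf_A6_piece w y t_i r r Rω`:
the piece lies in `closedBall (y + (2 t_i) • w, t_i) ((1 + 2Rω) r)` (sup metric: `Prod.dist_eq`, `max_le`; `0 ≤ Rω`);  `Grow` (radius `≥ 1`; `Real.rpow_natCast`);  `inf_A6_count`. -/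
theorem fla_piece {μ : Measure (ST n)} {m r τ Rω : ℝ} (hμ : Grow μ m n) (hm : 0 ≤ m) (hr : 1 ≤ r) (hτ : 0 ≤ τ) {w : E n} (hw : ‖w‖ ≤ Rω)
    (y : E n) (t₀ : ℝ) :
    μ {z | ‖z.1 - y - (2 * z.2) • w‖ ≤ r ∧ |z.2 - t₀| ≤ τ} ≤ ENNReal.ofReal ((τ / r + 1) * (m * ((1 + 2 * Rω) * r) ^ n)) := by
  have hr0 : 0 < r := lt_of_lt_of_le one_pos hr
  have hR : 0 ≤ Rω := (norm_nonneg w).trans hw
  set K : ℕ := max 1 ⌈τ / r⌉₊ with hK
  have hK1 : 1 ≤ K := le_max_left _ _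
  have hτr : 0 ≤ τ / r := div_nonneg hτ hr0.le
  have hKle : (K : ℝ) ≤ τ / r + 1 := by
    rw [hK]
    push_cast
    refine max_le (by linarith) ?_
    exact (Nat.ceil_lt_add_one hτr).le
  have hKge : τ ≤ K * r := by
    have h1 : τ / r ≤ (⌈τ / r⌉₊ : ℝ) := Nat.le_ceil _
    have h2 : (⌈τ / r⌉₊ : ℝ) ≤ (K : ℝ) := by exact_mod_cast le_max_right 1 ⌈τ / r⌉₊
    rw [← div_le_iff₀ hr0]
    exact h1.trans h2
  set ρ : ℝ := (1 + 2 * Rω) * r with hρ
  have hρr : r ≤ ρ := by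
    rw [hρ]; nlinarith
  have hρ1 : 1 ≤ ρ := hr.trans hρr
  let tj : ℕ → ℝ := fun j => t₀ - K * r + (2 * (j : ℝ) + 1) * r
  let c : ℕ → ST n := fun j => (y + (2 * tj j) • w, tj j)
  have hsub : {z : ST n | ‖z.1 - y - (2 * z.2) • w‖ ≤ r ∧ |z.2 - t₀| ≤ τ} ⊆ ⋃ j ∈ Finset.range K, closedBall (c j) ρ := by
    intro z hz
    obtain ⟨hz1, hz2⟩ := hz
    obtain ⟨j, hj, hjt⟩ := inf_A6_cut t₀ r K hK1 z.2 (hz2.trans hKge)
    refine mem_biUnion (Finset.mem_coe.2 hj) ?_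
    rw [mem_closedBall, Prod.dist_eq, max_le_iff]
    constructor
    · rw [dist_eq_norm]
      have h2 : ‖z.1 - (2 * z.2) • w - y‖ ≤ r := by
        have e : z.1 - (2 * z.2) • w - y = z.1 - y - (2 * z.2) • w := by abel
        rw [e]; exact hz1
      have := inf_A6_piece w y (tj j) r r Rω hw z hjt h2
      have e2 : r + 2 * r * Rω = ρ := by rw [hρ]; ring
      rw [e2] at this
      exact this
    · rw [Real.dist_eq]
      exact hjt.trans hρr
  have hball : ∀ j ∈ Finset.range K, μ (closedBall (c j) ρ) ≤ ENNReal.ofReal (m * ρ ^ n) := by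
    intro j _
    have := hμ (c j) ρ hρ1
    rwa [Real.rpow_natCast] at this
  calc μ {z | ‖z.1 - y - (2 * z.2) • w‖ ≤ r ∧ |z.2 - t₀| ≤ τ}
      ≤ (Finset.range K).card * ENNReal.ofReal (m * ρ ^ n) := inf_A6_count μ _ _ _ _ hsub hball
    _ = ENNReal.ofReal ((K : ℝ) * (m * ρ ^ n)) := by
        rw [Finset.card_range, ENNReal.ofReal_mul (Nat.cast_nonneg K), ENNReal.ofReal_natCast]
    _ ≤ ENNReal.ofReal ((τ / r + 1) * (m * ρ ^ n)) := by
        refine ENNReal.ofReal_le_ofReal (mul_le_mul_of_nonneg_right hKle ?_)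
        positivity

/-! ## LEAF L-FLA-1C : an unassigned line spends a short time near a plate      (~90 l.) -/

/-- **PLAN.**  Up to the null set `{T < |z.2|}` (`hs`; `measure_mono_null`, `measure_union_le` or `measure_mono` into `S' ∪ null`) let `z` be in the set with `|z.2| ≤ T`.   `fla_dist_tri`: `P.dist (lpt α z.2) ≤ w₀ + r ≤ w₈`, so the first clause of `FlaAsg` holds and `hun` gives `v₉ < |nvel|`.
`fla_dist_lpt` + `fla_time`: `|z.2 - t₀| ≤ w₈/v₉`, `t₀ = -((⟪ν_x,y⟫ - a)/nvel)`.   `fla_piece` with `τ = w₈/v₉` (`τ/r = w₈/(v₉ r)`).   If `|nvel| ≤ v₉` the set is null. -/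
theorem fla_un_near {μ : Measure (ST n)} {A : Arr n ι} {m T w₀ w₈ v₉ r Rω : ℝ} (hμ : Grow μ m n) (hm : 0 ≤ m) (hs : Slab μ T) (hr : 1 ≤ r)
    (hv : 0 < v₉) (hw0 : 0 ≤ w₀) (hw8 : w₀ + r ≤ w₈) (P : Plate n) (hP : ‖P.nx‖ ≤ 1) (α : ι) (hω : ‖A.om α‖ ≤ Rω)
    (hun : ¬ FlaAsg A T w₈ v₉ P α) :
    μ {z | A.tdist α z ≤ r ∧ P.dist z ≤ w₀} ≤ ENNReal.ofReal ((w₈ / (v₉ * r) + 1) * (m * ((1 + 2 * Rω) * r) ^ n)) := by
  have hr0 : 0 < r := lt_of_lt_of_le one_pos hr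
  have hw80 : 0 ≤ w₈ := by linarith
  set t₀ : ℝ := -((⟪P.nx, A.y α⟫_ℝ - P.a) / P.nvel (A.om α)) with ht₀
  have hsub : {z : ST n | A.tdist α z ≤ r ∧ P.dist z ≤ w₀} ⊆
      {z : ST n | T < |z.2|} ∪ {z : ST n | ‖z.1 - A.y α - (2 * z.2) • A.om α‖ ≤ r ∧ |z.2 - t₀| ≤ w₈ / v₉} := by
    intro z hz
    obtain ⟨hz1, hz2⟩ := hz
    by_cases hzt : T < |z.2|
    · exact Or.inl hzt
    · right
      rw [not_lt] at hzt
      have h1 := fla_dist_tri A P hP α z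
      rw [abs_le] at h1
      have h2 : P.dist (A.lpt α z.2) ≤ w₈ := by linarith [h1.1]
      have h3 : v₉ < |P.nvel (A.om α)| := by
        by_contra hc
        exact hun ⟨⟨z.2, hzt, h2⟩, not_lt.1 hc⟩
      rw [fla_dist_lpt] at h2
      exact ⟨hz1, fla_time hv h3 h2⟩
  have e : w₈ / (v₉ * r) = w₈ / v₉ / r := by rw [div_div]
  rw [e]
  calc μ {z | A.tdist α z ≤ r ∧ P.dist z ≤ w₀}
      ≤ μ ({z : ST n | T < |z.2|} ∪ {z : ST n | ‖z.1 - A.y α - (2 * z.2) • A.om α‖ ≤ r ∧ |z.2 - t₀| ≤ w₈ / v₉}) := measure_mono hsub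
    _ ≤ μ {z : ST n | T < |z.2|} + μ {z : ST n | ‖z.1 - A.y α - (2 * z.2) • A.om α‖ ≤ r ∧ |z.2 - t₀| ≤ w₈ / v₉} := measure_union_le _ _
    _ = μ {z : ST n | ‖z.1 - A.y α - (2 * z.2) • A.om α‖ ≤ r ∧ |z.2 - t₀| ≤ w₈ / v₉} := by
        rw [show μ {z : ST n | T < |z.2|} = 0 from hs, zero_add]
    _ ≤ _ := fla_piece hμ hm hr (div_nonneg hw80 hv.le) hω (A.y α) t₀

/-! ## LEAF L-FLA-1D : the tube moment of an unassigned label on `μ|Y₀`      (~130 l.) -/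

/-- the bound of the moment of an unassigned label -/
noncomputable def flaMom (n : ℕ) (W : WCon) (Np : ℕ) (m L Λ w₈ v₉ : ℝ) : ℝ :=
  whFar n W * m * L ^ ((n : ℝ) + 1) * Λ ^ (-((W.M : ℝ) - n - 1)) +
    Np * ((w₈ / (v₉ * (Λ * L)) + 1) * (m * ((1 + 2 * W.K.Rω) * (Λ * L)) ^ n))

/-- **PLAN.**  `S = {z | Λ L < tdist α z}` is measurable (`wh_tdist_cont`).   `lintegral_add_compl` for `μ.restrict Y₀`.   On `S`: `wh_far_spec` for the measure `μ.restrict Y₀` (`inf_grow_restrict`, `wh_slab_restrict`).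
On `Sᶜ`: the integrand is `≤ 1` (as in `inf_tubeMom_of_grow`), so the integral is `≤ (μ.restrict Y₀) Sᶜ = μ (Sᶜ ∩ Y₀) ≤ ∑_j μ {tdist ≤ Λ L ∧ (P j).dist ≤ w₀}` (`hcov`, `measure_iUnion_fintype_le` / `measure_biUnion_finset_le`),
each term by `fla_un_near` with `r = Λ L ≥ 1`.   `ENNReal.ofReal_add`, `Finset.sum_const`, `Finset.card_univ`, `Fintype.card_fin`, `nsmul_eq_mul`, `ENNReal.ofReal_mul`, `ENNReal.ofReal_natCast`. -/
theorem fla_un_mom (W : WCon) (hMn : n + 2 ≤ W.M) {μ : Measure (ST n)} {A : Arr n ι} {m w₀ w₈ v₉ Λ : ℝ} {Np : ℕ} (P : Fin Np → Plate n)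
    (Y₀ : Set (ST n)) (hY₀ : MeasurableSet Y₀) (hμ : Grow μ m n) (hm : 0 ≤ m) (hs : Slab μ (W.T₀ * A.L ^ 2)) (hL : 1 ≤ A.L) (hΛ : 1 ≤ Λ)
    (hv : 0 < v₉) (hw0 : 0 ≤ w₀) (hw8 : w₀ + Λ * A.L ≤ w₈) (hP : ∀ j, ‖(P j).nx‖ ≤ 1) (hcov : ∀ z ∈ Y₀, ∃ j, (P j).dist z ≤ w₀)
    (α : ι) (hω : ‖A.om α‖ ≤ W.K.Rω) (hun : ∀ j, ¬ FlaAsg A (W.T₀ * A.L ^ 2) w₈ v₉ (P j) α) :
    ∫⁻ z, ENNReal.ofReal ((1 + A.tdist α z / A.L) ^ (-(W.M : ℤ))) ∂(μ.restrict Y₀) ≤ ENNReal.ofReal (flaMom n W Np m A.L Λ w₈ v₉) := by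
  have hL0 : 0 < A.L := lt_of_lt_of_le one_pos hL
  have hΛL : 1 ≤ Λ * A.L := by nlinarith
  have hR : 0 ≤ W.K.Rω := (norm_nonneg _).trans hω
  set S : Set (ST n) := {z | Λ * A.L < A.tdist α z} with hS
  have hSm : MeasurableSet S := (isOpen_lt continuous_const (wh_tdist_cont A α)).measurableSet
  have hfar := (wh_far_spec W hMn).2 ι (μ.restrict Y₀) A α m Λ hm hΛ (inf_grow_restrict hμ Y₀) (wh_slab_restrict Y₀ hs) hL hω
  set b : ℝ := (w₈ / (v₉ * (Λ * A.L)) + 1) * (m * ((1 + 2 * W.K.Rω) * (Λ * A.L)) ^ n) with hb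
  have hw80 : 0 ≤ w₈ := by linarith
  have hb0 : 0 ≤ b := by
    rw [hb]
    have : 0 ≤ w₈ / (v₉ * (Λ * A.L)) := div_nonneg hw80 (by positivity)
    positivity
  have hnear : ∫⁻ z in Sᶜ, ENNReal.ofReal ((1 + A.tdist α z / A.L) ^ (-(W.M : ℤ))) ∂(μ.restrict Y₀) ≤ ENNReal.ofReal (Np * b) := by
    calc ∫⁻ z in Sᶜ, ENNReal.ofReal ((1 + A.tdist α z / A.L) ^ (-(W.M : ℤ))) ∂(μ.restrict Y₀)
        ≤ ∫⁻ _z in Sᶜ, 1 ∂(μ.restrict Y₀) := by
          refine lintegral_mono fun z => ?_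
          rw [← ENNReal.ofReal_one]
          exact ENNReal.ofReal_le_ofReal (wh_tw_le_one A hL0 W.M α z)
      _ = (μ.restrict Y₀) Sᶜ := by rw [lintegral_one, Measure.restrict_apply MeasurableSet.univ, univ_inter]
      _ = μ (Sᶜ ∩ Y₀) := Measure.restrict_apply hSm.compl
      _ ≤ μ (⋃ j, {z | A.tdist α z ≤ Λ * A.L ∧ (P j).dist z ≤ w₀}) := by
          refine measure_mono ?_
          intro z hz
          obtain ⟨j, hj⟩ := hcov z hz.2
          refine mem_iUnion.2 ⟨j, ?_, hj⟩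
          exact not_lt.1 hz.1
      _ ≤ ∑ j, μ {z | A.tdist α z ≤ Λ * A.L ∧ (P j).dist z ≤ w₀} := measure_iUnion_fintype_le _ _
      _ ≤ ∑ _j : Fin Np, ENNReal.ofReal b := Finset.sum_le_sum fun j _ =>
          fla_un_near hμ hm hs hΛL hv hw0 hw8 (P j) (hP j) α hω (hun j)
      _ = ENNReal.ofReal (Np * b) := by
          rw [Finset.sum_const, Finset.card_univ, Fintype.card_fin, nsmul_eq_mul, ENNReal.ofReal_mul (Nat.cast_nonneg Np),
            ENNReal.ofReal_natCast]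
  rw [← lintegral_add_compl _ hSm]
  unfold flaMom
  rw [ENNReal.ofReal_add _ (mul_nonneg (Nat.cast_nonneg Np) hb0)]
  · exact add_le_add hfar hnear
  · have := (wh_far_spec (n := n) W hMn).1
    have h2 : 0 < Λ := lt_of_lt_of_le one_pos hΛ
    positivity

/-! ## LEAF L-FLA-1E : bookkeeping of the assignment      (~150 l.) -/

/-- `dif_pos`, `Exists.choose_spec`. -/
theorem fla_asg_some (F : FlaD n ι) {α : ι} {j : Fin F.Np} (h : F.asg α = some j) : FlaAsg F.A F.T F.w₈ F.v₉ (F.P j) α := by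
  unfold FlaD.asg at h
  split_ifs at h with hh
  have e : hh.choose = j := Option.some.inj h
  rw [← e]
  exact hh.choose_spec

theorem fla_asg_none (F : FlaD n ι) {α : ι} (h : F.asg α = none) (j : Fin F.Np) : ¬ FlaAsg F.A F.T F.w₈ F.v₉ (F.P j) α := by
  intro hj
  unfold FlaD.asg at h
  rw [dif_pos ⟨j, hj⟩] at h
  exact Option.some_ne_none _ h

theorem fla_su_sub (F : FlaD n ι) : F.su ⊆ F.s := by
  exact Finset.filter_subset _ _

theorem fla_sa_sub (F : FlaD n ι) : F.sa ⊆ F.s := by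
  exact Finset.filter_subset _ _

theorem fla_clu_sub (F : FlaD n ι) (k : MI n) : F.clu k ⊆ F.s := by
  exact Finset.filter_subset _ _

/-- `Finset.sum_filter_add_sum_filter_not`. -/
theorem fla_fld_split (F : FlaD n ι) (z : ST n) : F.A.fld F.s F.c z = F.A.fld F.sa F.c z + F.A.fld F.su F.c z := by
  classical
  unfold Arr.fld FlaD.sa FlaD.su
  rw [add_comm]
  exact (Finset.sum_filter_add_sum_filter_not F.s (fun α => F.asg α = none) _).symm

/-- a label has one plate, a plate has one cell. -/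
theorem fla_clu_disj (F : FlaD n ι) {k k' : MI n} (h : k ≠ k') : Disjoint (F.clu k) (F.clu k') := by
  rw [Finset.disjoint_left]
  intro α h1 h2
  unfold FlaD.clu at h1 h2
  rw [Finset.mem_filter] at h1 h2
  obtain ⟨j, hj, hk⟩ := h1.2
  obtain ⟨j', hj', hk'⟩ := h2.2
  rw [hj] at hj'
  have e : j = j' := Option.some.inj hj'
  apply h
  rw [← hk, ← hk', e]

theorem fla_sa_eq (F : FlaD n ι) [DecidableEq ι] : F.sa = F.keys.biUnion F.clu := by
  ext α
  rw [Finset.mem_biUnion]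
  unfold FlaD.sa FlaD.clu FlaD.keys
  constructor
  · intro h
    rw [Finset.mem_filter] at h
    obtain ⟨j, hj⟩ := Option.ne_none_iff_exists'.1 h.2
    refine ⟨F.key j, Finset.mem_image_of_mem _ (Finset.mem_univ j), ?_⟩
    rw [Finset.mem_filter]
    exact ⟨h.1, j, hj, rfl⟩
  · rintro ⟨k, _, h⟩
    rw [Finset.mem_filter] at h ⊢
    obtain ⟨j, hj, _⟩ := h.2
    refine ⟨h.1, ?_⟩
    rw [hj]
    exact Option.some_ne_none j

/-- `sa` is the disjoint union of the clusters of the occupied cells (`Finset.sum_fiberwise_of_maps_to` for the map `α ↦ F.key j(α)` on `sa`, or `Finset.sum_biUnion`). -/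
theorem fla_fld_clu (F : FlaD n ι) (z : ST n) : F.A.fld F.sa F.c z = ∑ k ∈ F.keys, F.A.fld (F.clu k) F.c z := by
  classical
  unfold Arr.fld
  rw [fla_sa_eq F, Finset.sum_biUnion]
  intro k _ k' _ hkk
  exact fla_clu_disj F hkk

theorem fla_energy_mono {s t : Finset ι} (c : ι → ℂ) (ht : t ⊆ s) : energy t c ≤ energy s c :=
  Finset.sum_le_sum_of_subset_of_nonneg ht fun _ _ _ => by positivity

/-- same partition for the energies; `sa ⊆ s`. -/
theorem fla_energy_clu (F : FlaD n ι) : ∑ k ∈ F.keys, energy (F.clu k) F.c ≤ energy F.s F.c := by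
  classical
  have h1 : ∑ k ∈ F.keys, energy (F.clu k) F.c = energy F.sa F.c := by
    unfold energy
    rw [fla_sa_eq F, Finset.sum_biUnion]
    intro k _ k' _ hkk
    exact fla_clu_disj F hkk
  rw [h1]
  exact fla_energy_mono F.c (fla_sa_sub F)

/-- `Finset.card_image_le`, `Finset.card_univ`, `Fintype.card_fin`. -/
theorem fla_keys_card_le (F : FlaD n ι) : F.keys.card ≤ F.Np := by
  unfold FlaD.keys
  refine Finset.card_image_le.trans ?_
  rw [Finset.card_univ, Fintype.card_fin]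

/-! ## LEAF L-FLA-1F : EXIT OF F1 (inner induction at `D₁`)      (~150 l.) -/

/-- **PLAN.**  `λ = wlev n X.a χ g L`,  `Y₁ := Y₀ \ wset A su c (λ/2)` (measurable: `wh_meas_wset`, profiles continuous by `hA.prof .. .smooth.continuous`).
`Adm W A su (μ.restrict Y₀) m χ D₁`: `inf_grow_restrict`, `wh_slab_restrict`, `wh_dens_restrict`, `wh_inBall_restrict`;  `TubeMom`: `fla_un_mom` (+ `fla_asg_none`, `hT`, `fla_unit_le`) and `hmom`.
`hin` for `(A, su, c, μ.restrict Y₀, m, χ, g/2)` (`wh_in_mono`, `wh_wlev_div`: `wlev (g/2) = λ/2`):  `μ (wset A su c (λ/2) ∩ Y₀) ≤ ofReal (wrhs n X m L (g/2) D₁ (energy su c))` (`Measure.restrict_apply`), and `energy su c ≤ energy s c ≤ 1` (`ww_energy_mono`),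
`wrhs` is monotone in the energy (`Real.rpow_le_rpow`, all factors `≥ 0`).   `μ Y₀ ≤ μ Y₁ + μ (Y₀ ∩ wset ..)` (`measure_diff_add_inter` or `measure_union_le`).
On `Y₁`: `λ ≤ ‖fld s‖ ≤ ‖fld sa‖ + ‖fld su‖ < ‖fld sa‖ + λ/2` (`fla_fld_split`, `norm_add_le`). -/
theorem fla_F1 (W : WCon) (hMn : n + 2 ≤ W.M) (X : WExp) (F : FlaD n ι) (μ : Measure (ST n)) {m χ g D D₁ w₀ Λ : ℝ} (Y₀ : Set (ST n))
    (hA : F.A.In F.s W.K) (htc : ∀ α ∈ F.s, F.A.tc α = 0) (hen : energy F.s F.c ≤ 1) (hm : 0 ≤ m) (hχ : 0 < χ) (hχ1 : χ ≤ 1) (hg : 0 < g)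
    (hadm : Adm W F.A F.s μ m χ D) (hp : 0 ≤ X.p) (hC : 0 ≤ X.Cind) (hD₁ : 0 < D₁) (hin : WeakAt n W X F.A.L D₁)
    (hT : F.T = W.T₀ * F.A.L ^ 2) (hunit : ∀ j, ‖(F.P j).nx‖ ^ 2 + (F.P j).nt ^ 2 = 1)
    (hY₀m : MeasurableSet Y₀) (hY₀ : Y₀ ⊆ wset F.A F.s F.c (wlev n X.a χ g F.A.L)) (hcov : ∀ z ∈ Y₀, ∃ j, (F.P j).dist z ≤ w₀)
    (hΛ : 1 ≤ Λ) (hv : 0 < F.v₉) (hw0 : 0 ≤ w₀) (hw8 : w₀ + Λ * F.A.L ≤ F.w₈)
    (hmom : flaMom n W F.Np m F.A.L Λ F.w₈ F.v₉ ≤ m * F.A.L ^ ((n : ℝ) + 1) / D₁) :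
    ∃ Y₁ : Set (ST n), MeasurableSet Y₁ ∧ Y₁ ⊆ Y₀ ∧ μ Y₀ ≤ μ Y₁ + ENNReal.ofReal (wrhs n X m F.A.L (g / 2) D₁ 1) ∧
      ∀ z ∈ Y₁, wlev n X.a χ g F.A.L / 2 ≤ ‖F.A.fld F.sa F.c z‖ := by
  have hL : 1 ≤ F.A.L := hA.one_le
  have hL0 : 0 < F.A.L := lt_of_lt_of_le one_pos hL
  set lam : ℝ := wlev n X.a χ g F.A.L with hlam
  have hAu : F.A.In F.su W.K := wh_in_mono hA (fla_su_sub F)
  have hWm : MeasurableSet (wset F.A F.su F.c (lam / 2)) :=
    wh_meas_wset F.A F.su F.c (fun α hα => (hAu.prof α hα).smooth.continuous) _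
  have hadm1 : Adm W F.A F.su (μ.restrict Y₀) m χ D₁ := by
    obtain ⟨cb, hcb⟩ := hadm.box
    refine ⟨⟨inf_grow_restrict hadm.grow Y₀, wh_slab_restrict Y₀ hadm.slab, wh_dens_restrict Y₀ hadm.dens, ?_⟩,
      ⟨cb, wh_inBall_restrict Y₀ hcb⟩⟩
    intro α hα
    have hα' : F.asg α = none := (Finset.mem_filter.1 hα).2
    refine (fla_un_mom W hMn F.P Y₀ hY₀m hadm.grow hm hadm.slab hL hΛ hv hw0 hw8 (fun j => (fla_unit_le _ (hunit j)).1) hcov α
      (hAu.freq α hα) (fun j => ?_)).trans (ENNReal.ofReal_le_ofReal hmom)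
    rw [← hT]
    exact fla_asg_none F hα' j
  have h1 := hin ι F.A F.su F.c (μ.restrict Y₀) m χ (g / 2) rfl hAu (fun α hα => htc α (fla_su_sub F hα)) hm hχ hχ1 (by positivity) hadm1
  rw [wh_wlev_div, ← hlam, Measure.restrict_apply hWm] at h1
  have hen0 : 0 ≤ energy F.su F.c := Finset.sum_nonneg fun _ _ => by positivity
  have hen1 : energy F.su F.c ≤ 1 := (fla_energy_mono F.c (fla_su_sub F)).trans hen
  have hmono : wrhs n X m F.A.L (g / 2) D₁ (energy F.su F.c) ≤ wrhs n X m F.A.L (g / 2) D₁ 1 := by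
    unfold wrhs
    refine mul_le_mul_of_nonneg_left ?_ (by positivity)
    exact Real.rpow_le_rpow hen0 hen1 (by positivity)
  refine ⟨Y₀ \ wset F.A F.su F.c (lam / 2), hY₀m.diff hWm, Set.sdiff_subset, ?_, ?_⟩
  · calc μ Y₀ ≤ μ ((Y₀ \ wset F.A F.su F.c (lam / 2)) ∪ (wset F.A F.su F.c (lam / 2) ∩ Y₀)) := by
          refine measure_mono ?_
          intro z hz
          by_cases hc : z ∈ wset F.A F.su F.c (lam / 2)
          · exact Or.inr ⟨hc, hz⟩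
          · exact Or.inl ⟨hz, hc⟩
      _ ≤ μ (Y₀ \ wset F.A F.su F.c (lam / 2)) + μ (wset F.A F.su F.c (lam / 2) ∩ Y₀) := measure_union_le _ _
      _ ≤ _ := add_le_add le_rfl (h1.trans (ENNReal.ofReal_le_ofReal hmono))
  · intro z hz
    have h2 : lam ≤ ‖F.A.fld F.s F.c z‖ := hY₀ hz.1
    have h3 : ‖F.A.fld F.su F.c z‖ < lam / 2 := not_le.1 hz.2
    rw [fla_fld_split] at h2
    have h4 := norm_add_le (F.A.fld F.sa F.c z) (F.A.fld F.su F.c z)
    linarith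

end Claimed.Agent.R257
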