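import Claimed.Agent.R257.Fl.A1

/-!
# R257 / Fl / A2 : FL-A, STEP F2 = CLUSTERS OF PLATES (H flattening.tex l.33-62)            (architect helper18)            CONTRACT
PAPER-FREE.
* `fla_supp`      a packet assigned to `P` lives in the enlarged plate `{P.dist ≤ w₁}`.
* `Plate.Sep δ P P'`      the projective normals differ by at least `δ` (Euclidean norm of `ℝ^{n+1}`).
* `fla_cod2` (abstract, any finite dimensional inner product space), `fla_pair`      the intersection of two separated plates has a small mass (CODIMENSION 2 COVERING).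
* `fla_keys_card`, `fla_pigeon`      at a point which lies in no intersection of two separated enlarged plates at most `2·3^{n+1}` clusters are non zero: one cluster field is large.
* `fla_flat`      the frequencies of a cluster lie within `C₁/h` of a hyperplane, `C₁ = flaC1 n Rω`.
Every `sorry` is a leaf `L-FLA-*`.  Statements are frozen (a FALSE statement: one line to helper18); auxiliary lemmas (prefix `fla_`) directly above your theorem; edit only your block.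
-/

set_option autoImplicit false

namespace Claimed.Agent.R257

open MeasureTheory Metric Set
open scoped ENNReal InnerProductSpace

variable {n : ℕ} {ι : Type}

/-! ## LEAF L-FLA-2A : the enlarged plate contains the packet      (~70 l.) -/

/-- **PLAN.**  As in `ww_atom_supp`: `atom α z ≠ 0` gives `‖chart ..‖ ≤ K.R` (`Prod.norm_def`), i.e. `tdist α z ≤ K.R L` and `|z.2| ≤ K.R L²` (`tc = 0`).   `t₁` from `h.1`:  `fla_dist_move`: `P.dist (lpt α z.2) ≤ w₈ + |z.2 - t₁| v₉ ≤ w₈ + (K.R L² + T) v₉`;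
`fla_dist_tri`: `P.dist z ≤ P.dist (lpt α z.2) + tdist α z`. -/
theorem fla_supp {A : Arr n ι} {s : Finset ι} {K : Cls} (hA : A.In s K) {α : ι} (hα : α ∈ s) (htc : A.tc α = 0) {T w₈ v₉ : ℝ} {P : Plate n}
    (hP : ‖P.nx‖ ≤ 1) (h : FlaAsg A T w₈ v₉ P α) {z : ST n} (hz : A.atom α z ≠ 0) :
    P.dist z ≤ w₈ + v₉ * (T + K.R * A.L ^ 2) + K.R * A.L := by
  have hL := hA.one_le
  have hL0 : 0 < A.L := by linarith
  have h1 : A.pf α (chart A.L (A.om α) (A.y α) (A.tc α) z) ≠ 0 := right_ne_zero_of_mul hz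
  have h2 := (hA.prof α hα).supp _ h1
  rw [Prod.norm_def] at h2
  have h3 : ‖A.L⁻¹ • (z.1 - A.y α - (2 * z.2) • A.om α)‖ ≤ K.R := (le_max_left _ _).trans h2
  have h4 : ‖z.2 / A.L ^ 2 - A.tc α‖ ≤ K.R := (le_max_right _ _).trans h2
  rw [norm_smul, norm_inv, Real.norm_eq_abs, abs_of_pos hL0, inv_mul_le_iff₀ hL0] at h3
  rw [htc, sub_zero, norm_div, Real.norm_eq_abs, Real.norm_eq_abs, abs_of_pos (by positivity : 0 < A.L ^ 2),
    div_le_iff₀ (by positivity)] at h4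
  obtain ⟨⟨t₁, ht₁, hd₁⟩, hv⟩ := h
  have hmove := fla_dist_move A P α t₁ z.2
  have htri := fla_dist_tri A P hP α z
  have htd : A.tdist α z ≤ A.L * K.R := h3
  have habs : |z.2 - t₁| ≤ K.R * A.L ^ 2 + T := by
    rw [abs_le] at h4 ht₁ ⊢
    constructor <;> linarith [h4.1, h4.2, ht₁.1, ht₁.2]
  have hprod : |z.2 - t₁| * |P.nvel (A.om α)| ≤ (K.R * A.L ^ 2 + T) * v₉ :=
    mul_le_mul habs hv (abs_nonneg _) ((abs_nonneg _).trans habs)
  have h5 := (abs_le.mp htri).2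
  linarith

/-! ## LEAF L-FLA-2B : CODIMENSION 2 COVERING, abstract      (~250 l.; Mathlib only) -/

theorem fla_cod2_gram {c δ : ℝ} (h1 : δ ^ 2 ≤ 2 - 2 * c) (h2 : δ ^ 2 ≤ 2 + 2 * c) : δ ^ 2 / 2 ≤ 1 - c ^ 2 := by
  have hδ : 0 ≤ δ ^ 2 := sq_nonneg δ
  rcases le_total 0 c with hc | hc
  · nlinarith
  · nlinarith

/-- the part in the plane -/
theorem fla_cod2_plane {V : Type} [NormedAddCommGroup V] [InnerProductSpace ℝ V] (ν ν' : V) (hν : ‖ν‖ = 1) (hν' : ‖ν'‖ = 1)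
    {δ w p q : ℝ} (hδ : 0 < δ) (hg : δ ^ 2 / 2 ≤ 1 - ⟪ν, ν'⟫_ℝ ^ 2) (hw : 0 ≤ w) (hp : |p| ≤ 2 * w) (hq : |q| ≤ 2 * w) :
    ∃ s t : ℝ, s + t * ⟪ν, ν'⟫_ℝ = p ∧ s * ⟪ν, ν'⟫_ℝ + t = q ∧ ‖s • ν + t • ν'‖ ≤ 6 * w / δ := by
  set c := ⟪ν, ν'⟫_ℝ with hc
  have hδ2 : 0 < δ ^ 2 := by positivity
  have hG : 0 < 1 - c ^ 2 := by linarith
  refine ⟨(p - c * q) / (1 - c ^ 2), (q - c * p) / (1 - c ^ 2), ?_, ?_, ?_⟩
  · field_simp
    ring
  · field_simp
    ring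
  · set s := (p - c * q) / (1 - c ^ 2) with hs
    set t := (q - c * p) / (1 - c ^ 2) with ht
    have e1 : s + t * c = p := by
      rw [hs, ht]
      field_simp
      ring
    have e2 : s * c + t = q := by
      rw [hs, ht]
      field_simp
      ring
    have hn : ‖s • ν + t • ν'‖ ^ 2 = s * p + t * q := by
      rw [norm_add_sq_real, norm_smul, norm_smul, hν, hν', inner_smul_left, inner_smul_right, ← hc]
      simp only [Real.norm_eq_abs, mul_one, sq_abs, conj_trivial]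
      rw [← e1, ← e2]
      ring
    have hpq : s * p + t * q = (p ^ 2 - 2 * c * p * q + q ^ 2) / (1 - c ^ 2) := by
      rw [hs, ht]
      field_simp
      ring
    have hc1 : c ^ 2 ≤ 1 := by linarith
    have hp2 : p ^ 2 ≤ (2 * w) ^ 2 := sq_le_sq' (by linarith [(abs_le.mp hp).1]) (abs_le.mp hp).2
    have hq2 : q ^ 2 ≤ (2 * w) ^ 2 := sq_le_sq' (by linarith [(abs_le.mp hq).1]) (abs_le.mp hq).2
    have hcpq : -(2 * c * p * q) ≤ p ^ 2 + q ^ 2 := by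
      have hcabs : |c| ≤ 1 := by
        rw [← sq_le_one_iff_abs_le_one]
        exact hc1
      have h3 : |c * (p * q)| ≤ 1 * |p * q| := by
        rw [abs_mul]
        exact mul_le_mul_of_nonneg_right hcabs (abs_nonneg _)
      have h4 : 2 * |p * q| ≤ p ^ 2 + q ^ 2 := by
        rw [abs_mul]
        nlinarith [sq_nonneg (|p| - |q|), sq_abs p, sq_abs q]
      have h5 := neg_abs_le (c * (p * q))
      nlinarith
    have hnum : p ^ 2 - 2 * c * p * q + q ^ 2 ≤ 16 * w ^ 2 := by nlinarith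
    have hb : ‖s • ν + t • ν'‖ ^ 2 ≤ (6 * w / δ) ^ 2 := by
      rw [hn, hpq, div_le_iff₀ hG]
      have h6 : (6 * w / δ) ^ 2 * (δ ^ 2 / 2) ≤ (6 * w / δ) ^ 2 * (1 - c ^ 2) := by gcongr
      have h7 : (6 * w / δ) ^ 2 * (δ ^ 2 / 2) = 18 * w ^ 2 := by
        field_simp
        ring
      nlinarith [sq_nonneg w]
    exact (pow_le_pow_iff_left₀ (norm_nonneg _) (by positivity) (by norm_num)).mp hb

/-- **PLAN.**  `c = ⟪ν,ν'⟫`:  `‖ν - ν'‖² = 2 - 2c`, `‖ν + ν'‖² = 2 + 2c`, their sum is `4`, so one of them is `≥ 2` and `1 - c² = ‖ν-ν'‖² ‖ν+ν'‖²/4 ≥ δ²/2`  (if `δ² > 2` … both are `≥ δ²`, still `1 - c² ≥ δ² · 2/4`: the larger one is `≥ 2`).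
`U = span {ν, ν'}`;  `ν, ν'` are linearly independent (`c² < 1`), `finrank U = 2`, `d' := finrank Uᗮ = finrank V - 2` (`Submodule.finrank_add_finrank_orthogonal`).   `b = stdOrthonormalBasis ℝ Uᗮ`.
KEY `κ(v) = fun i => ⌊⟪(b i : V), v - v₀⟫ / r⌋`;  for `‖v - v₀‖ ≤ Λ`: `|⟪b i, v - v₀⟫| ≤ Λ`, so `κ(v) i ∈ Icc ⌊-Λ/r⌋ ⌊Λ/r⌋`: at most `(2Λ/r + 2)^{d'}` keys (`Fintype.piFinset`, `Fintype.card_piFinset`, `Int.card_Icc`).
Two points `v, v'` of the set with the same key, `x = v - v'`:  `x = x_U + x_⊥`;   `‖x_⊥‖² = ∑ ⟪b i, x⟫² ≤ d' r²` (`OrthonormalBasis.sum_sq_norm_inner_right` on `Uᗮ`, `|⟪b i, x⟫| < r`), so `‖x_⊥‖ ≤ d' r` … (`√d' ≤ d'`; `d' = 0`: `x_⊥ = 0`);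
`p = ⟪ν,x⟫`, `q = ⟪ν',x⟫`, `|p|, |q| ≤ 2w`;  `x_U = s ν + t ν'` with `s = (p - c q)/(1 - c²)`, `t = (q - c p)/(1 - c²)`, `‖x_U‖² = s p + t q = (p² - 2cpq + q²)/(1 - c²) ≤ (|p| + |q|)²/(1 - c²) ≤ 32 w²/δ²`, `‖x_U‖ ≤ 6 w/δ`.
   [Shortcut without solving: `y := x - (s ν + t ν')` is orthogonal to `ν, ν'`, hence `y ∈ Uᗮ` and `‖x‖ ≤ ‖s ν + t ν'‖ + ‖y‖`, `‖y‖² = ∑ ⟪b i, y⟫² = ∑ ⟪b i, x⟫²`.]
Choose one point of the set for every occupied key (`Classical.choose`); enumerate the finite set of keys by `Finset.equivFin`. -/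
theorem fla_cod2 {V : Type} [NormedAddCommGroup V] [InnerProductSpace ℝ V] [FiniteDimensional ℝ V] (ν ν' v₀ : V) (a a' w δ r Λ : ℝ)
    (hν : ‖ν‖ = 1) (hν' : ‖ν'‖ = 1) (hδ : 0 < δ) (h1 : δ ≤ ‖ν - ν'‖) (h2 : δ ≤ ‖ν + ν'‖) (hw : 0 ≤ w) (hr : 0 < r) (hΛ : 0 ≤ Λ) :
    ∃ (N : ℕ) (cen : Fin N → V), (N : ℝ) ≤ (2 * Λ / r + 3) ^ (Module.finrank ℝ V - 2) ∧
      ∀ v : V, ‖v - v₀‖ ≤ Λ → |⟪ν, v⟫_ℝ - a| ≤ w → |⟪ν', v⟫_ℝ - a'| ≤ w →
        ∃ i, ‖v - cen i‖ ≤ (Module.finrank ℝ V : ℝ) * r + 6 * w / δ := by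
  classical
  set c := ⟪ν, ν'⟫_ℝ with hc
  have hg : δ ^ 2 / 2 ≤ 1 - c ^ 2 := by
    apply fla_cod2_gram
    · have := norm_sub_sq_real ν ν'
      rw [hν, hν'] at this
      have h3 : δ ^ 2 ≤ ‖ν - ν'‖ ^ 2 := pow_le_pow_left₀ hδ.le h1 2
      linarith
    · have := norm_add_sq_real ν ν'
      rw [hν, hν'] at this
      have h3 : δ ^ 2 ≤ ‖ν + ν'‖ ^ 2 := pow_le_pow_left₀ hδ.le h2 2
      linarith
  have hδ2 : 0 < δ ^ 2 := by positivity
  have hG : 0 < 1 - c ^ 2 := by linarith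
  have hνν : ⟪ν, ν⟫_ℝ = 1 := by rw [real_inner_self_eq_norm_sq, hν]; norm_num
  have hν'ν' : ⟪ν', ν'⟫_ℝ = 1 := by rw [real_inner_self_eq_norm_sq, hν']; norm_num
  have hν'ν : ⟪ν', ν⟫_ℝ = c := by rw [real_inner_comm]
  -- linear independence
  have hli : LinearIndependent ℝ ![ν, ν'] := by
    rw [LinearIndependent.pair_iff]
    intro s t hst
    have e1 : s + t * c = 0 := by
      have := congrArg (fun x => ⟪ν, x⟫_ℝ) hst
      simp only [inner_add_right, inner_smul_right, inner_zero_right, hνν, ← hc] at this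
      linarith
    have e2 : s * c + t = 0 := by
      have := congrArg (fun x => ⟪ν', x⟫_ℝ) hst
      simp only [inner_add_right, inner_smul_right, inner_zero_right, hν'ν', hν'ν] at this
      linarith
    have hs : s * (1 - c ^ 2) = 0 := by linear_combination e1 - c * e2
    have hs0 : s = 0 := by
      rcases mul_eq_zero.mp hs with h | h
      · exact h
      · exact absurd h hG.ne'
    refine ⟨hs0, ?_⟩
    rw [hs0] at e2
    linarith
  set U : Submodule ℝ V := Submodule.span ℝ (Set.range ![ν, ν']) with hU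
  have hUr : Module.finrank ℝ U = 2 := by
    rw [hU, finrank_span_eq_card hli]
    simp
  have hd : Module.finrank ℝ Uᗮ = Module.finrank ℝ V - 2 := by
    have := Submodule.finrank_add_finrank_orthogonal U
    omega
  have hdle : Module.finrank ℝ Uᗮ ≤ Module.finrank ℝ V := by omega
  have hνU : ν ∈ U := Submodule.subset_span ⟨0, rfl⟩
  have hν'U : ν' ∈ U := Submodule.subset_span ⟨1, rfl⟩
  have hmemO : ∀ y : V, ⟪ν, y⟫_ℝ = 0 → ⟪ν', y⟫_ℝ = 0 → y ∈ Uᗮ := by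
    intro y h1 h2
    rw [Submodule.mem_orthogonal]
    intro u hu
    induction hu using Submodule.span_induction with
    | mem x hx =>
      obtain ⟨i, rfl⟩ := hx
      fin_cases i
      · exact h1
      · exact h2
    | zero => exact inner_zero_left _
    | add x y _ _ hx hy => rw [inner_add_left, hx, hy, add_zero]
    | smul a x _ hx => rw [inner_smul_left, hx, mul_zero]
  set b := stdOrthonormalBasis ℝ Uᗮ with hb
  -- the key
  let κ : V → Fin (Module.finrank ℝ Uᗮ) → ℤ := fun v i => ⌊⟪(b i : V), v - v₀⟫_ℝ / r⌋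
  let S : Set V := {v | ‖v - v₀‖ ≤ Λ ∧ |⟪ν, v⟫_ℝ - a| ≤ w ∧ |⟪ν', v⟫_ℝ - a'| ≤ w}
  let Ks : Finset (Fin (Module.finrank ℝ Uᗮ) → ℤ) := Fintype.piFinset fun _ => Finset.Icc ⌊-Λ / r⌋ ⌊Λ / r⌋
  let pick : (Fin (Module.finrank ℝ Uᗮ) → ℤ) → V := fun k => if h : ∃ v ∈ S, κ v = k then h.choose else v₀
  have hbn : ∀ i, ‖(b i : V)‖ = 1 := fun i => by
    exact b.orthonormal.1 i
  refine ⟨Ks.card, fun i => pick (Ks.equivFin.symm i), ?_, ?_⟩
  · have hcard : ((Finset.Icc ⌊-Λ / r⌋ ⌊Λ / r⌋).card : ℝ) ≤ 2 * Λ / r + 3 := by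
      rw [Int.card_Icc]
      have hle : ⌊-Λ / r⌋ ≤ ⌊Λ / r⌋ := by
        apply Int.floor_le_floor
        apply div_le_div_of_nonneg_right _ hr.le
        linarith
      have hnn : 0 ≤ ⌊Λ / r⌋ + 1 - ⌊-Λ / r⌋ := by omega
      have e : (((⌊Λ / r⌋ + 1 - ⌊-Λ / r⌋).toNat : ℕ) : ℝ) = ((⌊Λ / r⌋ + 1 - ⌊-Λ / r⌋ : ℤ) : ℝ) := by
        have := Int.toNat_of_nonneg hnn
        exact_mod_cast this
      rw [e]
      push_cast
      have a1 := Int.floor_le (Λ / r)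
      have a2 := Int.lt_floor_add_one (-Λ / r)
      have e2 : Λ / r - -Λ / r = 2 * Λ / r := by ring
      linarith
    have : (Ks.card : ℝ) = ((Finset.Icc ⌊-Λ / r⌋ ⌊Λ / r⌋).card : ℝ) ^ (Module.finrank ℝ Uᗮ) := by
      simp only [Ks]
      rw [Fintype.card_piFinset, Finset.prod_const, Finset.card_univ, Fintype.card_fin]
      push_cast
      rfl
    rw [this, ← hd]
    exact pow_le_pow_left₀ (Nat.cast_nonneg _) hcard _
  · intro v hv1 hv2 hv3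
    have hvS : v ∈ S := ⟨hv1, hv2, hv3⟩
    have hκ : κ v ∈ Ks := by
      simp only [Ks]
      rw [Fintype.mem_piFinset]
      intro i
      have habs : |⟪(b i : V), v - v₀⟫_ℝ| ≤ Λ := by
        refine (abs_real_inner_le_norm _ _).trans ?_
        rw [hbn i, one_mul]
        exact hv1
      rw [abs_le] at habs
      rw [Finset.mem_Icc]
      constructor <;> apply Int.floor_le_floor <;> apply div_le_div_of_nonneg_right _ hr.le <;> linarith [habs.1, habs.2]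
    refine ⟨Ks.equivFin ⟨κ v, hκ⟩, ?_⟩
    show ‖v - pick ↑(Ks.equivFin.symm (Ks.equivFin ⟨κ v, hκ⟩))‖ ≤ _
    rw [Equiv.symm_apply_apply]
    have hex : ∃ v' ∈ S, κ v' = κ v := ⟨v, hvS, rfl⟩
    have hpick : pick (κ v) = hex.choose := by
      simp only [pick]
      rw [dif_pos hex]
    show ‖v - pick (κ v)‖ ≤ _
    rw [hpick]
    obtain ⟨⟨hv1', hv2', hv3'⟩, hκ'⟩ := hex.choose_spec
    set v' := hex.choose
    set x := v - v' with hx
    have hp : |⟪ν, x⟫_ℝ| ≤ 2 * w := by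
      rw [hx, inner_sub_right]
      rw [abs_le] at hv2 hv2' ⊢
      constructor <;> linarith [hv2.1, hv2.2, hv2'.1, hv2'.2]
    have hq : |⟪ν', x⟫_ℝ| ≤ 2 * w := by
      rw [hx, inner_sub_right]
      rw [abs_le] at hv3 hv3' ⊢
      constructor <;> linarith [hv3.1, hv3.2, hv3'.1, hv3'.2]
    obtain ⟨s, t, e1, e2, hu⟩ := fla_cod2_plane ν ν' hν hν' hδ hg hw hp hq
    set u := s • ν + t • ν' with hudef
    have huU : u ∈ U := U.add_mem (U.smul_mem s hνU) (U.smul_mem t hν'U)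
    have hyO : x - u ∈ Uᗮ := by
      apply hmemO
      · rw [inner_sub_right, hudef, inner_add_right, inner_smul_right, inner_smul_right, hνν, ← hc]
        linarith
      · rw [inner_sub_right, hudef, inner_add_right, inner_smul_right, inner_smul_right, hν'ν', hν'ν]
        linarith
    have hcoord : ∀ i, |⟪(b i : V), x - u⟫_ℝ| ≤ r := by
      intro i
      have h0 : ⟪(b i : V), u⟫_ℝ = 0 := Submodule.inner_left_of_mem_orthogonal huU (b i).2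
      rw [inner_sub_right, h0, sub_zero]
      have hk : ⌊⟪(b i : V), v' - v₀⟫_ℝ / r⌋ = ⌊⟪(b i : V), v - v₀⟫_ℝ / r⌋ := congrFun hκ' i
      have e : ⟪(b i : V), x⟫_ℝ = ⟪(b i : V), v - v₀⟫_ℝ - ⟪(b i : V), v' - v₀⟫_ℝ := by
        rw [← inner_sub_right]
        congr 1
        rw [hx]
        abel
      rw [e]
      have f1 := Int.floor_le (⟪(b i : V), v - v₀⟫_ℝ / r)
      have f2 := Int.lt_floor_add_one (⟪(b i : V), v - v₀⟫_ℝ / r)
      have f3 := Int.floor_le (⟪(b i : V), v' - v₀⟫_ℝ / r)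
      have f4 := Int.lt_floor_add_one (⟪(b i : V), v' - v₀⟫_ℝ / r)
      rw [hk] at f3 f4
      rw [le_div_iff₀ hr] at f1 f3
      rw [div_lt_iff₀ hr] at f2 f4
      rw [abs_le]
      constructor <;> linarith
    have hy2 : ‖x - u‖ ^ 2 ≤ (Module.finrank ℝ Uᗮ : ℝ) * r ^ 2 := by
      have := b.sum_sq_norm_inner_right (⟨x - u, hyO⟩ : Uᗮ)
      have e : ‖(⟨x - u, hyO⟩ : Uᗮ)‖ = ‖x - u‖ := rfl
      rw [e] at this
      rw [← this]
      calc ∑ i, ‖⟪b i, (⟨x - u, hyO⟩ : Uᗮ)⟫_ℝ‖ ^ 2 ≤ ∑ _i : Fin (Module.finrank ℝ Uᗮ), r ^ 2 := by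
            refine Finset.sum_le_sum fun i _ => ?_
            have : ⟪b i, (⟨x - u, hyO⟩ : Uᗮ)⟫_ℝ = ⟪(b i : V), x - u⟫_ℝ := rfl
            rw [this, Real.norm_eq_abs]
            exact pow_le_pow_left₀ (abs_nonneg _) (hcoord i) 2
        _ = (Module.finrank ℝ Uᗮ : ℝ) * r ^ 2 := by
            rw [Finset.sum_const, Finset.card_univ, Fintype.card_fin, nsmul_eq_mul]
    have hy : ‖x - u‖ ≤ (Module.finrank ℝ V : ℝ) * r := by
      have hD : (Module.finrank ℝ Uᗮ : ℝ) ≤ (Module.finrank ℝ V : ℝ) := by exact_mod_cast hdle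
      have hD2 : (Module.finrank ℝ Uᗮ : ℝ) ≤ (Module.finrank ℝ V : ℝ) ^ 2 := by
        rcases Nat.eq_zero_or_pos (Module.finrank ℝ V) with h0 | h0
        · have : Module.finrank ℝ Uᗮ = 0 := by omega
          rw [this, h0]
          norm_num
        · have h1 : (1 : ℝ) ≤ (Module.finrank ℝ V : ℝ) := by exact_mod_cast h0
          nlinarith
      have h3 : ‖x - u‖ ^ 2 ≤ ((Module.finrank ℝ V : ℝ) * r) ^ 2 := by
        rw [mul_pow]
        refine hy2.trans ?_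
        exact mul_le_mul_of_nonneg_right hD2 (sq_nonneg r)
      exact (pow_le_pow_iff_left₀ (norm_nonneg _) (by positivity) (by norm_num)).mp h3
    calc ‖x‖ = ‖(x - u) + u‖ := by rw [sub_add_cancel]
      _ ≤ ‖x - u‖ + ‖u‖ := norm_add_le _ _
      _ ≤ _ := add_le_add hy hu

/-! ## LEAF L-FLA-2C : the intersection of two separated plates      (~200 l.) -/

/-- the projective normals differ by at least `δ` -/
def Plate.Sep (δ : ℝ) (P P' : Plate n) : Prop :=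
  δ ^ 2 ≤ ‖P.nx - P'.nx‖ ^ 2 + (P.nt - P'.nt) ^ 2 ∧ δ ^ 2 ≤ ‖P.nx + P'.nx‖ ^ 2 + (P.nt + P'.nt) ^ 2

/-- the bound of the mass of the intersection of two separated plates of half width `w` in the domain `‖x - x₀‖ ≤ Λ₀`, `|t| ≤ T` -/
noncomputable def flaPair (n : ℕ) (m Λ₀ T w δ : ℝ) : ℝ := (2 * (Λ₀ + T) * δ / w + 3) ^ (n - 1) * (m * (((n : ℝ) + 7) * (w / δ)) ^ n)

theorem fla_pair_finrank (n : ℕ) : Module.finrank ℝ (WithLp 2 (E n × ℝ)) = n + 1 := by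
  rw [LinearEquiv.finrank_eq (WithLp.linearEquiv 2 ℝ (E n × ℝ)), Module.finrank_prod, finrank_euclideanSpace_fin,
    Module.finrank_self]

theorem fla_pair_norm (z : ST n) : ‖(WithLp.toLp 2 z : WithLp 2 (E n × ℝ))‖ ^ 2 = ‖z.1‖ ^ 2 + z.2 ^ 2 := by
  rw [WithLp.prod_norm_sq_eq_of_L2]
  simp

theorem fla_pair_inner (a z : ST n) :
    ⟪(WithLp.toLp 2 a : WithLp 2 (E n × ℝ)), WithLp.toLp 2 z⟫_ℝ = ⟪a.1, z.1⟫_ℝ + a.2 * z.2 := by
  rw [WithLp.prod_inner_apply]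
  simp [mul_comm]

theorem fla_pair_le (z : ST n) : ‖z‖ ≤ ‖(WithLp.toLp 2 z : WithLp 2 (E n × ℝ))‖ := by
  have h := fla_pair_norm z
  rw [Prod.norm_def]
  refine max_le ?_ ?_
  · refine abs_le_of_sq_le_sq' ?_ (norm_nonneg _) |>.2
    rw [h]
    nlinarith [sq_nonneg z.2]
  · refine abs_le_of_sq_le_sq' ?_ (norm_nonneg _) |>.2
    rw [h, Real.norm_eq_abs, sq_abs]
    nlinarith [sq_nonneg ‖z.1‖]

theorem fla_pair_ge (z : ST n) : ‖(WithLp.toLp 2 z : WithLp 2 (E n × ℝ))‖ ≤ ‖z.1‖ + |z.2| := by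
  have h := fla_pair_norm z
  refine abs_le_of_sq_le_sq' ?_ (by positivity) |>.2
  rw [h]
  nlinarith [norm_nonneg z.1, abs_nonneg z.2, sq_abs z.2, mul_nonneg (norm_nonneg z.1) (abs_nonneg z.2)]

/-- **PLAN.**  `V = WithLp 2 (E n × ℝ)` (`finrank = n + 1`: `finrank_prod`, `finrank_euclideanSpace_fin`, through `WithLp.linearEquiv`), `j z = WithLp.toLp 2 z`;  `⟪j ν, j z⟫ = ⟪ν.1,z.1⟫ + ν.2 * z.2` (`WithLp.prod_inner_apply`; real inner product on `ℝ`: `real_inner_eq…`/`mul_comm`),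
`‖j z‖² = ‖z.1‖² + z.2²` (`WithLp.prod_norm_sq_eq_of_L2`), so `‖z‖ ≤ ‖j z‖ ≤ ‖z.1‖ + |z.2|`.   `fla_cod2` with `ν = j (P.nx, P.nt)`, `ν' = j (P'.nx, P'.nt)`, `v₀ = j (x₀, 0)`, `Λ = Λ₀ + T`, `r = w/δ` (`2Λ/r = 2Λδ/w`), radius `(n+1) r + 6w/δ = (n+7)(w/δ) ≥ 1`.
Up to the null sets of `hs`, `hb` the set is covered by the `N` balls `closedBall (cen i as a point of ST n) ((n+7) w/δ)` (sup metric `≤` Euclidean);  `Grow` (`Real.rpow_natCast`), `inf_A6_count` / `measure_iUnion_fintype_le`. -/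
theorem fla_pair {μ : Measure (ST n)} {m T Λ₀ w δ : ℝ} (hμ : Grow μ m n) (hm : 0 ≤ m) (hs : Slab μ T) (x₀ : E n) (hb : InBall μ x₀ Λ₀)
    (hT : 0 ≤ T) (hΛ : 0 ≤ Λ₀) (P P' : Plate n) (hP : ‖P.nx‖ ^ 2 + P.nt ^ 2 = 1) (hP' : ‖P'.nx‖ ^ 2 + P'.nt ^ 2 = 1) (hδ : 0 < δ)
    (hsep : P.Sep δ P') (hw : δ ≤ w) :
    μ {z | P.dist z ≤ w ∧ P'.dist z ≤ w} ≤ ENNReal.ofReal (flaPair n m Λ₀ T w δ) := by
  classical
  have hw0 : 0 < w := lt_of_lt_of_le hδ hw
  have hr : 0 < w / δ := div_pos hw0 hδ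
  have hr1 : 1 ≤ w / δ := (one_le_div hδ).2 hw
  have hunit : ∀ Q : Plate n, ‖Q.nx‖ ^ 2 + Q.nt ^ 2 = 1 →
      ‖(WithLp.toLp 2 ((Q.nx, Q.nt) : ST n) : WithLp 2 (E n × ℝ))‖ = 1 := by
    intro Q hQ
    have h := fla_pair_norm ((Q.nx, Q.nt) : ST n)
    simp only at h
    rw [hQ] at h
    exact (pow_eq_one_iff_of_nonneg (norm_nonneg _) two_ne_zero).1 h
  have h1 : δ ≤ ‖(WithLp.toLp 2 ((P.nx, P.nt) : ST n) : WithLp 2 (E n × ℝ)) - WithLp.toLp 2 ((P'.nx, P'.nt) : ST n)‖ := by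
    have e : (WithLp.toLp 2 ((P.nx, P.nt) : ST n) : WithLp 2 (E n × ℝ)) - WithLp.toLp 2 ((P'.nx, P'.nt) : ST n)
        = WithLp.toLp 2 ((P.nx - P'.nx, P.nt - P'.nt) : ST n) := rfl
    rw [e]
    refine (pow_le_pow_iff_left₀ hδ.le (norm_nonneg _) two_ne_zero).1 ?_
    rw [fla_pair_norm]
    exact hsep.1
  have h2 : δ ≤ ‖(WithLp.toLp 2 ((P.nx, P.nt) : ST n) : WithLp 2 (E n × ℝ)) + WithLp.toLp 2 ((P'.nx, P'.nt) : ST n)‖ := by
    have e : (WithLp.toLp 2 ((P.nx, P.nt) : ST n) : WithLp 2 (E n × ℝ)) + WithLp.toLp 2 ((P'.nx, P'.nt) : ST n)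
        = WithLp.toLp 2 ((P.nx + P'.nx, P.nt + P'.nt) : ST n) := rfl
    rw [e]
    refine (pow_le_pow_iff_left₀ hδ.le (norm_nonneg _) two_ne_zero).1 ?_
    rw [fla_pair_norm]
    exact hsep.2
  obtain ⟨N, cen, hN, hcov⟩ := fla_cod2 (V := WithLp 2 (E n × ℝ)) (WithLp.toLp 2 ((P.nx, P.nt) : ST n))
    (WithLp.toLp 2 ((P'.nx, P'.nt) : ST n)) (WithLp.toLp 2 ((x₀, 0) : ST n)) P.a P'.a w δ (w / δ) (Λ₀ + T)
    (hunit P hP) (hunit P' hP') hδ h1 h2 hw0.le hr (by positivity)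
  rw [fla_pair_finrank] at hN hcov
  obtain ⟨ρ, hρ⟩ : ∃ ρ : ℝ, ρ = ((n : ℝ) + 7) * (w / δ) := ⟨_, rfl⟩
  have hρ1 : 1 ≤ ρ := by
    rw [hρ]
    have : (0 : ℝ) ≤ n := Nat.cast_nonneg n
    nlinarith
  have hsub : {z : ST n | P.dist z ≤ w ∧ P'.dist z ≤ w} ⊆
      ({z : ST n | T < |z.2|} ∪ {z : ST n | Λ₀ < ‖z.1 - x₀‖}) ∪ ⋃ i : Fin N, closedBall (WithLp.ofLp (cen i) : ST n) ρ := by
    intro z hz
    by_cases hz1 : T < |z.2|
    · exact Or.inl (Or.inl hz1)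
    by_cases hz2 : Λ₀ < ‖z.1 - x₀‖
    · exact Or.inl (Or.inr hz2)
    refine Or.inr ?_
    rw [not_lt] at hz1 hz2
    have a1 : ‖(WithLp.toLp 2 z : WithLp 2 (E n × ℝ)) - WithLp.toLp 2 ((x₀, 0) : ST n)‖ ≤ Λ₀ + T := by
      have e : (WithLp.toLp 2 z : WithLp 2 (E n × ℝ)) - WithLp.toLp 2 ((x₀, 0) : ST n)
          = WithLp.toLp 2 ((z.1 - x₀, z.2 - 0) : ST n) := rfl
      rw [e]
      refine (fla_pair_ge _).trans ?_
      simp only [sub_zero]
      linarith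
    have a2 : |⟪(WithLp.toLp 2 ((P.nx, P.nt) : ST n) : WithLp 2 (E n × ℝ)), WithLp.toLp 2 z⟫_ℝ - P.a| ≤ w := by
      rw [fla_pair_inner]
      exact hz.1
    have a3 : |⟪(WithLp.toLp 2 ((P'.nx, P'.nt) : ST n) : WithLp 2 (E n × ℝ)), WithLp.toLp 2 z⟫_ℝ - P'.a| ≤ w := by
      rw [fla_pair_inner]
      exact hz.2
    obtain ⟨i, hi⟩ := hcov _ a1 a2 a3
    refine mem_iUnion.2 ⟨i, ?_⟩
    rw [mem_closedBall, dist_eq_norm]
    have e : (WithLp.toLp 2 z : WithLp 2 (E n × ℝ)) - cen i = WithLp.toLp 2 (z - WithLp.ofLp (cen i)) := rfl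
    rw [e] at hi
    refine (fla_pair_le _).trans (hi.trans (le_of_eq ?_))
    rw [hρ]
    push_cast
    field_simp
    ring
  have hball : ∀ i : Fin N, μ (closedBall (WithLp.ofLp (cen i) : ST n) ρ) ≤ ENNReal.ofReal (m * ρ ^ n) := by
    intro i
    have := hμ (WithLp.ofLp (cen i)) ρ hρ1
    rwa [Real.rpow_natCast] at this
  have hmρ : 0 ≤ m * ρ ^ n := by positivity
  calc μ {z | P.dist z ≤ w ∧ P'.dist z ≤ w}
      ≤ μ (({z : ST n | T < |z.2|} ∪ {z : ST n | Λ₀ < ‖z.1 - x₀‖}) ∪ ⋃ i : Fin N, closedBall (WithLp.ofLp (cen i) : ST n) ρ) :=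
        measure_mono hsub
    _ ≤ (μ {z : ST n | T < |z.2|} + μ {z : ST n | Λ₀ < ‖z.1 - x₀‖}) + ∑ i : Fin N, μ (closedBall (WithLp.ofLp (cen i) : ST n) ρ) :=
        (measure_union_le _ _).trans (add_le_add (measure_union_le _ _) (measure_iUnion_fintype_le _ _))
    _ ≤ (0 + 0) + ∑ _i : Fin N, ENNReal.ofReal (m * ρ ^ n) :=
        add_le_add (add_le_add (le_of_eq hs) (le_of_eq hb)) (Finset.sum_le_sum fun i _ => hball i)
    _ = ENNReal.ofReal ((N : ℝ) * (m * ρ ^ n)) := by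
        rw [Finset.sum_const, Finset.card_univ, Fintype.card_fin, nsmul_eq_mul, add_zero, zero_add,
          ENNReal.ofReal_mul (Nat.cast_nonneg N), ENNReal.ofReal_natCast]
    _ ≤ ENNReal.ofReal (flaPair n m Λ₀ T w δ) := by
        refine ENNReal.ofReal_le_ofReal ?_
        unfold flaPair
        rw [← hρ]
        refine mul_le_mul_of_nonneg_right (hN.trans (le_of_eq ?_)) hmρ
        have e1 : n + 1 - 2 = n - 1 := by omega
        have e2 : 2 * (Λ₀ + T) / (w / δ) = 2 * (Λ₀ + T) * δ / w := by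
          field_simp
        rw [e1, e2]

/-! ## LEAF L-FLA-2D : non separated plates occupy few cells      (~150 l.) -/

theorem fla_floor_near {x y : ℝ} (h : |x - y| < 1) : ⌊x⌋ ∈ Finset.Icc (⌊y⌋ - 1) (⌊y⌋ + 1) := by
  rw [abs_lt] at h
  have a1 := Int.floor_le x
  have a2 := Int.lt_floor_add_one x
  have b1 := Int.floor_le y
  have b2 := Int.lt_floor_add_one y
  have c1 : (⌊x⌋ : ℝ) < (⌊y⌋ : ℝ) + 2 := by linarith [h.1, h.2]
  have c2 : (⌊y⌋ : ℝ) - 2 < (⌊x⌋ : ℝ) := by linarith [h.1, h.2]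
  have c1' : ⌊x⌋ < ⌊y⌋ + 2 := by exact_mod_cast c1
  have c2' : ⌊y⌋ - 2 < ⌊x⌋ := by exact_mod_cast c2
  rw [Finset.mem_Icc]
  constructor <;> omega

/-- the box of side 3 about a cell -/
noncomputable def flaBox (k : MI n) : Finset (MI n) :=
  (Fintype.piFinset fun i => Finset.Icc (k.1 i - 1) (k.1 i + 1)) ×ˢ Finset.Icc (k.2 - 1) (k.2 + 1)

theorem fla_box_card (k : MI n) : (flaBox k).card = 3 ^ (n + 1) := by
  have h3 : ∀ m : ℤ, (Finset.Icc (m - 1) (m + 1)).card = 3 := by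
    intro m
    rw [Int.card_Icc]
    have : m + 1 + 1 - (m - 1) = 3 := by ring
    rw [this]
    rfl
  unfold flaBox
  rw [Finset.card_product, Fintype.card_piFinset, h3]
  simp_rw [h3]
  rw [Finset.prod_const, Finset.card_univ, Fintype.card_fin, pow_succ]

theorem fla_small_coord {h s : ℝ} {u : E n} (hh : 0 < h) (hs : ‖u‖ ^ 2 + s ^ 2 < (1 / h) ^ 2) : (∀ i, |h * u i| < 1) ∧ |h * s| < 1 := by
  have hh2 : 0 < h ^ 2 := by positivity
  have h1 : h ^ 2 * (‖u‖ ^ 2 + s ^ 2) < 1 := by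
    have := mul_lt_mul_of_pos_left hs hh2
    have e : h ^ 2 * (1 / h) ^ 2 = 1 := by
      field_simp
    linarith
  constructor
  · intro i
    rw [← sq_lt_one_iff_abs_lt_one, mul_pow]
    have h2 : |u i| ≤ ‖u‖ := by
      have := PiLp.norm_apply_le u i
      rwa [Real.norm_eq_abs] at this
    have h3 : (u i) ^ 2 ≤ ‖u‖ ^ 2 := by
      rw [← sq_abs (u i)]
      exact pow_le_pow_left₀ (abs_nonneg _) h2 2
    nlinarith [sq_nonneg s]
  · rw [← sq_lt_one_iff_abs_lt_one, mul_pow]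
    nlinarith [sq_nonneg ‖u‖]

/-- **PLAN.**  `J = ∅`: trivial.   Fix `j₀ ∈ J`, `k⁺ = key j₀`, `k⁻ = (fun i => ⌊-(h ν_x i)⌋, ⌊-(h ν_t)⌋)` for the plate `j₀`.   For `j ∈ J`, `¬ Sep (1/h)` gives `‖ν_x - ν⁰_x‖² + (ν_t - ν⁰_t)² < 1/h²` or the same with `+`.
In the first case every coordinate satisfies `|h ν_i - h ν⁰_i| < 1` (`|x i| ≤ ‖x‖`: `EuclideanSpace.norm_eq`/`PiLp.norm_apply_le`), so `|⌊h ν_i⌋ - ⌊h ν⁰_i⌋| ≤ 1` (`Int.floor_le`, `Int.lt_floor_add_one`): `key j ∈ k⁺ + {-1,0,1}^{n+1}`;  in the second case `key j ∈ k⁻ + {-1,0,1}^{n+1}`.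
Card of `k + {-1,0,1}^{n+1}` = `(Fintype.piFinset fun i => Icc (k.1 i - 1) (k.1 i + 1)) ×ˢ Icc (k.2 - 1) (k.2 + 1)` is `3^n · 3`;  `Finset.card_le_card`, `Finset.card_union_le`. -/
theorem fla_keys_card (F : FlaD n ι) (hh : 0 < F.h) (J : Finset (Fin F.Np))
    (hJ : ∀ j ∈ J, ∀ j' ∈ J, ¬ (F.P j).Sep (1 / F.h) (F.P j')) : (J.image F.key).card ≤ 2 * 3 ^ (n + 1) := by
  classical
  rcases J.eq_empty_or_nonempty with rfl | ⟨j₀, hj₀⟩
  · simp
  have hsub : J.image F.key ⊆ flaBox (F.key j₀) ∪ flaBox ((fun i => ⌊-(F.h * (F.P j₀).nx i)⌋, ⌊-(F.h * (F.P j₀).nt)⌋) : MI n) := by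
    intro k hk
    obtain ⟨j, hj, rfl⟩ := Finset.mem_image.mp hk
    have hns := hJ j hj j₀ hj₀
    unfold Plate.Sep at hns
    rw [not_and_or, not_le, not_le] at hns
    rw [Finset.mem_union]
    rcases hns with hm | hp
    · left
      obtain ⟨c1, c2⟩ := fla_small_coord hh hm
      unfold flaBox
      rw [Finset.mem_product, Fintype.mem_piFinset]
      refine ⟨fun i => ?_, ?_⟩
      · apply fla_floor_near
        have := c1 i
        rw [PiLp.sub_apply, mul_sub] at this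
        exact this
      · apply fla_floor_near
        rw [mul_sub] at c2
        exact c2
    · right
      obtain ⟨c1, c2⟩ := fla_small_coord hh hp
      unfold flaBox
      rw [Finset.mem_product, Fintype.mem_piFinset]
      refine ⟨fun i => ?_, ?_⟩
      · apply fla_floor_near
        have := c1 i
        rw [PiLp.add_apply, mul_add] at this
        rw [sub_neg_eq_add]
        exact this
      · apply fla_floor_near
        rw [mul_add] at c2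
        rw [sub_neg_eq_add]
        exact c2
  calc (J.image F.key).card ≤ _ := Finset.card_le_card hsub
    _ ≤ _ := Finset.card_union_le _ _
    _ = 2 * 3 ^ (n + 1) := by
        rw [fla_box_card, fla_box_card]
        ring

/-! ## LEAF L-FLA-2E : one cluster field is large      (~150 l.) -/

/-- **PLAN.**  `J = univ.filter (fun j => (F.P j).dist z ≤ w₁)`, `KJ = J.image F.key`, `KJ.card ≤ 2·3^{n+1}` (`fla_keys_card`, `hz`).   If `k ∈ F.keys \ KJ` then `fld (clu k) c z = 0`: every `α ∈ clu k` has `asg α = some j`, `key j = k`, so `j ∉ J`, and `fla_supp` (+ `fla_asg_some`,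
`fla_unit_le`, `hw₁`) gives `atom α z = 0`.   `fla_fld_clu`: `fld sa c z = ∑_{k ∈ KJ} fld (clu k) c z` (`KJ ⊆ keys`; `Finset.sum_subset`).   `θ ≤ ∑_{k ∈ KJ} ‖..‖ ≤ card · max`: if all terms were `< θ/(2·3^{n+1})` the sum would be `< θ` (for `θ ≤ 0` … `KJ = ∅` forces `θ ≤ 0`:
then use any key?  NO key may exist: this is why `0 < θ` is assumed: then `KJ ≠ ∅`; `Finset.exists_le_of_sum_le` / `Finset.exists_max_image`). -/
theorem fla_pigeon (F : FlaD n ι) {K : Cls} (hA : F.A.In F.s K) (htc : ∀ α ∈ F.s, F.A.tc α = 0)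
    (hunit : ∀ j, ‖(F.P j).nx‖ ^ 2 + (F.P j).nt ^ 2 = 1) (hh : 0 < F.h) {w₁ θ : ℝ}
    (hw₁ : F.w₈ + F.v₉ * (F.T + K.R * F.A.L ^ 2) + K.R * F.A.L ≤ w₁) (hθ0 : 0 < θ) (z : ST n)
    (hz : ∀ j j', (F.P j).dist z ≤ w₁ → (F.P j').dist z ≤ w₁ → ¬ (F.P j).Sep (1 / F.h) (F.P j'))
    (hθ : θ ≤ ‖F.A.fld F.sa F.c z‖) : ∃ k ∈ F.keys, θ / (2 * 3 ^ (n + 1)) ≤ ‖F.A.fld (F.clu k) F.c z‖ := by
  classical
  set J : Finset (Fin F.Np) := Finset.univ.filter (fun j => (F.P j).dist z ≤ w₁) with hJ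
  set KJ : Finset (MI n) := J.image F.key with hKJ
  have hcard : KJ.card ≤ 2 * 3 ^ (n + 1) := by
    apply fla_keys_card F hh J
    intro j hj j' hj'
    exact hz j j' (Finset.mem_filter.mp hj).2 (Finset.mem_filter.mp hj').2
  have hKsub : KJ ⊆ F.keys := by
    intro k hk
    obtain ⟨j, _, rfl⟩ := Finset.mem_image.mp hk
    unfold FlaD.keys
    exact Finset.mem_image_of_mem _ (Finset.mem_univ _)
  have hzero : ∀ k ∈ F.keys, k ∉ KJ → F.A.fld (F.clu k) F.c z = 0 := by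
    intro k _ hk
    unfold Arr.fld
    apply Finset.sum_eq_zero
    intro α hα
    unfold FlaD.clu at hα
    obtain ⟨hαs, j, hj, hkey⟩ := Finset.mem_filter.mp hα
    have hjJ : ¬ (F.P j).dist z ≤ w₁ := by
      intro hd
      apply hk
      rw [← hkey]
      exact Finset.mem_image_of_mem _ (Finset.mem_filter.mpr ⟨Finset.mem_univ _, hd⟩)
    have hat : F.A.atom α z = 0 := by
      by_contra hne
      exact hjJ ((fla_supp hA hαs (htc α hαs) (fla_unit_le _ (hunit j)).1 (fla_asg_some F hj) hne).trans hw₁)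
    rw [hat, mul_zero]
  have hsum : F.A.fld F.sa F.c z = ∑ k ∈ KJ, F.A.fld (F.clu k) F.c z := by
    rw [fla_fld_clu]
    exact (Finset.sum_subset hKsub hzero).symm
  by_contra hcon
  push Not at hcon
  have hM : (0 : ℝ) < 2 * 3 ^ (n + 1) := by positivity
  have h1 : θ ≤ ∑ k ∈ KJ, ‖F.A.fld (F.clu k) F.c z‖ := by
    rw [hsum] at hθ
    exact hθ.trans (norm_sum_le _ _)
  rcases KJ.eq_empty_or_nonempty with he | hne
  · rw [he, Finset.sum_empty] at h1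
    linarith
  · have h2 : ∑ k ∈ KJ, ‖F.A.fld (F.clu k) F.c z‖ < ∑ _k ∈ KJ, θ / (2 * 3 ^ (n + 1)) :=
      Finset.sum_lt_sum_of_nonempty hne fun k hk => hcon k (hKsub hk)
    rw [Finset.sum_const, nsmul_eq_mul] at h2
    have h3 : (KJ.card : ℝ) ≤ 2 * 3 ^ (n + 1) := by exact_mod_cast hcard
    have h4 : (KJ.card : ℝ) * (θ / (2 * 3 ^ (n + 1))) ≤ (2 * 3 ^ (n + 1)) * (θ / (2 * 3 ^ (n + 1))) :=
      mul_le_mul_of_nonneg_right h3 (by positivity)
    have h5 : (2 * 3 ^ (n + 1) : ℝ) * (θ / (2 * 3 ^ (n + 1))) = θ := by field_simp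
    linarith

/-! ## LEAF L-FLA-2F : the frequencies of a cluster lie near a hyperplane      (~200 l.) -/

/-- the flatness constant: depends only on `n` and on the radius of the frequency region -/
noncomputable def flaC1 (n : ℕ) (Rω : ℝ) : ℝ := (2 + 2 * Rω * Real.sqrt n) * (2 / 3 * (1 + 2 * Rω) ^ 2)

theorem fla_floor_close {a b : ℝ} (h : ⌊a⌋ = ⌊b⌋) : |a - b| ≤ 1 := by
  have h1 := Int.floor_le a
  have h2 := Int.lt_floor_add_one a
  have h3 := Int.floor_le b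
  have h4 := Int.lt_floor_add_one b
  rw [h] at h1 h2
  rw [abs_le]
  constructor <;> linarith

/-- **PLAN.**  `clu k = ∅`: `e` = a unit vector (`EuclideanSpace.single ⟨0, _⟩ 1`, `1 ≤ n`), `b = 0` (`0 ≤ flaC1`).   Otherwise `α₀ ∈ clu k`, `asg α₀ = some j₀`, `key j₀ = k`;  `ν = (ν_x, ν_t)` the normal of `P j₀`, `x = ‖ν_x‖`.
LOWER BOUND: `|nvel_{j₀}(ω_{α₀})| ≤ v₉ ≤ 1/2` gives `|ν_t| ≤ 1/2 + 2 Rω x`;  `1 = x² + ν_t² ≤ x + (1/2 + 2Rω x)² ≤ 1/4 + x (1 + 2Rω + 4Rω²)` (`x ≤ 1`), so `x ≥ 3/(4 (1+2Rω)²)`, `1/(2x) ≤ 2/3 (1+2Rω)²`.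
`e = x⁻¹ • ν_x`, `b = -ν_t/(2x)`:  `|b| ≤ 1/(2x) ≤ flaC1` (`2 + … ≥ 1`),  `⟪e,ω⟫ - b = nvel_{j₀}(ω)/(2x)`.
For `α ∈ clu k`, `asg α = some j`, `key j = k = key j₀`: equal floors give `|h ν^j_i - h ν_i| < 1`, so `‖ν^j_x - ν_x‖ ≤ √n/h` (`wh_norm_le_sqrt`), `|ν^j_t - ν_t| ≤ 1/h`;
`|nvel_{j₀}(ω_α)| ≤ |nvel_j(ω_α)| + 2 ‖ν^j_x - ν_x‖ Rω + |ν^j_t - ν_t| ≤ v₉ + (2 Rω √n + 1)/h ≤ (2 + 2Rω√n)/h` (`hhv`). -/
theorem fla_flat (F : FlaD n ι) (hn : 1 ≤ n) {Rω : ℝ} (hfreq : ∀ α ∈ F.s, ‖F.A.om α‖ ≤ Rω) (hRω : 0 ≤ Rω)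
    (hunit : ∀ j, ‖(F.P j).nx‖ ^ 2 + (F.P j).nt ^ 2 = 1) (hh : 0 < F.h) (hhv : F.h * F.v₉ ≤ 1) (hv2 : 2 * F.v₉ ≤ 1) (k : MI n) :
    ∃ (e : E n) (b : ℝ), ‖e‖ = 1 ∧ |b| ≤ flaC1 n Rω ∧ ∀ α ∈ F.clu k, |⟪e, F.A.om α⟫_ℝ - b| ≤ flaC1 n Rω / F.h := by
  classical
  have hC0 : 0 ≤ Real.sqrt n := Real.sqrt_nonneg _
  have hA1 : 1 ≤ 2 + 2 * Rω * Real.sqrt n := by nlinarith [mul_nonneg hRω hC0]
  have hB0 : 0 ≤ 2 / 3 * (1 + 2 * Rω) ^ 2 := by positivity
  have hflaC : 2 / 3 * (1 + 2 * Rω) ^ 2 ≤ flaC1 n Rω := by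
    unfold flaC1
    nlinarith
  by_cases hemp : F.clu k = ∅
  · refine ⟨EuclideanSpace.single ⟨0, by omega⟩ 1, 0, by simp, ?_, ?_⟩
    · rw [abs_zero]
      exact hB0.trans hflaC
    · intro α hα
      rw [hemp] at hα
      exact absurd hα (Finset.notMem_empty α)
  · obtain ⟨α₀, hα₀⟩ := Finset.nonempty_iff_ne_empty.2 hemp
    unfold FlaD.clu at hα₀
    obtain ⟨hα₀s, j₀, hj₀, hk₀⟩ := Finset.mem_filter.1 hα₀
    set νx := (F.P j₀).nx with hνx
    set νt := (F.P j₀).nt with hνtd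
    set x := ‖νx‖ with hx
    have hx0 : 0 ≤ x := norm_nonneg _
    have hx1 : x ≤ 1 := (fla_unit_le _ (hunit j₀)).1
    have hνt1 : |νt| ≤ 1 := (fla_unit_le _ (hunit j₀)).2
    have hasg := (fla_asg_some F hj₀).2
    have hin : |⟪νx, F.A.om α₀⟫_ℝ| ≤ x * Rω :=
      (abs_real_inner_le_norm _ _).trans (mul_le_mul_of_nonneg_left (hfreq α₀ hα₀s) hx0)
    have hνt : |νt| ≤ 1 / 2 + 2 * Rω * x := by
      unfold Plate.nvel at hasg
      rw [abs_le] at hasg hin ⊢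
      constructor <;> linarith [hasg.1, hasg.2, hin.1, hin.2]
    have hsq : νt ^ 2 ≤ (1 / 2 + 2 * Rω * x) ^ 2 := by
      rw [← sq_abs νt]
      exact pow_le_pow_left₀ (abs_nonneg _) hνt 2
    have hxlow : 3 / 4 ≤ x * (1 + 2 * Rω) ^ 2 := by
      have hu : x ^ 2 + νt ^ 2 = 1 := hunit j₀
      have h1 : 0 ≤ x * (1 - x) := mul_nonneg hx0 (by linarith)
      have h2 : 0 ≤ Rω ^ 2 * (x * (1 - x)) := mul_nonneg (sq_nonneg _) h1
      have h3 : 0 ≤ Rω * x := mul_nonneg hRω hx0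
      nlinarith
    have hxpos : 0 < x := by
      by_contra hc
      have h0 : x = 0 := le_antisymm (not_lt.1 hc) hx0
      rw [h0] at hxlow
      norm_num at hxlow
    have hinv : 1 / (2 * x) ≤ 2 / 3 * (1 + 2 * Rω) ^ 2 := by
      rw [div_le_iff₀ (by positivity)]
      nlinarith
    refine ⟨x⁻¹ • νx, -νt / (2 * x), ?_, ?_, ?_⟩
    · rw [norm_smul, norm_inv, Real.norm_eq_abs, abs_of_pos hxpos]
      exact inv_mul_cancel₀ hxpos.ne'
    · rw [abs_div, abs_neg, abs_of_pos (by positivity : 0 < 2 * x)]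
      calc |νt| / (2 * x) ≤ 1 / (2 * x) := div_le_div_of_nonneg_right hνt1 (by positivity)
        _ ≤ _ := hinv.trans hflaC
    · intro α hα
      unfold FlaD.clu at hα
      obtain ⟨hαs, j, hj, hk⟩ := Finset.mem_filter.1 hα
      have hasgj := (fla_asg_some F hj).2
      have hkey : F.key j = F.key j₀ := hk.trans hk₀.symm
      have hh1 : 0 ≤ 1 / F.h := by positivity
      have hcoord : ∀ i, |((F.P j).nx - νx) i| ≤ 1 / F.h := by
        intro i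
        have h1 : ⌊F.h * (F.P j).nx i⌋ = ⌊F.h * νx i⌋ := congrFun (congrArg Prod.fst hkey) i
        have h2 := fla_floor_close h1
        rw [← mul_sub, abs_mul, abs_of_pos hh] at h2
        rw [le_div_iff₀ hh, mul_comm]
        exact h2
      have hnx : ‖(F.P j).nx - νx‖ ≤ Real.sqrt n * (1 / F.h) := wh_norm_le_sqrt _ hh1 hcoord
      have hnt : |(F.P j).nt - νt| ≤ 1 / F.h := by
        have h1 : ⌊F.h * (F.P j).nt⌋ = ⌊F.h * νt⌋ := congrArg Prod.snd hkey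
        have h2 := fla_floor_close h1
        rw [← mul_sub, abs_mul, abs_of_pos hh] at h2
        rw [le_div_iff₀ hh, mul_comm]
        exact h2
      have hv9 : F.v₉ ≤ 1 / F.h := by
        rw [le_div_iff₀ hh]
        linarith [mul_comm F.h F.v₉]
      have hinn : |⟪(F.P j).nx - νx, F.A.om α⟫_ℝ| ≤ Real.sqrt n * (1 / F.h) * Rω :=
        (abs_real_inner_le_norm _ _).trans (mul_le_mul hnx (hfreq α hαs) (norm_nonneg _) (by positivity))
      have hnv : |(F.P j₀).nvel (F.A.om α)| ≤ (2 + 2 * Rω * Real.sqrt n) / F.h := by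
        have e : (F.P j₀).nvel (F.A.om α)
            = (F.P j).nvel (F.A.om α) - 2 * ⟪(F.P j).nx - νx, F.A.om α⟫_ℝ - ((F.P j).nt - νt) := by
          unfold Plate.nvel
          rw [inner_sub_left]
          ring
        rw [e]
        have e2 : (2 + 2 * Rω * Real.sqrt n) / F.h = 1 / F.h + 2 * (Real.sqrt n * (1 / F.h) * Rω) + 1 / F.h := by ring
        rw [e2, abs_le]
        rw [abs_le] at hasgj hinn hnt
        constructor <;> linarith [hasgj.1, hasgj.2, hinn.1, hinn.2, hnt.1, hnt.2]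
      have e3 : ⟪x⁻¹ • νx, F.A.om α⟫_ℝ - -νt / (2 * x) = (F.P j₀).nvel (F.A.om α) * (1 / (2 * x)) := by
        unfold Plate.nvel
        rw [real_inner_smul_left]
        field_simp
        ring
      rw [e3, abs_mul, abs_of_pos (by positivity : 0 < 1 / (2 * x))]
      unfold flaC1
      calc |(F.P j₀).nvel (F.A.om α)| * (1 / (2 * x))
          ≤ (2 + 2 * Rω * Real.sqrt n) / F.h * (2 / 3 * (1 + 2 * Rω) ^ 2) := mul_le_mul hnv hinv (by positivity) (by positivity)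
        _ = _ := by ring

end Claimed.Agent.R257
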