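import Claimed.Agent.R257.Fl.A2

/-!
# R257 / Fl / A3 : FL-A, STEP F3 = EXCLUSION OF THE NARROW CONFIGURATIONS (H flattening.tex l.64-83) AND THE CORE ASSEMBLY            (architect helper18)            CONTRACT
PAPER-FREE.  `w:angular` enters through the hypothesis `hang` (bound `Aa E^{p/2} + Ab` for every subarray and every prescription of bins covered by `Ns` narrow sets).
* `fla_nonsig`      the non significant bins sum to `≤ whNb · th` at every point.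
* `F.bad w₁`        points in two separated enlarged plates;   `F.adv`, `F.tst`      points where the cluster field is `≥ θ` and the significant bins of the big cube are / are not covered.
* `fla_core`        EXIT (absolute quantities): `FlCluOut` of `Fl/Defs.lean`.
Every `sorry` is a leaf `L-FLA-*`.  Statements are frozen (a FALSE statement: one line to helper18); auxiliary lemmas (prefix `fla_`) directly above your theorem; edit only your block.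
-/

set_option autoImplicit false

namespace Claimed.Agent.R257

open MeasureTheory Metric Set
open scoped ENNReal InnerProductSpace

variable {n : ℕ} {ι : Type}

/-! ## LEAF L-FLA-3A : the non significant bins      (~150 l.) -/

theorem fla_sel_sum (A : Arr n ι) (t : Finset ι) (c : ι → ℂ) (R : ℝ) (T : Finset (BI n)) (z : ST n) :
    A.fld (selS A t R T) c z = ∑ b ∈ T, A.fld (selS A t R {b}) c z := by
  classical
  have e : selS A t R T = T.biUnion fun b => selS A t R {b} := by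
    ext α
    simp only [selS, Finset.mem_filter, Finset.mem_biUnion, Finset.mem_singleton]
    constructor
    · rintro ⟨h1, h2⟩
      exact ⟨_, h2, h1, rfl⟩
    · rintro ⟨b, hb, h1, h2⟩
      exact ⟨h1, h2 ▸ hb⟩
  unfold Arr.fld
  rw [e, Finset.sum_biUnion]
  intro b _ b' _ hbb
  rw [Function.onFun, Finset.disjoint_left]
  intro α h1 h2
  simp only [selS, Finset.mem_filter, Finset.mem_singleton] at h1 h2
  exact hbb (h1.2.symm.trans h2.2)

/-- **PLAN.**  `bins = t.image (fbin R ∘ om)`, `Sg = flSig A t c R th (bigc (R^4) z) ⊆ bins`.   `fld t c z = ∑_{b ∈ bins} fld (selS A t R {b}) c z` (`Finset.sum_fiberwise_of_maps_to`; `selS A t R {b} = t.filter (fbin .. = b)`: `Finset.mem_singleton`),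
`fld (selS A t R Sg) c z = ∑_{b ∈ Sg} fld (selS A t R {b}) c z` (same, on the filtered set).   Difference `= ∑_{b ∈ bins \ Sg}`, each term has norm `< th` because `z ∈ cubeS (R^4) (bigc (R^4) z)` (`wh_mem_cubeS_iff`, `bigc = wmac` by `rfl`, `0 < R^4`).
`bins.card ≤ whNb n Rω R`: `wh_card_bins` for `H : WH n ι := ⟨A, t, c, 0, R, 0, 0, 0⟩` (`wbin = fbin` by `rfl`). -/
theorem fla_nonsig (A : Arr n ι) (t : Finset ι) (c : ι → ℂ) {R th Rω : ℝ} (hR : 0 < R) (hRω : 0 ≤ Rω) (hth : 0 ≤ th)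
    (hfreq : ∀ α ∈ t, ‖A.om α‖ ≤ Rω) (z : ST n) :
    ‖A.fld t c z - A.fld (selS A t R (flSig A t c R th (bigc (R ^ 4) z))) c z‖ ≤ whNb n Rω R * th := by
  classical
  set bins : Finset (BI n) := t.image fun α => fbin R (A.om α) with hbins
  set Sg : Finset (BI n) := flSig A t c R th (bigc (R ^ 4) z) with hSg
  have hsub : Sg ⊆ bins := by
    intro b hb
    rw [hSg] at hb
    unfold flSig at hb
    have := (Finset.mem_filter.1 hb).1
    obtain ⟨α, hα, rfl⟩ := Finset.mem_image.1 this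
    exact Finset.mem_image_of_mem _ hα
  have ht : selS A t R bins = t := by
    unfold selS
    rw [Finset.filter_eq_self]
    intro α hα
    exact Finset.mem_image_of_mem _ hα
  have e1 : A.fld t c z = ∑ b ∈ bins, A.fld (selS A t R {b}) c z := by
    rw [← fla_sel_sum, ht]
  have e2 : A.fld t c z - A.fld (selS A t R Sg) c z = ∑ b ∈ bins \ Sg, A.fld (selS A t R {b}) c z := by
    rw [e1, fla_sel_sum, ← Finset.sum_sdiff hsub]
    ring
  have hzc : z ∈ cubeS (R ^ 4) (bigc (R ^ 4) z) := (wh_mem_cubeS_iff (by positivity) z _).2 rfl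
  have hterm : ∀ b ∈ bins \ Sg, ‖A.fld (selS A t R {b}) c z‖ ≤ th := by
    intro b hb
    rw [Finset.mem_sdiff] at hb
    by_contra hc
    rw [not_le] at hc
    apply hb.2
    rw [hSg]
    unfold flSig
    rw [Finset.mem_filter]
    refine ⟨?_, z, hzc, hc.le⟩
    obtain ⟨α, hα, hαb⟩ := Finset.mem_image.1 hb.1
    exact Finset.mem_image.2 ⟨α, hα, hαb⟩
  have hcard : (bins.card : ℝ) ≤ whNb n Rω R := by
    have := wh_card_bins (⟨A, t, c, 0, R, 0, 0, 0⟩ : WH n ι) hR.le hRω hfreq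
    refine le_trans ?_ this
    refine Nat.cast_le.2 (le_of_eq ?_)
    unfold WH.bins
    congr 1
  rw [e2]
  calc ‖∑ b ∈ bins \ Sg, A.fld (selS A t R {b}) c z‖ ≤ ∑ b ∈ bins \ Sg, ‖A.fld (selS A t R {b}) c z‖ := norm_sum_le _ _
    _ ≤ ∑ _b ∈ bins \ Sg, th := Finset.sum_le_sum hterm
    _ = ((bins \ Sg).card : ℝ) * th := by rw [Finset.sum_const, nsmul_eq_mul]
    _ ≤ (bins.card : ℝ) * th := by
        refine mul_le_mul_of_nonneg_right ?_ hth
        exact_mod_cast Finset.card_le_card Finset.sdiff_subset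
    _ ≤ whNb n Rω R * th := mul_le_mul_of_nonneg_right hcard hth

/-! ## LEAF L-FLA-3B : the adverse cubes of one subarray      (~120 l.) -/

/-- an orthonormal pair exists (`EuclideanSpace.single ⟨0,_⟩ 1`, `EuclideanSpace.single ⟨1,_⟩ 1`), so `Strip2 w ∅`; `P i = ∅`. -/
theorem fla_angcover_empty (hn : 2 ≤ n) (Cw Cq cq R : ℝ) (N : ℕ) : AngCover (n := n) Cw Cq cq R N ∅ := by
  refine ⟨fun _ => ∅, fun _ => Or.inl ?_, fun k hk => absurd hk (Finset.notMem_empty k)⟩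
  refine ⟨EuclideanSpace.single ⟨0, by omega⟩ 1, EuclideanSpace.single ⟨1, by omega⟩ 1, 0, 0, ?_, ?_, ?_, ?_⟩
  · simp
  · simp
  · rw [EuclideanSpace.inner_single_left]
    simp
  · intro v hv
    exact absurd hv (Set.notMem_empty v)

open scoped Classical in
/-- **PLAN.**  `Sel Q := if AngCover .. (flSig A t c R th Q) then flSig A t c R th Q else ∅`;  `AngCover` for every `Q` (`fla_angcover_empty`).   For `z` in the set: `selF A t c R Sel z = fld (selS A t R (flSig .. (bigc (R^4) z))) c z` (`if_pos`),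
`‖selF ..‖ ≥ ‖fld t c z‖ - whNb th ≥ θ - whNb th ≥ c₀ lam` (`fla_nonsig`, `norm_sub_norm_le`).   `measure_mono`, `hang`. -/
theorem fla_adverse (hn : 2 ≤ n) (A : Arr n ι) (t : Finset ι) (c : ι → ℂ) (μ : Measure (ST n)) {R th θ Rω lam : ℝ} (G : ACon) (Ns : ℕ) {bd : ℝ≥0∞}
    (hR : 0 < R) (hRω : 0 ≤ Rω) (hth : 0 ≤ th) (hfreq : ∀ α ∈ t, ‖A.om α‖ ≤ Rω) (hθ : G.c₀ * lam + whNb n Rω R * th ≤ θ)
    (hang : ∀ Sel : MI n → Finset (BI n), (∀ Q, AngCover G.Cw G.Cq G.cq R Ns (Sel Q)) → μ {z | G.c₀ * lam ≤ ‖selF A t c R Sel z‖} ≤ bd) :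
    μ {z | θ ≤ ‖A.fld t c z‖ ∧ AngCover G.Cw G.Cq G.cq R Ns (flSig A t c R th (bigc (R ^ 4) z))} ≤ bd := by
  set Sel : MI n → Finset (BI n) := fun Q =>
    if AngCover G.Cw G.Cq G.cq R Ns (flSig A t c R th Q) then flSig A t c R th Q else ∅ with hSel
  have hcov : ∀ Q, AngCover G.Cw G.Cq G.cq R Ns (Sel Q) := by
    intro Q
    simp only [hSel]
    split_ifs with h
    · exact h
    · exact fla_angcover_empty hn _ _ _ _ _
  refine (measure_mono ?_).trans (hang Sel hcov)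
  intro z hz
  obtain ⟨hz1, hz2⟩ := hz
  have e : selF A t c R Sel z = A.fld (selS A t R (flSig A t c R th (bigc (R ^ 4) z))) c z := by
    unfold selF
    simp only [hSel]
    rw [if_pos hz2]
  show G.c₀ * lam ≤ ‖selF A t c R Sel z‖
  rw [e]
  have h1 := fla_nonsig A t c hR hRω hth hfreq z
  have h2 := norm_sub_norm_le (A.fld t c z) (A.fld (selS A t R (flSig A t c R th (bigc (R ^ 4) z))) c z)
  linarith

/-! ## LEAF L-FLA-3C : the points in two separated enlarged plates      (~120 l.) -/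

/-- the points which lie in two separated enlarged plates -/
def FlaD.bad (F : FlaD n ι) (w₁ : ℝ) : Set (ST n) :=
  {z | ∃ j j', (F.P j).dist z ≤ w₁ ∧ (F.P j').dist z ≤ w₁ ∧ (F.P j).Sep (1 / F.h) (F.P j')}

theorem fla_dist_cont (P : Plate n) : Continuous P.dist := by
  unfold Plate.dist
  fun_prop

/-- `bad = ⋃ j, ⋃ j', ⋃ (_ : Sep ..), {dist ≤ w₁} ∩ {dist ≤ w₁}`: finite union of closed sets (`Plate.dist` is continuous: `fun_prop` after `unfold Plate.dist`). -/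
theorem fla_bad_meas (F : FlaD n ι) (w₁ : ℝ) : MeasurableSet (F.bad w₁) := by
  have e : F.bad w₁ = ⋃ j, ⋃ j', {z | (F.P j).dist z ≤ w₁ ∧ (F.P j').dist z ≤ w₁ ∧ (F.P j).Sep (1 / F.h) (F.P j')} := by
    ext z
    simp only [FlaD.bad, Set.mem_ofPred_eq, mem_iUnion]
  rw [e]
  refine MeasurableSet.iUnion fun j => MeasurableSet.iUnion fun j' => ?_
  by_cases hs : (F.P j).Sep (1 / F.h) (F.P j')
  · have e2 : {z | (F.P j).dist z ≤ w₁ ∧ (F.P j').dist z ≤ w₁ ∧ (F.P j).Sep (1 / F.h) (F.P j')}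
        = {z | (F.P j).dist z ≤ w₁} ∩ {z | (F.P j').dist z ≤ w₁} := by
      ext z
      simp only [Set.mem_ofPred_eq, mem_inter_iff, hs, and_true]
    rw [e2]
    exact ((isClosed_le (fla_dist_cont _) continuous_const).measurableSet).inter
      ((isClosed_le (fla_dist_cont _) continuous_const).measurableSet)
  · have e2 : {z | (F.P j).dist z ≤ w₁ ∧ (F.P j').dist z ≤ w₁ ∧ (F.P j).Sep (1 / F.h) (F.P j')} = ∅ := by
      ext z
      simp only [Set.mem_ofPred_eq, hs, and_false, mem_empty_iff_false]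
    rw [e2]
    exact MeasurableSet.empty

/-- `fla_pair` for every separated pair (`δ = 1/h`), `Np²` pairs (`measure_iUnion_fintype_le` twice, or `inf_A6_count` on `Finset.univ ×ˢ Finset.univ`). -/
theorem fla_bad_mass (F : FlaD n ι) {μ : Measure (ST n)} {m T Λ₀ w₁ : ℝ} (hμ : Grow μ m n) (hm : 0 ≤ m) (hs : Slab μ T) (x₀ : E n)
    (hb : InBall μ x₀ Λ₀) (hT : 0 ≤ T) (hΛ : 0 ≤ Λ₀) (hunit : ∀ j, ‖(F.P j).nx‖ ^ 2 + (F.P j).nt ^ 2 = 1) (hh : 0 < F.h) (hw : 1 / F.h ≤ w₁) :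
    μ (F.bad w₁) ≤ ENNReal.ofReal ((F.Np : ℝ) ^ 2 * flaPair n m Λ₀ T w₁ (1 / F.h)) := by
  have e : F.bad w₁ = ⋃ j, ⋃ j', {z | (F.P j).dist z ≤ w₁ ∧ (F.P j').dist z ≤ w₁ ∧ (F.P j).Sep (1 / F.h) (F.P j')} := by
    ext z
    simp only [FlaD.bad, Set.mem_ofPred_eq, mem_iUnion]
  have hδ : 0 < 1 / F.h := by positivity
  have hterm : ∀ j j', μ {z | (F.P j).dist z ≤ w₁ ∧ (F.P j').dist z ≤ w₁ ∧ (F.P j).Sep (1 / F.h) (F.P j')}
      ≤ ENNReal.ofReal (flaPair n m Λ₀ T w₁ (1 / F.h)) := by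
    intro j j'
    by_cases hsp : (F.P j).Sep (1 / F.h) (F.P j')
    · refine (measure_mono ?_).trans (fla_pair hμ hm hs x₀ hb hT hΛ (F.P j) (F.P j') (hunit j) (hunit j') hδ hsp hw)
      intro z hz
      exact ⟨hz.1, hz.2.1⟩
    · have e2 : {z | (F.P j).dist z ≤ w₁ ∧ (F.P j').dist z ≤ w₁ ∧ (F.P j).Sep (1 / F.h) (F.P j')} = ∅ := by
        ext z
        simp only [Set.mem_ofPred_eq, hsp, and_false, mem_empty_iff_false]
      rw [e2, measure_empty]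
      exact bot_le
  rw [e]
  calc μ (⋃ j, ⋃ j', {z | (F.P j).dist z ≤ w₁ ∧ (F.P j').dist z ≤ w₁ ∧ (F.P j).Sep (1 / F.h) (F.P j')})
      ≤ ∑ j, μ (⋃ j', {z | (F.P j).dist z ≤ w₁ ∧ (F.P j').dist z ≤ w₁ ∧ (F.P j).Sep (1 / F.h) (F.P j')}) :=
        measure_iUnion_fintype_le _ _
    _ ≤ ∑ j, ∑ j', μ {z | (F.P j).dist z ≤ w₁ ∧ (F.P j').dist z ≤ w₁ ∧ (F.P j).Sep (1 / F.h) (F.P j')} :=
        Finset.sum_le_sum fun j _ => measure_iUnion_fintype_le _ _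
    _ ≤ ∑ _j : Fin F.Np, ∑ _j' : Fin F.Np, ENNReal.ofReal (flaPair n m Λ₀ T w₁ (1 / F.h)) :=
        Finset.sum_le_sum fun j _ => Finset.sum_le_sum fun j' _ => hterm j j'
    _ = ENNReal.ofReal ((F.Np : ℝ) ^ 2 * flaPair n m Λ₀ T w₁ (1 / F.h)) := by
        rw [Finset.sum_const, Finset.sum_const, Finset.card_univ, Fintype.card_fin, nsmul_eq_mul, nsmul_eq_mul,
          ENNReal.ofReal_mul (by positivity), ENNReal.ofReal_pow (Nat.cast_nonneg _), ENNReal.ofReal_natCast, sq, mul_assoc]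

/-! ## LEAF L-FLA-3D : all adverse cubes      (~120 l.) -/

/-- the cluster field is `≥ θ` and the significant bins of the big cube are covered by `Ns` narrow sets -/
def FlaD.adv (F : FlaD n ι) (G : ACon) (R th θ : ℝ) (Ns : ℕ) (k : MI n) : Set (ST n) :=
  {z | θ ≤ ‖F.A.fld (F.clu k) F.c z‖ ∧ AngCover G.Cw G.Cq G.cq R Ns (flSig F.A (F.clu k) F.c R th (bigc (R ^ 4) z))}

/-- the cluster field is `≥ θ` and the significant bins of the big cube are NOT covered by `Ns` narrow sets -/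
def FlaD.tst (F : FlaD n ι) (G : ACon) (R th θ : ℝ) (Ns : ℕ) (k : MI n) : Set (ST n) :=
  {z | θ ≤ ‖F.A.fld (F.clu k) F.c z‖ ∧ ¬ AngCover G.Cw G.Cq G.cq R Ns (flSig F.A (F.clu k) F.c R th (bigc (R ^ 4) z))}

/-- `{θ ≤ ‖fld‖}` is closed (`wh_fld_cont`), the second condition depends only on `bigc (R^4) z = wmac (R^4) z` (`wh_meas_mac`). -/
theorem fla_tst_meas (F : FlaD n ι) (hpf : ∀ α ∈ F.s, Continuous (F.A.pf α)) (G : ACon) (R th θ : ℝ) (Ns : ℕ) (k : MI n) :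
    MeasurableSet (F.tst G R th θ Ns k) := by
  have hpf' : ∀ α ∈ F.clu k, Continuous (F.A.pf α) := fun α hα => hpf α (fla_clu_sub F k hα)
  have e : F.tst G R th θ Ns k = {z | θ ≤ ‖F.A.fld (F.clu k) F.c z‖} ∩
      {z | (fun Q : MI n => ¬ AngCover G.Cw G.Cq G.cq R Ns (flSig F.A (F.clu k) F.c R th Q)) (wmac (R ^ 4) z)} := rfl
  rw [e]
  exact ((isClosed_le continuous_const (wh_fld_cont F.A (F.clu k) F.c hpf').norm).measurableSet).inter
    (wh_meas_mac (R ^ 4) (fun Q : MI n => ¬ AngCover G.Cw G.Cq G.cq R Ns (flSig F.A (F.clu k) F.c R th Q)))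

/-- **PLAN.**  `fla_adverse` for `t = clu k` (`fla_clu_sub`) with `bd = ofReal (Aa E_k^{q} + Ab)`, `E_k = energy (clu k) c`.   `∑_k ofReal (..) = ofReal (Aa ∑ E_k^q + card · Ab)` (`ENNReal.ofReal_sum_of_nonneg`);
`∑ E_k^q ≤ (∑ E_k)^q ≤ 1` (`wh_sum_rpow_le`, `fla_energy_clu`, `hen`, `Real.rpow_le_one`), `card ≤ Np` (`fla_keys_card_le`). -/
theorem fla_adv_sum (hn : 2 ≤ n) (F : FlaD n ι) (μ : Measure (ST n)) {R th θ Rω lam q Aa Ab : ℝ} (G : ACon) (Ns : ℕ)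
    (hR : 0 < R) (hRω : 0 ≤ Rω) (hth : 0 ≤ th) (hfreq : ∀ α ∈ F.s, ‖F.A.om α‖ ≤ Rω) (hθ : G.c₀ * lam + whNb n Rω R * th ≤ θ)
    (hen : energy F.s F.c ≤ 1) (hq : 1 ≤ q) (hAa : 0 ≤ Aa) (hAb : 0 ≤ Ab)
    (hang : ∀ t : Finset ι, t ⊆ F.s → ∀ Sel : MI n → Finset (BI n), (∀ Q, AngCover G.Cw G.Cq G.cq R Ns (Sel Q)) →
      μ {z | G.c₀ * lam ≤ ‖selF F.A t F.c R Sel z‖} ≤ ENNReal.ofReal (Aa * energy t F.c ^ q + Ab)) :
    ∑ k ∈ F.keys, μ (F.adv G R th θ Ns k) ≤ ENNReal.ofReal (Aa + F.Np * Ab) := by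
  have hE0 : ∀ k, 0 ≤ energy (F.clu k) F.c := fun k => Finset.sum_nonneg fun _ _ => by positivity
  have hterm : ∀ k ∈ F.keys, μ (F.adv G R th θ Ns k) ≤ ENNReal.ofReal (Aa * energy (F.clu k) F.c ^ q + Ab) := by
    intro k _
    exact fla_adverse hn F.A (F.clu k) F.c μ G Ns hR hRω hth (fun α hα => hfreq α (fla_clu_sub F k hα)) hθ
      (hang (F.clu k) (fla_clu_sub F k))
  have hsum : ∑ k ∈ F.keys, energy (F.clu k) F.c ^ q ≤ 1 := by
    refine (wh_sum_rpow_le F.keys _ (fun k _ => hE0 k) q hq).trans ?_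
    exact Real.rpow_le_one (Finset.sum_nonneg fun k _ => hE0 k) ((fla_energy_clu F).trans hen) (by linarith)
  calc ∑ k ∈ F.keys, μ (F.adv G R th θ Ns k) ≤ ∑ k ∈ F.keys, ENNReal.ofReal (Aa * energy (F.clu k) F.c ^ q + Ab) :=
        Finset.sum_le_sum hterm
    _ = ENNReal.ofReal (∑ k ∈ F.keys, (Aa * energy (F.clu k) F.c ^ q + Ab)) := by
        rw [ENNReal.ofReal_sum_of_nonneg]
        intro k _
        have := Real.rpow_nonneg (hE0 k) q
        positivity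
    _ ≤ ENNReal.ofReal (Aa + F.Np * Ab) := by
        refine ENNReal.ofReal_le_ofReal ?_
        rw [Finset.sum_add_distrib, ← Finset.mul_sum, Finset.sum_const, nsmul_eq_mul]
        have h1 : Aa * ∑ k ∈ F.keys, energy (F.clu k) F.c ^ q ≤ Aa * 1 := mul_le_mul_of_nonneg_left hsum hAa
        have h2 : (F.keys.card : ℝ) * Ab ≤ F.Np * Ab :=
          mul_le_mul_of_nonneg_right (by exact_mod_cast fla_keys_card_le F) hAb
        linarith

/-! ## LEAF L-FLA-3E : THE CORE ASSEMBLY      (~250 l.) -/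

/-- `c a ≤ y + e₁ + e₂ + e₃`, `e₁, e₂ ≤ (c/8) a`, `e₃ ≤ (c/4) a`, `a < ∞`  ⟹  `(c/2) a ≤ y`   (pass to `toReal` if `y < ∞`; `ENNReal.ofReal_mul`, `ENNReal.toReal_add`). -/
theorem fla_half {a y e₁ e₂ e₃ : ℝ≥0∞} {c : ℝ} (hc : 0 ≤ c) (ha : a ≠ ∞) (h : ENNReal.ofReal c * a ≤ y + e₁ + e₂ + e₃)
    (h₁ : e₁ ≤ ENNReal.ofReal (c / 8) * a) (h₂ : e₂ ≤ ENNReal.ofReal (c / 8) * a) (h₃ : e₃ ≤ ENNReal.ofReal (c / 4) * a) :
    ENNReal.ofReal (c / 2) * a ≤ y := by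
  have hfin : ENNReal.ofReal (c / 2) * a ≠ ∞ := ENNReal.mul_ne_top ENNReal.ofReal_ne_top ha
  have e1 : ENNReal.ofReal c * a = ENNReal.ofReal (c / 2) * a + ENNReal.ofReal (c / 2) * a := by
    rw [← add_mul, ← ENNReal.ofReal_add (by positivity) (by positivity)]
    congr 2
    ring
  have e2 : ENNReal.ofReal (c / 8) * a + ENNReal.ofReal (c / 8) * a + ENNReal.ofReal (c / 4) * a = ENNReal.ofReal (c / 2) * a := by
    rw [← add_mul, ← add_mul, ← ENNReal.ofReal_add (by positivity) (by positivity), ← ENNReal.ofReal_add (by positivity) (by positivity)]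
    congr 2
    ring
  have h4 : ENNReal.ofReal (c / 2) * a + ENNReal.ofReal (c / 2) * a ≤ y + ENNReal.ofReal (c / 2) * a := by
    rw [← e1]
    refine h.trans ?_
    rw [← e2]
    calc y + e₁ + e₂ + e₃ = y + (e₁ + e₂ + e₃) := by ring
      _ ≤ _ := add_le_add le_rfl (add_le_add (add_le_add h₁ h₂) h₃)
  exact (ENNReal.add_le_add_iff_right hfin).1 h4

/-- **THE CORE OF FL-A.**   **PLAN.**  `lam = wlev ..`, `Y = wset ..`, `θ = lam/(4·3^{n+1}) = (lam/2)/(2·3^{n+1})`.   `Y₁` from `fla_F1`.   `e k, b k` from `fla_flat` (`Classical.choose`).   `I = F.keys`,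
`Cl k = ⟨F.clu k, e k, b k, (Y₁ \ F.bad w₁) ∩ F.tst G R th θ Ns k⟩`.
Fields: `sub` `fla_clu_sub`; `disj` `fla_clu_disj`; `card` `fla_keys_card_le` + `hNk`; `unit, hb, flat` `fla_flat`; `meas` `fla_bad_meas`, `fla_tst_meas`; `subY`; `broad` = second clause of `tst`.
`mass`:  `Y₁ ⊆ F.bad w₁ ∪ ⋃_{k ∈ keys} (Cl k).Z ∪ ⋃_{k ∈ keys} F.adv .. k`  (for `z ∈ Y₁ \ bad`: `fla_pigeon` with `θ := lam/2` gives `k` with `‖fld (clu k)‖ ≥ θ`; then `z ∈ tst k` or `z ∈ adv k`);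
`μ Y₁ ≤ μ bad + ∑ μ Z_k + ∑ μ adv_k` (`measure_union_le`, `measure_biUnion_finset_le`), `fla_bad_mass` (`T := W.T₀ L²`, `Λ₀ := W.Cb L²`, `x₀` from `hadm.box`), `fla_adv_sum` (`q = p/2`).   `fla_half` with `hmass`, `hE1`, `hE2`, `hE3`. -/
theorem fla_core (hn : 2 ≤ n) (W : WCon) (hMn : n + 2 ≤ W.M) (hT₀ : 0 ≤ W.T₀) (hCb : 0 ≤ W.Cb) (hRω : 0 ≤ W.K.Rω) (X : WExp) (F : FlaD n ι) (μ : Measure (ST n))
    {m χ g D D₁ w₀ w₁ Λ R th c₀ Nk Aa Ab : ℝ} (G : ACon) (Ns : ℕ) (Y₀ : Set (ST n))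
    -- array, measure, induction hypothesis
    (hA : F.A.In F.s W.K) (htc : ∀ α ∈ F.s, F.A.tc α = 0) (hen : energy F.s F.c ≤ 1) (hm : 0 ≤ m) (hχ : 0 < χ) (hχ1 : χ ≤ 1) (hg : 0 < g)
    (hadm : Adm W F.A F.s μ m χ D) (hp : 2 ≤ X.p) (hC : 0 ≤ X.Cind) (hD₁ : 0 < D₁) (hin : WeakAt n W X F.A.L D₁)
    -- plates
    (hT : F.T = W.T₀ * F.A.L ^ 2) (hunit : ∀ j, ‖(F.P j).nx‖ ^ 2 + (F.P j).nt ^ 2 = 1)
    (hY₀m : MeasurableSet Y₀) (hY₀ : Y₀ ⊆ wset F.A F.s F.c (wlev n X.a χ g F.A.L)) (hcov : ∀ z ∈ Y₀, ∃ j, (F.P j).dist z ≤ w₀)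
    (hmass : ENNReal.ofReal c₀ * μ (wset F.A F.s F.c (wlev n X.a χ g F.A.L)) ≤ μ Y₀) (hc₀ : 0 ≤ c₀) (hNk : (F.Np : ℝ) ≤ Nk)
    (hfin : μ (wset F.A F.s F.c (wlev n X.a χ g F.A.L)) ≠ ∞)
    -- w:angular
    (hAa : 0 ≤ Aa) (hAb : 0 ≤ Ab)
    (hang : ∀ t : Finset ι, t ⊆ F.s → ∀ Sel : MI n → Finset (BI n), (∀ Q, AngCover G.Cw G.Cq G.cq R Ns (Sel Q)) →
      μ {z | G.c₀ * wlev n X.a χ g F.A.L ≤ ‖selF F.A t F.c R Sel z‖} ≤ ENNReal.ofReal (Aa * energy t F.c ^ (X.p / 2) + Ab))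
    -- numerical hypotheses
    (hΛ : 1 ≤ Λ) (hv : 0 < F.v₉) (hw0 : 0 ≤ w₀) (hw8 : w₀ + Λ * F.A.L ≤ F.w₈)
    (hmom : flaMom n W F.Np m F.A.L Λ F.w₈ F.v₉ ≤ m * F.A.L ^ ((n : ℝ) + 1) / D₁)
    (hw₁ : F.w₈ + F.v₉ * (F.T + W.K.R * F.A.L ^ 2) + W.K.R * F.A.L ≤ w₁)
    (hh : 0 < F.h) (hhw : 1 / F.h ≤ w₁) (hhv : F.h * F.v₉ ≤ 1) (hv2 : 2 * F.v₉ ≤ 1) (hR : 0 < R) (hth : 0 ≤ th)
    (hθ : G.c₀ * wlev n X.a χ g F.A.L + whNb n W.K.Rω R * th ≤ wlev n X.a χ g F.A.L / (4 * 3 ^ (n + 1)))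
    -- the three errors
    (hE1 : ENNReal.ofReal (wrhs n X m F.A.L (g / 2) D₁ 1) ≤ ENNReal.ofReal (c₀ / 8) * μ (wset F.A F.s F.c (wlev n X.a χ g F.A.L)))
    (hE2 : ENNReal.ofReal ((F.Np : ℝ) ^ 2 * flaPair n m (W.Cb * F.A.L ^ 2) (W.T₀ * F.A.L ^ 2) w₁ (1 / F.h))
      ≤ ENNReal.ofReal (c₀ / 8) * μ (wset F.A F.s F.c (wlev n X.a χ g F.A.L)))
    (hE3 : ENNReal.ofReal (Aa + F.Np * Ab) ≤ ENNReal.ofReal (c₀ / 4) * μ (wset F.A F.s F.c (wlev n X.a χ g F.A.L))) :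
    ∃ (I : Finset (MI n)) (Cl : MI n → FlClu n ι),
      FlCluOut F.A F.s F.c μ (wset F.A F.s F.c (wlev n X.a χ g F.A.L)) R F.h (flaC1 n W.K.Rω) th G Ns Nk (c₀ / 2) I Cl := by
  classical
  set lam : ℝ := wlev n X.a χ g F.A.L with hlam
  have hL : 1 ≤ F.A.L := hA.one_le
  have hL0 : 0 < F.A.L := lt_of_lt_of_le one_pos hL
  have hlam0 : 0 < lam := by
    rw [hlam]
    unfold wlev
    positivity
  set θ : ℝ := lam / (4 * 3 ^ (n + 1)) with hθd
  obtain ⟨Y₁, hY₁m, hY₁s, hY₁mass, hY₁f⟩ := fla_F1 W hMn X F μ Y₀ hA htc hen hm hχ hχ1 hg hadm (by linarith) hC hD₁ hin hT hunit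
    hY₀m hY₀ hcov hΛ hv hw0 hw8 hmom
  have hflat := fun k => fla_flat F (by omega) hA.freq hRω hunit hh hhv hv2 k
  choose e b hfl using hflat
  have hpf : ∀ α ∈ F.s, Continuous (F.A.pf α) := fun α hα => (hA.prof α hα).smooth.continuous
  obtain ⟨x₀, hx₀⟩ := hadm.box
  have hcover : Y₁ ⊆ (F.bad w₁ ∪ ⋃ k ∈ F.keys, ((Y₁ \ F.bad w₁) ∩ F.tst G R th θ Ns k)) ∪ ⋃ k ∈ F.keys, F.adv G R th θ Ns k := by
    intro z hz
    by_cases hb : z ∈ F.bad w₁
    · exact Or.inl (Or.inl hb)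
    · have hz' : ∀ j j', (F.P j).dist z ≤ w₁ → (F.P j').dist z ≤ w₁ → ¬ (F.P j).Sep (1 / F.h) (F.P j') := by
        intro j j' h1 h2 h3
        exact hb ⟨j, j', h1, h2, h3⟩
      obtain ⟨k, hk, hkθ⟩ := fla_pigeon F hA htc hunit hh hw₁ (θ := lam / 2) (by positivity) z hz' (hY₁f z hz)
      have e1 : lam / 2 / (2 * 3 ^ (n + 1)) = θ := by
        rw [hθd, div_div]
        congr 1
        ring
      rw [e1] at hkθ
      by_cases hc : AngCover G.Cw G.Cq G.cq R Ns (flSig F.A (F.clu k) F.c R th (bigc (R ^ 4) z))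
      · exact Or.inr (mem_biUnion (Finset.mem_coe.2 hk) ⟨hkθ, hc⟩)
      · exact Or.inl (Or.inr (mem_biUnion (Finset.mem_coe.2 hk) ⟨⟨hz, hb⟩, hkθ, hc⟩))
  have hμY₁ : μ Y₁ ≤ μ (F.bad w₁) + ∑ k ∈ F.keys, μ ((Y₁ \ F.bad w₁) ∩ F.tst G R th θ Ns k) + ∑ k ∈ F.keys, μ (F.adv G R th θ Ns k) := by
    refine (measure_mono hcover).trans ?_
    refine (measure_union_le _ _).trans ?_
    refine add_le_add ((measure_union_le _ _).trans (add_le_add le_rfl (measure_biUnion_finset_le _ _))) (measure_biUnion_finset_le _ _)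
  have hbad := fla_bad_mass F (w₁ := w₁) hadm.grow hm hadm.slab x₀ hx₀ (by positivity) (by positivity) hunit hh hhw
  have hadv := fla_adv_sum hn F μ (th := th) (θ := θ) (lam := lam) (q := X.p / 2) G Ns hR hRω hth hA.freq hθ hen (by linarith) hAa hAb hang
  refine ⟨F.keys, fun k => ⟨F.clu k, e k, b k, (Y₁ \ F.bad w₁) ∩ F.tst G R th θ Ns k⟩, ?_⟩
  refine ⟨fun k _ => fla_clu_sub F k, fun k _ k' _ h => fla_clu_disj F h, ?_, fun k _ => (hfl k).1, fun k _ => (hfl k).2.1,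
    fun k _ => (hfl k).2.2, fun k _ => (hY₁m.diff (fla_bad_meas F w₁)).inter (fla_tst_meas F hpf G R th θ Ns k),
    fun k _ z hz => hY₀ (hY₁s hz.1.1), ?_, fun k _ z hz => hz.2.2⟩
  · refine le_trans ?_ hNk
    exact_mod_cast fla_keys_card_le F
  · refine fla_half hc₀ hfin (e₁ := ENNReal.ofReal (wrhs n X m F.A.L (g / 2) D₁ 1)) (e₂ := μ (F.bad w₁))
      (e₃ := ∑ k ∈ F.keys, μ (F.adv G R th θ Ns k)) ?_ hE1 (hbad.trans hE2) (hadv.trans hE3)
    refine hmass.trans (hY₁mass.trans ?_)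
    refine (add_le_add hμY₁ le_rfl).trans (le_of_eq ?_)
    ring

end Claimed.Agent.R257
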