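import Claimed.Agent.R257.Fl.A3
import Claimed.Agent.R257.Weak.HrNumB
import Claimed.Agent.R257.Weak.EasyBox

/-!
# R257 / Fl / A4 : FL-A, EXIT `fla_main : FlaNum → PlateWith → GeoWith → AngularWith → ClusterWith` AND THE NUMERICS `fla_num`            (architect helper18)            CONTRACT
`Xv = B D`.   Private exponents of FL-A: `C8` (closeness `Xv^{C8} L`), `C9` (normal velocity `Xv^{C9}/L`), `P1` (`D₁ = Xv^{P1}`).   Instantiation of `fla_core`: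
`F = ⟨A, s, c, Np, P, T₀L², Xv^{C8} L, Xv^{C9}/L, flH C10 Xv L⟩`, `w₀ = Xv^{Cp} L`, `Λ = Xv^{C8}/2`, `w₁ = flaWp W C8 C9 Xv * L`, `R = wdR Xv u J = (wdK Xv u J)^J`, `th = flTh ..`, `Ns = flNc C11 Xv`, `Nk = Xv^{Cp}`,
`Aa = Ca Ns^p R^{-c₂} wrhs(g, D = 1, E = 1)`, `Ab = CN m L^{-G.N}`.
`FlaNum` = the numerical needs, about the reals `Xv, L, D` only.   `fla_num`: they hold if `B₀ ≤ Xv`, `Xv^Γ ≤ L`, `1 ≤ D ≤ Xv`; `Γ` depends only on the exponents.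
Every `sorry` is a leaf `L-FLA-*`.  Statements are frozen (a FALSE statement: one line to helper18); auxiliary lemmas (prefix `fla_`) directly above your theorem; edit only your block.
-/

set_option autoImplicit false

namespace Claimed.Agent.R257

open MeasureTheory Metric Set
open scoped ENNReal InnerProductSpace

variable {n : ℕ} {ι : Type}

/-- half width of the enlarged plates in units of `L` -/
noncomputable def flaWp (W : WCon) (C8 C9 Xv : ℝ) : ℝ := Xv ^ C8 + (W.T₀ + W.K.R) * Xv ^ C9 + W.K.R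

/-- **the numerical needs of FL-A** -/
structure FlaNum (n : ℕ) (W : WCon) (p σ GN : ℝ) (J : ℕ) (u C8 C9 P1 C10 C11 Cp Cgeo c₀ cg K₀ c₂ Ca CN : ℝ) (Xv L D : ℝ) : Prop where
  x1 : 1 ≤ Xv
  d1 : 2 * D ≤ Xv ^ P1
  d1L : Xv ^ P1 ≤ L
  lam : 1 ≤ Xv ^ C8 / 2
  w8 : Xv ^ Cp + Xv ^ C8 / 2 ≤ Xv ^ C8
  mom : whFar n W * (Xv ^ C8 / 2) ^ (-((W.M : ℝ) - n - 1)) +
    Xv ^ Cp * ((2 * L / Xv ^ C9 + 1) * ((1 + 2 * W.K.Rω) * (Xv ^ C8 / 2)) ^ n / L) ≤ 1 / Xv ^ P1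
  hv : Xv ^ C9 ≤ Xv ^ C10
  v2 : 2 * Xv ^ C9 ≤ L
  h1 : Xv ^ C10 ≤ L
  e1 : 2 ^ p * (Xv ^ P1) ^ (-σ) ≤ c₀ / 8 * D ^ (-σ)
  e2 : (Xv ^ Cp) ^ 2 * flaPair n 1 (W.Cb * L ^ 2) (W.T₀ * L ^ 2) (flaWp W C8 C9 Xv * L) (1 / flH C10 Xv L) ≤
    c₀ / 8 * (cg * L ^ (2 * (n : ℝ)) * Xv ^ (-Cgeo))
  e3a : Ca * (flNc C11 Xv : ℝ) ^ p * wdR Xv u J ^ (-c₂) * D ^ σ ≤ c₀ / 8
  e3b : Xv ^ Cp * (CN * L ^ (-GN)) ≤ c₀ / 8 * (cg * L ^ (2 * (n : ℝ)) * Xv ^ (-Cgeo))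
  k0 : K₀ ≤ (wdK Xv u J : ℝ)
  r2 : 2 ≤ wdR Xv u J
  rL : wdR Xv u J ^ 2 ≤ L

/-! ## LEAF L-FLA-4A : the moment condition      (~90 l.) -/

/-- **PLAN.**  Unfold `flaMom`.   `w₈/(v₉ (Λ L)) = Xv^{C8} L/((Xv^{C9}/L)(Xv^{C8}/2 · L)) = 2L/Xv^{C9}` (`field_simp`);  `((1+2Rω)(Λ L))^n = ((1+2Rω)Λ)^n L^n` (`mul_pow`);  `L^{(n:ℝ)+1} = L^n · L` (`inf_A8_rpow`, `pow_succ`);
so `flaMom = m L^{n+1} · (left side of h with Np instead of Xv^{Cp})`;  `Np ≤ Xv^{Cp}`;  multiply `h` by `m L^{n+1} ≥ 0`. -/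
theorem fla_mom_num (W : WCon) {Np : ℕ} {m L Xv C8 C9 Cp P1 : ℝ} (hRω : 0 ≤ W.K.Rω) (hm : 0 ≤ m) (hL : 1 ≤ L) (hX : 1 ≤ Xv) (hNp : (Np : ℝ) ≤ Xv ^ Cp)
    (h : whFar n W * (Xv ^ C8 / 2) ^ (-((W.M : ℝ) - n - 1)) +
      Xv ^ Cp * ((2 * L / Xv ^ C9 + 1) * ((1 + 2 * W.K.Rω) * (Xv ^ C8 / 2)) ^ n / L) ≤ 1 / Xv ^ P1) :
    flaMom n W Np m L (Xv ^ C8 / 2) (Xv ^ C8 * L) (Xv ^ C9 / L) ≤ m * L ^ ((n : ℝ) + 1) / Xv ^ P1 := by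
  have hX0 : 0 < Xv := by linarith
  have hL0 : 0 < L := by linarith
  have ha : 0 < Xv ^ C8 := Real.rpow_pos_of_pos hX0 _
  have hc : 0 < Xv ^ C9 := Real.rpow_pos_of_pos hX0 _
  set a := Xv ^ C8 with ha_def
  set c9 := Xv ^ C9 with hc_def
  unfold flaMom
  have e1 : a * L / (c9 / L * (a / 2 * L)) = 2 * L / c9 := by field_simp
  have e2 : ((1 + 2 * W.K.Rω) * (a / 2 * L)) ^ n = ((1 + 2 * W.K.Rω) * (a / 2)) ^ n * L ^ n := by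
    rw [← mul_pow]
    ring_nf
  have e3 : L ^ ((n : ℝ) + 1) = L ^ n * L := by rw [inf_A8_rpow, pow_succ]
  rw [e1, e2, e3]
  set q := ((1 + 2 * W.K.Rω) * (a / 2)) ^ n with hq
  have hq0 : 0 ≤ q := by positivity
  have hB : 0 ≤ (2 * L / c9 + 1) * q / L := by positivity
  have h1 : (Np : ℝ) * ((2 * L / c9 + 1) * q / L) ≤ Xv ^ Cp * ((2 * L / c9 + 1) * q / L) :=
    mul_le_mul_of_nonneg_right hNp hB
  have hmL : 0 ≤ m * (L ^ n * L) := by positivity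
  have h2 := mul_le_mul_of_nonneg_left (le_trans (add_le_add_right h1 _) h) hmL
  calc whFar n W * m * (L ^ n * L) * (a / 2) ^ (-((W.M : ℝ) - n - 1)) + Np * ((2 * L / c9 + 1) * (m * (q * L ^ n)))
      = m * (L ^ n * L) * (whFar n W * (a / 2) ^ (-((W.M : ℝ) - n - 1)) + (Np : ℝ) * ((2 * L / c9 + 1) * q / L)) := by
        field_simp
    _ ≤ m * (L ^ n * L) * (1 / Xv ^ P1) := h2
    _ = m * (L ^ n * L) / Xv ^ P1 := by ring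

/-! ## LEAF L-FLA-4B : the errors `E1`, `E2`      (~150 l.) -/

/-- **PLAN.**  As `wh_inner_arith`: `(g/2)^{-p} = g^{-p} 2^p`, so `wrhs (g/2) D₁ 1 = K 2^p D₁^{-σ} ≤ (c₀/8) K D^{-σ} = (c₀/8) wrhs g D 1`, `K = Cind m L^{2n} g^{-p} ≥ 0`.   `ENNReal.ofReal_mul`, `hbig.le`. -/
theorem fla_E1 (X : WExp) {m L g D D₁ c₀ : ℝ} {MY : ℝ≥0∞} (hC : 0 ≤ X.Cind) (hm : 0 ≤ m) (hL : 0 < L) (hg : 0 < g) (hc₀ : 0 ≤ c₀)
    (h : 2 ^ X.p * D₁ ^ (-X.σ) ≤ c₀ / 8 * D ^ (-X.σ)) (hbig : ENNReal.ofReal (wrhs n X m L g D 1) < MY) :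
    ENNReal.ofReal (wrhs n X m L (g / 2) D₁ 1) ≤ ENNReal.ofReal (c₀ / 8) * MY := by
  have h1 : wrhs n X m L (g / 2) D₁ 1 ≤ c₀ / 8 * wrhs n X m L g D 1 := by
    unfold wrhs
    have e : (g / 2) ^ (-X.p) = g ^ (-X.p) * 2 ^ X.p := by
      rw [Real.div_rpow hg.le (by norm_num), Real.rpow_neg (by norm_num : (0 : ℝ) ≤ 2), div_inv_eq_mul]
    rw [e, Real.one_rpow]
    have hK : 0 ≤ X.Cind * m * L ^ (2 * (n : ℝ)) * g ^ (-X.p) :=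
      mul_nonneg (mul_nonneg (mul_nonneg hC hm) (Real.rpow_nonneg hL.le _)) (Real.rpow_nonneg hg.le _)
    have := mul_le_mul_of_nonneg_left h hK
    nlinarith
  calc ENNReal.ofReal (wrhs n X m L (g / 2) D₁ 1) ≤ ENNReal.ofReal (c₀ / 8 * wrhs n X m L g D 1) := ENNReal.ofReal_le_ofReal h1
    _ = ENNReal.ofReal (c₀ / 8) * ENNReal.ofReal (wrhs n X m L g D 1) := ENNReal.ofReal_mul (by positivity)
    _ ≤ ENNReal.ofReal (c₀ / 8) * MY := mul_le_mul_right hbig.le _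

/-- **PLAN.**  `flaPair n m .. = m * flaPair n 1 ..` (unfold, `ring`);  `Np² ≤ (Xv^{Cp})²`;  `flaPair n 1 .. ≥ 0` needs `0 ≤ 2(Λ₀+T)δ/w + 3` (all `≥ 0`);  multiply `h` by `m`;  `hgeo`. -/
theorem fla_E2 {Np : ℕ} {m Λ₀ T w δ XCp c₀ Gg : ℝ} {MY : ℝ≥0∞} (hm : 0 ≤ m) (hΛ : 0 ≤ Λ₀) (hT : 0 ≤ T) (hw : 0 < w) (hδ : 0 < δ) (hc₀ : 0 ≤ c₀)
    (hNp : (Np : ℝ) ≤ XCp) (h : XCp ^ 2 * flaPair n 1 Λ₀ T w δ ≤ c₀ / 8 * Gg) (hgeo : ENNReal.ofReal (m * Gg) ≤ MY) :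
    ENNReal.ofReal ((Np : ℝ) ^ 2 * flaPair n m Λ₀ T w δ) ≤ ENNReal.ofReal (c₀ / 8) * MY := by
  have e : flaPair n m Λ₀ T w δ = m * flaPair n 1 Λ₀ T w δ := by
    unfold flaPair
    ring
  have h0 : 0 ≤ flaPair n 1 Λ₀ T w δ := by
    unfold flaPair
    positivity
  have h1 : (Np : ℝ) ^ 2 ≤ XCp ^ 2 := pow_le_pow_left₀ (Nat.cast_nonneg _) hNp 2
  have h2 : (Np : ℝ) ^ 2 * flaPair n m Λ₀ T w δ ≤ c₀ / 8 * (m * Gg) := by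
    rw [e]
    have h3 := mul_le_mul_of_nonneg_right h1 h0
    have h4 := mul_le_mul_of_nonneg_left (h3.trans h) hm
    nlinarith
  calc ENNReal.ofReal ((Np : ℝ) ^ 2 * flaPair n m Λ₀ T w δ) ≤ ENNReal.ofReal (c₀ / 8 * (m * Gg)) := ENNReal.ofReal_le_ofReal h2
    _ = ENNReal.ofReal (c₀ / 8) * ENNReal.ofReal (m * Gg) := ENNReal.ofReal_mul (by positivity)
    _ ≤ ENNReal.ofReal (c₀ / 8) * MY := mul_le_mul_right hgeo _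

/-! ## LEAF L-FLA-4C : `w:angular` in the active range, the error `E3`      (~200 l.) -/

/-- **PLAN.**  `hAng ι A t c μ m χ g K Ns Sel`:  class `wh_in_mono h.cls ht`;  `energy t c ≤ energy s c = 1` (`ww_energy_mono`, `h.en`);  `0 < χ` from `h.hχ`;  `0 < g` from `h.hg`;  `Grow, Slab, Dens, InBall` from `h.adm`;
`L^{-G.Cl} ≤ L^{-(e+2)} ≤ λ` (`wn_lev`, `Real.rpow_le_rpow_of_exponent_le`);   `WeakAt0 n W X G.C' (L/K^J) 1`: `hC'`, `ww_nobox hp hC zero_le_one hCb (h.outer (L/K^J) 1 le_rfl _ _)` with `1 ≤ L/K^J` (`(K^J)² ≤ L`, `K^J ≥ 1`) and `L/K^J ≤ L/2`.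
Finally `wrhs n X m L g 1 E = wrhs n X m L g 1 1 * E^{p/2}` (unfold, `Real.one_rpow`). -/
theorem fla_ang {W : WCon} {X : WExp} {G : ACon} {J : ℕ} {K₀ c₂ Ca CN κ v₀ L₀ : ℝ} (hAng : AngularWith n W X G J K₀ c₂ Ca CN)
    {A : Arr n ι} {s : Finset ι} {c : ι → ℂ} {μ : Measure (ST n)} {m χ g D : ℝ} (h : Act n W X κ v₀ L₀ A s c μ m χ g D)
    (hp : 2 ≤ X.p) (hC : 0 ≤ X.Cind) (ha : 0 ≤ X.a) (hav : X.a * v₀ ≤ 1) (hCb : Real.sqrt n ≤ W.Cb) (hC' : G.C' = ww_Cnb n W)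
    (hCl : eex n + 2 ≤ G.Cl) (K Ns : ℕ) (hK : K₀ ≤ (K : ℝ)) (hKL : ((K : ℝ) ^ J) ^ 2 ≤ A.L) (hK2 : 2 ≤ (K : ℝ) ^ J) :
    ∀ t : Finset ι, t ⊆ s → ∀ Sel : MI n → Finset (BI n), (∀ Q, AngCover G.Cw G.Cq G.cq ((K : ℝ) ^ J) Ns (Sel Q)) →
      μ {z | G.c₀ * wlev n X.a χ g A.L ≤ ‖selF A t c ((K : ℝ) ^ J) Sel z‖} ≤
        ENNReal.ofReal (Ca * (Ns : ℝ) ^ X.p * ((K : ℝ) ^ J) ^ (-c₂) * wrhs n X m A.L g 1 1 * energy t c ^ (X.p / 2) + CN * m * A.L ^ (-G.N)) := by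
  intro t ht Sel hSel
  have hL1 : 1 ≤ A.L := h.cls.one_le
  have hL0 : 0 < A.L := by linarith
  have hχ0 : 0 < χ := lt_trans (Real.rpow_pos_of_pos hL0 _) h.hχ
  have hD0 : 0 < D := by linarith [h.hD1]
  have hg0 : 0 < g := lt_of_lt_of_le (by positivity) h.hg
  have hen : energy t c ≤ 1 := (ww_energy_mono c ht).trans h.en.le
  have hlev : A.L ^ (-G.Cl) ≤ wlev n X.a χ g A.L := by
    refine le_trans ?_ (wn_lev hL1 h.hχ ha hav h.hD1 h.hDL h.hg)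
    apply Real.rpow_le_rpow_of_exponent_le hL1
    linarith
  have hKJ0 : 0 < (K : ℝ) ^ J := by linarith
  have hweak : WeakAt0 n W X G.C' (A.L / (K : ℝ) ^ J) 1 := by
    rw [hC']
    apply ww_nobox hp hC zero_le_one hCb
    apply h.outer (A.L / (K : ℝ) ^ J) 1 le_rfl
    · rw [le_div_iff₀ hKJ0, one_mul]
      nlinarith
    · exact div_le_div_of_nonneg_left hL0.le (by norm_num) hK2
  have key := hAng ι A t c μ m χ g K Ns Sel hK hKL (wh_in_mono h.cls ht) (fun α hα => h.tc0 α (ht hα)) hen h.hm.le hχ0 h.hχ1 hg0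
    h.adm.grow h.adm.slab h.adm.dens h.adm.box hlev hweak hSel
  refine key.trans (le_of_eq ?_)
  have e : wrhs n X m A.L g 1 (energy t c) = wrhs n X m A.L g 1 1 * energy t c ^ (X.p / 2) := by
    unfold wrhs
    rw [Real.one_rpow (X.p / 2)]
    ring
  rw [e]
  congr 2
  ring

/-- **PLAN.**  `wrhs g 1 1 = D^σ wrhs g D 1` (`Real.one_rpow`, `Real.rpow_neg`, `D > 0`), so `Q wrhs(g,1,1) = (Q D^σ) wrhs(g,D,1) ≤ (c₀/8) wrhs(g,D,1)`, `< (c₀/8) MY`;   `Np (CN m L^{-N}) ≤ m · XCp (CN L^{-N}) ≤ (c₀/8) m Gg ≤ (c₀/8) MY`;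
`ENNReal.ofReal_add`, `c₀/8 + c₀/8 = c₀/4`. -/
theorem fla_E3 (X : WExp) {Np : ℕ} {m L g D Q CNL XCp c₀ Gg : ℝ} {MY : ℝ≥0∞} (hC : 0 ≤ X.Cind) (hm : 0 ≤ m) (hL : 0 < L) (hg : 0 < g) (hD : 0 < D)
    (hc₀ : 0 ≤ c₀) (hQ : 0 ≤ Q) (hCNL : 0 ≤ CNL) (hNp : (Np : ℝ) ≤ XCp) (h1 : Q * D ^ X.σ ≤ c₀ / 8) (h2 : XCp * CNL ≤ c₀ / 8 * Gg)
    (hbig : ENNReal.ofReal (wrhs n X m L g D 1) < MY) (hgeo : ENNReal.ofReal (m * Gg) ≤ MY) :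
    ENNReal.ofReal (Q * wrhs n X m L g 1 1 + Np * (CNL * m)) ≤ ENNReal.ofReal (c₀ / 4) * MY := by
  have hR0 : 0 ≤ wrhs n X m L g D 1 := by
    unfold wrhs
    positivity
  have e1 : wrhs n X m L g 1 1 = D ^ X.σ * wrhs n X m L g D 1 := by
    unfold wrhs
    rw [Real.one_rpow, Real.rpow_neg hD.le]
    have : D ^ X.σ ≠ 0 := (Real.rpow_pos_of_pos hD _).ne'
    field_simp
  have a1 : Q * wrhs n X m L g 1 1 ≤ c₀ / 8 * wrhs n X m L g D 1 := by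
    rw [e1, ← mul_assoc]
    exact mul_le_mul_of_nonneg_right h1 hR0
  have a2 : (Np : ℝ) * (CNL * m) ≤ c₀ / 8 * (m * Gg) := by
    calc (Np : ℝ) * (CNL * m) ≤ XCp * (CNL * m) := mul_le_mul_of_nonneg_right hNp (by positivity)
      _ = (XCp * CNL) * m := by ring
      _ ≤ (c₀ / 8 * Gg) * m := mul_le_mul_of_nonneg_right h2 hm
      _ = c₀ / 8 * (m * Gg) := by ring
  have hc8 : 0 ≤ c₀ / 8 := by positivity
  calc ENNReal.ofReal (Q * wrhs n X m L g 1 1 + Np * (CNL * m))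
      ≤ ENNReal.ofReal (c₀ / 8 * wrhs n X m L g D 1 + c₀ / 8 * (m * Gg)) := ENNReal.ofReal_le_ofReal (add_le_add a1 a2)
    _ ≤ ENNReal.ofReal (c₀ / 8 * wrhs n X m L g D 1) + ENNReal.ofReal (c₀ / 8 * (m * Gg)) := ENNReal.ofReal_add_le
    _ = ENNReal.ofReal (c₀ / 8) * ENNReal.ofReal (wrhs n X m L g D 1) + ENNReal.ofReal (c₀ / 8) * ENNReal.ofReal (m * Gg) := by
        rw [ENNReal.ofReal_mul hc8, ENNReal.ofReal_mul hc8]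
    _ ≤ ENNReal.ofReal (c₀ / 8) * MY + ENNReal.ofReal (c₀ / 8) * MY := by
        gcongr
    _ = ENNReal.ofReal (c₀ / 4) * MY := by
        rw [← add_mul, ← ENNReal.ofReal_add hc8 hc8]
        congr 2
        ring

/-! ## LEAF L-FLA-4D : EXIT OF FL-A      (~250 l.) -/

/-- **EXIT OF FL-A.**   **PLAN.**  `intro ι A s c μ m χ g D h`;  `Xv = B D`, `L = A.L`, `N := hnum L D h.hL h.hD1 h.hDL h.hDκ`.   `⟨Np, P, Y₀, ..⟩ := hP .. h`;   `hG .. h`.   `fla_core` with the instantiation of the header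
(`W.T₀ ≥ 0`: `hW.R1`, `hW.RT`;  `W.Cb, W.K.Rω ≥ √n ≥ 0`).   `hin := h.inner (Xv^{P1}) N.d1 N.d1L`.   `hfin`: `ww_total` (`measure_mono (subset_univ _)`, `ENNReal.ofReal_lt_top`).
`hang := fla_ang hAng h .. (wdK Xv u J) (flNc C11 Xv) N.k0 ..` (`wdR Xv u J = (wdK Xv u J : ℝ)^J` by `rfl`), `Aa = Ca Ns^p R^{-c₂} wrhs(g,1,1)`, `Ab = CN m L^{-G.N}` (nonneg: `hCa`, `hCN`).
`hw8`: `N.w8` times `L`.   `hmom`: `fla_mom_num`.   `hw₁`: equality after `unfold flaWp` (`v₉ (T₀L² + K.R L²) = (T₀ + K.R) Xv^{C9} L`: `field_simp`).   `hh`: `flH = L/Xv^{C10} > 0`.   `hhw`: `1/h = Xv^{C10}/L ≤ 1 ≤ w₁` (`N.h1`; `flaWp ≥ K.R ≥ 1`).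
`hhv`: `h v₉ = Xv^{C9}/Xv^{C10} ≤ 1`.   `hv2`: `N.v2`.   `hth`, `hθ`: `whNb * flTh = cth λ` (`whNb > 0`), `hcth`.   `hE1..hE3`: `fla_E1` (`N.e1`, `h.big`), `fla_E2` (`N.e2`, `Gg = cg L^{2n} Xv^{-Cgeo}`, `hG`), `fla_E3` (`N.e3a`, `N.e3b`). -/
theorem fla_main (hn : 2 ≤ n) {W : WCon} (hW : FlW n W) {X : WExp} {κ v₀ L₀ B c₀ Cp cg Cgeo K₀ c₂ Ca CN u C8 C9 P1 C10 C11 cth : ℝ} {G : ACon} {J : ℕ}
    (hp : 2 ≤ X.p) (hC : 0 ≤ X.Cind) (ha : 0 ≤ X.a) (hav : X.a * v₀ ≤ 1) (hc₀ : 0 ≤ c₀) (hCa : 0 ≤ Ca) (hCN : 0 ≤ CN)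
    (hC' : G.C' = ww_Cnb n W) (hCl : eex n + 2 ≤ G.Cl) (hcth0 : 0 ≤ cth) (hcth : G.c₀ + cth ≤ 1 / (4 * 3 ^ (n + 1)))
    (hnum : ∀ L D : ℝ, L₀ < L → 1 ≤ D → D ≤ L → D < L ^ κ →
      FlaNum n W X.p X.σ G.N J u C8 C9 P1 C10 C11 Cp Cgeo c₀ cg K₀ c₂ Ca CN (B * D) L D)
    (hP : PlateWith n W X κ v₀ L₀ B c₀ Cp) (hG : GeoWith n W X κ v₀ L₀ B cg Cgeo) (hAng : AngularWith n W X G J K₀ c₂ Ca CN) :
    ClusterWith n W X κ v₀ L₀ B G J u C10 C11 (flaC1 n W.K.Rω) cth Cp (c₀ / 2) := by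
  intro ι A s c μ m χ g D h
  have N := hnum A.L D h.hL h.hD1 h.hDL h.hDκ
  obtain ⟨Np, P, Y₀, hY₀m, hY₀, hNp, hunit, hmass, hcov⟩ := hP ι A s c μ m χ g D h
  have hgeo := hG ι A s c μ m χ g D h
  generalize B * D = Xv at *
  have hL1 : 1 ≤ A.L := h.cls.one_le
  have hL0 : 0 < A.L := by linarith
  have hX0 : 0 < Xv := by linarith [N.x1]
  have hχ0 : 0 < χ := lt_trans (Real.rpow_pos_of_pos hL0 _) h.hχ
  have hD0 : 0 < D := by linarith [h.hD1]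
  have hg0 : 0 < g := lt_of_lt_of_le (by positivity) h.hg
  have hm0 : 0 ≤ m := h.hm.le
  have hKR := hW.R1
  have hT₀ : 0 ≤ W.T₀ := by linarith [hW.R1, hW.RT]
  have hsq : 0 ≤ Real.sqrt n := Real.sqrt_nonneg _
  have hCb : 0 ≤ W.Cb := hsq.trans hW.Cb
  have hRω : 0 ≤ W.K.Rω := hsq.trans hW.Rω
  have p8 : 0 < Xv ^ C8 := Real.rpow_pos_of_pos hX0 _
  have p9 : 0 < Xv ^ C9 := Real.rpow_pos_of_pos hX0 _
  have p10 : 0 < Xv ^ C10 := Real.rpow_pos_of_pos hX0 _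
  have pp : 0 < Xv ^ Cp := Real.rpow_pos_of_pos hX0 _
  have hR0 : 0 < wdR Xv u J := by linarith [N.r2]
  have hlam0 : 0 ≤ wlev n X.a χ g A.L := by
    unfold wlev
    positivity
  have hNb0 : 0 < whNb n W.K.Rω (wdR Xv u J) := by
    unfold whNb
    positivity
  have hwr0 : 0 ≤ wrhs n X m A.L g 1 1 := by
    unfold wrhs
    positivity
  have hWp1 : 1 ≤ flaWp W C8 C9 Xv := by
    unfold flaWp
    have : 0 ≤ (W.T₀ + W.K.R) * Xv ^ C9 := by positivity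
    linarith
  have hWpL : 1 ≤ flaWp W C8 C9 Xv * A.L := one_le_mul_of_one_le_of_one_le hWp1 hL1
  have hgeo' : ENNReal.ofReal (m * (cg * A.L ^ (2 * (n : ℝ)) * Xv ^ (-Cgeo))) ≤ μ (wset A s c (wlev n X.a χ g A.L)) := by
    refine le_trans (le_of_eq ?_) hgeo
    congr 1
    ring
  have hH0 : 0 < flH C10 Xv A.L := by
    unfold flH
    positivity
  have hQ0 : 0 ≤ Ca * (flNc C11 Xv : ℝ) ^ X.p * wdR Xv u J ^ (-c₂) := by positivity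
  have hCNL0 : 0 ≤ CN * A.L ^ (-G.N) := by positivity
  exact fla_core hn W hW.M hT₀ hCb hRω X
    (⟨A, s, c, Np, P, W.T₀ * A.L ^ 2, Xv ^ C8 * A.L, Xv ^ C9 / A.L, flH C10 Xv A.L⟩ : FlaD n ι) μ
    (m := m) (χ := χ) (g := g) (D := D) (D₁ := Xv ^ P1) (w₀ := Xv ^ Cp * A.L) (w₁ := flaWp W C8 C9 Xv * A.L) (Λ := Xv ^ C8 / 2)
    (R := wdR Xv u J) (th := flTh n cth W.K.Rω (wdR Xv u J) (wlev n X.a χ g A.L)) (c₀ := c₀) (Nk := Xv ^ Cp)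
    (Aa := Ca * (flNc C11 Xv : ℝ) ^ X.p * wdR Xv u J ^ (-c₂) * wrhs n X m A.L g 1 1) (Ab := CN * m * A.L ^ (-G.N))
    G (flNc C11 Xv) Y₀ h.cls h.tc0 h.en.le hm0 hχ0 h.hχ1 hg0 h.adm hp hC (Real.rpow_pos_of_pos hX0 _) (h.inner (Xv ^ P1) N.d1 N.d1L)
    rfl hunit hY₀m hY₀ hcov hmass hc₀ hNp
    (ne_top_of_le_ne_top ENNReal.ofReal_ne_top ((measure_mono (subset_univ _)).trans (ww_total hL1 h.adm)))
    (by positivity) (by positivity)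
    (fla_ang hAng h hp hC ha hav hW.Cb hC' hCl (wdK Xv u J) (flNc C11 Xv) N.k0 N.rL N.r2)
    N.lam (by positivity) (by positivity)
    (by
      show Xv ^ Cp * A.L + Xv ^ C8 / 2 * A.L ≤ Xv ^ C8 * A.L
      have := mul_le_mul_of_nonneg_right N.w8 hL0.le
      linarith)
    (fla_mom_num W hRω hm0 hL1 N.x1 hNp N.mom)
    (by
      show Xv ^ C8 * A.L + Xv ^ C9 / A.L * (W.T₀ * A.L ^ 2 + W.K.R * A.L ^ 2) + W.K.R * A.L ≤ flaWp W C8 C9 Xv * A.L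
      apply le_of_eq
      unfold flaWp
      field_simp)
    hH0
    (by
      show 1 / flH C10 Xv A.L ≤ flaWp W C8 C9 Xv * A.L
      refine le_trans ?_ hWpL
      unfold flH
      rw [one_div_div, div_le_one hL0]
      exact N.h1)
    (by
      show flH C10 Xv A.L * (Xv ^ C9 / A.L) ≤ 1
      unfold flH
      have e : A.L / Xv ^ C10 * (Xv ^ C9 / A.L) = Xv ^ C9 / Xv ^ C10 := by field_simp
      rw [e, div_le_one p10]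
      exact N.hv)
    (by
      show 2 * (Xv ^ C9 / A.L) ≤ 1
      rw [← mul_div_assoc, div_le_one hL0]
      exact N.v2)
    hR0
    (by
      unfold flTh
      positivity)
    (by
      have e : whNb n W.K.Rω (wdR Xv u J) * flTh n cth W.K.Rω (wdR Xv u J) (wlev n X.a χ g A.L) = cth * wlev n X.a χ g A.L := by
        unfold flTh
        field_simp
      rw [e, ← add_mul]
      have := mul_le_mul_of_nonneg_right hcth hlam0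
      refine this.trans (le_of_eq ?_)
      ring)
    (fla_E1 X hC hm0 hL0 hg0 hc₀ N.e1 h.big)
    (fla_E2 hm0 (by positivity) (by positivity) (by linarith) (by positivity) hc₀ hNp N.e2 hgeo')
    (by
      have := fla_E3 (n := n) X hC hm0 hL0 hg0 hD0 hc₀ hQ0 hCNL0 hNp N.e3a N.e3b h.big hgeo'
      refine le_trans (le_of_eq ?_) this
      congr 1
      ring)

/-! ## NUMERICS.   Each lemma: explicit sufficient conditions of the form `const ≤ Xv`, `Xv^e ≤ L`, inequalities between exponents. -/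

/-! ### LEAF L-FLA-5A : the moment      (~150 l.) -/

/-- **PLAN.**  `a = Xv^{C8}/2 ≥ 1`.   First term: `a^{-(M-n-1)} ≤ a^{-1} = 2 Xv^{-C8}` (`M - n - 1 ≥ 1`), `4 whFar Xv^{P1} ≤ Xv · Xv^{P1} = Xv^{P1+1} ≤ Xv^{C8}`: first term `≤ 1/(2 Xv^{P1})`.
Second term `= Xv^{Cp} q Xv^{n C8} (2/Xv^{C9} + 1/L) ≤ 3 q Xv^{Cp + n C8}/Xv^{C9}`, `q = ((1+2Rω)/2)^n` (`(Xv^{C8})^n = Xv^{n C8}`: `Real.rpow_natCast`, `Real.rpow_mul`; `1/L ≤ 1/Xv^{C9}`);   `6 q Xv^{Cp+nC8+P1} ≤ Xv^{Cp+nC8+P1+1} ≤ Xv^{C9}`. -/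
theorem fla_num_mom (W : WCon) (hMn : n + 2 ≤ W.M) (hRω : 0 ≤ W.K.Rω) {Xv L C8 C9 Cp P1 : ℝ} (hX : 1 ≤ Xv) (h2 : 2 ≤ Xv ^ C8)
    (hC8 : P1 + 1 ≤ C8) (hC9 : Cp + n * C8 + P1 + 1 ≤ C9) (hF : 4 * whFar n W ≤ Xv) (hq : 6 * ((1 + 2 * W.K.Rω) / 2) ^ n ≤ Xv) (hL : Xv ^ C9 ≤ L) :
    whFar n W * (Xv ^ C8 / 2) ^ (-((W.M : ℝ) - n - 1)) +
      Xv ^ Cp * ((2 * L / Xv ^ C9 + 1) * ((1 + 2 * W.K.Rω) * (Xv ^ C8 / 2)) ^ n / L) ≤ 1 / Xv ^ P1 := by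
  have hX0 : 0 < Xv := by linarith
  have hp1 : 0 < Xv ^ P1 := Real.rpow_pos_of_pos hX0 _
  have hc8 : 0 < Xv ^ C8 := Real.rpow_pos_of_pos hX0 _
  have hc9 : 0 < Xv ^ C9 := Real.rpow_pos_of_pos hX0 _
  have hcp : 0 < Xv ^ Cp := Real.rpow_pos_of_pos hX0 _
  have hL0 : 0 < L := lt_of_lt_of_le hc9 hL
  have ha1 : 1 ≤ Xv ^ C8 / 2 := by linarith
  have hk : (1 : ℝ) ≤ (W.M : ℝ) - n - 1 := by
    have : ((n + 2 : ℕ) : ℝ) ≤ (W.M : ℝ) := by exact_mod_cast hMn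
    push_cast at this
    linarith
  -- first term
  have t1 : whFar n W * (Xv ^ C8 / 2) ^ (-((W.M : ℝ) - n - 1)) ≤ 1 / (2 * Xv ^ P1) := by
    have s1 : (Xv ^ C8 / 2) ^ (-((W.M : ℝ) - n - 1)) ≤ (Xv ^ C8 / 2) ^ (-1 : ℝ) :=
      Real.rpow_le_rpow_of_exponent_le ha1 (by linarith)
    have s2 : (Xv ^ C8 / 2) ^ (-1 : ℝ) = 2 / Xv ^ C8 := by
      rw [Real.rpow_neg_one, inv_div]
    have s0 : 0 ≤ (Xv ^ C8 / 2) ^ (-((W.M : ℝ) - n - 1)) := Real.rpow_nonneg (by linarith) _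
    have s3 : Xv * Xv ^ P1 ≤ Xv ^ C8 := by
      have : Xv * Xv ^ P1 = Xv ^ (P1 + 1) := by rw [Real.rpow_add hX0, Real.rpow_one, mul_comm]
      rw [this]
      exact Real.rpow_le_rpow_of_exponent_le hX hC8
    calc whFar n W * (Xv ^ C8 / 2) ^ (-((W.M : ℝ) - n - 1)) ≤ Xv / 4 * (Xv ^ C8 / 2) ^ (-((W.M : ℝ) - n - 1)) :=
          mul_le_mul_of_nonneg_right (by linarith) s0
      _ ≤ Xv / 4 * (2 / Xv ^ C8) := by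
          rw [← s2]
          exact mul_le_mul_of_nonneg_left s1 (by linarith)
      _ = Xv / (2 * Xv ^ C8) := by field_simp; ring
      _ ≤ 1 / (2 * Xv ^ P1) := by
          rw [div_le_div_iff₀ (by positivity) (by positivity)]
          nlinarith
  -- second term
  have t2 : Xv ^ Cp * ((2 * L / Xv ^ C9 + 1) * ((1 + 2 * W.K.Rω) * (Xv ^ C8 / 2)) ^ n / L) ≤ 1 / (2 * Xv ^ P1) := by
    have e1 : ((1 + 2 * W.K.Rω) * (Xv ^ C8 / 2)) ^ n = ((1 + 2 * W.K.Rω) / 2) ^ n * Xv ^ ((n : ℝ) * C8) := by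
      have : Xv ^ ((n : ℝ) * C8) = (Xv ^ C8) ^ n := by
        rw [mul_comm, Real.rpow_mul hX0.le, Real.rpow_natCast]
      rw [this, ← mul_pow]
      ring_nf
    set q := ((1 + 2 * W.K.Rω) / 2) ^ n with hq_def
    have hq0 : 0 ≤ q := by positivity
    have hn8 : 0 < Xv ^ ((n : ℝ) * C8) := Real.rpow_pos_of_pos hX0 _
    have e2 : (2 * L / Xv ^ C9 + 1) / L ≤ 3 / Xv ^ C9 := by
      rw [div_le_div_iff₀ hL0 hc9]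
      have : (2 * L / Xv ^ C9 + 1) * Xv ^ C9 = 2 * L + Xv ^ C9 := by field_simp
      rw [this]
      linarith
    have s3 : Xv ^ Cp * Xv ^ ((n : ℝ) * C8) * Xv * Xv ^ P1 ≤ Xv ^ C9 := by
      have : Xv ^ Cp * Xv ^ ((n : ℝ) * C8) * Xv * Xv ^ P1 = Xv ^ (Cp + n * C8 + 1 + P1) := by
        rw [Real.rpow_add hX0, Real.rpow_add hX0, Real.rpow_add hX0, Real.rpow_one]
      rw [this]
      exact Real.rpow_le_rpow_of_exponent_le hX (by linarith)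
    rw [e1]
    calc Xv ^ Cp * ((2 * L / Xv ^ C9 + 1) * (q * Xv ^ ((n : ℝ) * C8)) / L)
        = Xv ^ Cp * (q * Xv ^ ((n : ℝ) * C8)) * ((2 * L / Xv ^ C9 + 1) / L) := by ring
      _ ≤ Xv ^ Cp * (q * Xv ^ ((n : ℝ) * C8)) * (3 / Xv ^ C9) := mul_le_mul_of_nonneg_left e2 (by positivity)
      _ = (6 * q) * (Xv ^ Cp * Xv ^ ((n : ℝ) * C8) / (2 * Xv ^ C9)) := by field_simp; ring
      _ ≤ Xv * (Xv ^ Cp * Xv ^ ((n : ℝ) * C8) / (2 * Xv ^ C9)) := mul_le_mul_of_nonneg_right hq (by positivity)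
      _ = (Xv ^ Cp * Xv ^ ((n : ℝ) * C8) * Xv) / (2 * Xv ^ C9) := by ring
      _ ≤ 1 / (2 * Xv ^ P1) := by
          rw [div_le_div_iff₀ (by positivity) (by positivity)]
          nlinarith
  have e : 1 / Xv ^ P1 = 1 / (2 * Xv ^ P1) + 1 / (2 * Xv ^ P1) := by field_simp; norm_num
  rw [e]
  exact add_le_add t1 t2

/-! ### LEAF L-FLA-5B : the pairs of plates      (~200 l.) -/

/-- the constant of `fla_num_pair` -/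
noncomputable def flaQ3 (n : ℕ) (W : WCon) : ℝ := (2 * (W.Cb + W.T₀) + 3) ^ (n - 1) * (((n : ℝ) + 7) * (1 + W.T₀ + 2 * W.K.R)) ^ n

/-- **PLAN.**  `w⁺ = flaWp W C8 C9 Xv`:  `1 ≤ w⁺ ≤ (1 + T₀ + 2K.R) Xv^{C9}` (`Xv^{C8} ≤ Xv^{C9}`, `1 ≤ Xv^{C9}`, `C9 ≥ C8 ≥ 0`).   `1/flH = Xv^{C10}/L`.   First factor of `flaPair`: `2 (Cb L² + T₀ L²)(Xv^{C10}/L)/(w⁺ L) + 3 = 2 (Cb+T₀) Xv^{C10}/w⁺ + 3 ≤ (2(Cb+T₀)+3) Xv^{C10}`.
Second: `(n+7) (w⁺ L)/(Xv^{C10}/L) = (n+7) w⁺ L²/Xv^{C10} ≤ (n+7)(1+T₀+2K.R) Xv^{C9} L²/Xv^{C10}`.   Product `≤ flaQ3 · Xv^{(n-1) C10} Xv^{n C9} Xv^{-n C10} L^{2n} = flaQ3 Xv^{n C9 - C10} L^{2n}` (`n ≥ 1`: `n - 1 + 1 = n`; `(L²)^n = L^{2(n:ℝ)}`).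
`8 flaQ3 ≤ c₀ cg Xv` and `2Cp + n C9 + Cgeo + 1 ≤ C10` finish. -/
theorem fla_num_pair (hn : 1 ≤ n) (W : WCon) (hT₀ : 0 ≤ W.T₀) (hCb : 0 ≤ W.Cb) (hKR : 1 ≤ W.K.R) {Xv L C8 C9 C10 Cp Cgeo c₀ cg : ℝ} (hX : 1 ≤ Xv) (hL : 1 ≤ L)
    (hC8 : 0 ≤ C8) (hC89 : C8 ≤ C9) (hCp : 0 ≤ Cp) (hCgeo : 0 ≤ Cgeo) (hC10 : 2 * Cp + n * C9 + Cgeo + 1 ≤ C10) (hc : 8 * flaQ3 n W ≤ c₀ * cg * Xv) :
    (Xv ^ Cp) ^ 2 * flaPair n 1 (W.Cb * L ^ 2) (W.T₀ * L ^ 2) (flaWp W C8 C9 Xv * L) (1 / flH C10 Xv L) ≤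
      c₀ / 8 * (cg * L ^ (2 * (n : ℝ)) * Xv ^ (-Cgeo)) := by
  have hX0 : 0 < Xv := by linarith
  have hL0 : 0 < L := by linarith
  have hC9 : 0 ≤ C9 := hC8.trans hC89
  have hn0 : (0 : ℝ) ≤ n := Nat.cast_nonneg _
  have hC100 : 0 ≤ C10 := by
    have : 0 ≤ (n : ℝ) * C9 := mul_nonneg hn0 hC9
    linarith
  have x8 : 1 ≤ Xv ^ C8 := Real.one_le_rpow hX hC8
  have x9 : 1 ≤ Xv ^ C9 := Real.one_le_rpow hX hC9
  have x10 : 1 ≤ Xv ^ C10 := Real.one_le_rpow hX hC100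
  have x89 : Xv ^ C8 ≤ Xv ^ C9 := Real.rpow_le_rpow_of_exponent_le hX hC89
  have hcp : 0 < Xv ^ Cp := Real.rpow_pos_of_pos hX0 _
  have hcg : 0 < Xv ^ Cgeo := Real.rpow_pos_of_pos hX0 _
  set a9 := Xv ^ C9 with ha9
  set a10 := Xv ^ C10 with ha10
  set w := flaWp W C8 C9 Xv with hw
  have hw1 : 1 ≤ w := by
    rw [hw]
    unfold flaWp
    have : 0 ≤ (W.T₀ + W.K.R) * a9 := by positivity
    linarith
  have hw2 : w ≤ (1 + W.T₀ + 2 * W.K.R) * a9 := by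
    rw [hw]
    unfold flaWp
    have : W.K.R ≤ W.K.R * a9 := le_mul_of_one_le_right (by linarith) x9
    nlinarith
  have hw0 : 0 < w := by linarith
  have ha100 : 0 < a10 := by linarith
  have ha90 : 0 < a9 := by linarith
  unfold flaPair flH
  have e1 : 2 * (W.Cb * L ^ 2 + W.T₀ * L ^ 2) * (1 / (L / a10)) / (w * L) + 3 = 2 * (W.Cb + W.T₀) * a10 / w + 3 := by
    field_simp
  have e2 : ((n : ℝ) + 7) * (w * L / (1 / (L / a10))) = ((n : ℝ) + 7) * w * L ^ 2 / a10 := by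
    field_simp
  rw [e1, e2]
  have b1 : 2 * (W.Cb + W.T₀) * a10 / w + 3 ≤ (2 * (W.Cb + W.T₀) + 3) * a10 := by
    have : 2 * (W.Cb + W.T₀) * a10 / w ≤ 2 * (W.Cb + W.T₀) * a10 := div_le_self (by positivity) hw1
    nlinarith
  have b2 : ((n : ℝ) + 7) * w * L ^ 2 / a10 ≤ (((n : ℝ) + 7) * (1 + W.T₀ + 2 * W.K.R)) * (a9 * L ^ 2 / a10) := by
    have : ((n : ℝ) + 7) * w * L ^ 2 / a10 = ((n : ℝ) + 7) * (L ^ 2 / a10) * w := by ring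
    rw [this]
    have h3 := mul_le_mul_of_nonneg_left hw2 (show 0 ≤ ((n : ℝ) + 7) * (L ^ 2 / a10) by positivity)
    refine h3.trans (le_of_eq ?_)
    ring
  have p1 := pow_le_pow_left₀ (show 0 ≤ 2 * (W.Cb + W.T₀) * a10 / w + 3 by positivity) b1 (n - 1)
  have p2 := pow_le_pow_left₀ (show 0 ≤ ((n : ℝ) + 7) * w * L ^ 2 / a10 by positivity) b2 n
  have hprod : (2 * (W.Cb + W.T₀) * a10 / w + 3) ^ (n - 1) * (1 * (((n : ℝ) + 7) * w * L ^ 2 / a10) ^ n) ≤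
      flaQ3 n W * (a9 ^ n * (L ^ 2) ^ n / a10) := by
    rw [one_mul]
    refine (mul_le_mul p1 p2 (by positivity) (by positivity)).trans (le_of_eq ?_)
    unfold flaQ3
    obtain ⟨k, rfl⟩ : ∃ k, n = k + 1 := ⟨n - 1, by omega⟩
    simp only [Nat.add_sub_cancel]
    rw [mul_pow, mul_pow, div_pow, mul_pow, pow_succ a10 k]
    field_simp
    rw [mul_pow]
  have eL : L ^ (2 * (n : ℝ)) = (L ^ 2) ^ n := by
    rw [← pow_mul, ← Real.rpow_natCast]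
    push_cast
    rfl
  have e9 : a9 ^ n = Xv ^ ((n : ℝ) * C9) := by
    rw [ha9, mul_comm, Real.rpow_mul hX0.le, Real.rpow_natCast]
  have hQ0 : 0 ≤ flaQ3 n W := by
    unfold flaQ3
    positivity
  have s3 : (Xv ^ Cp) ^ 2 * a9 ^ n * Xv ^ Cgeo * Xv ≤ a10 := by
    have : (Xv ^ Cp) ^ 2 * a9 ^ n * Xv ^ Cgeo * Xv = Xv ^ (2 * Cp + n * C9 + Cgeo + 1) := by
      have e2p : (Xv ^ Cp) ^ 2 = Xv ^ (2 * Cp) := by
        rw [mul_comm 2 Cp, Real.rpow_mul hX0.le, ← Real.rpow_natCast]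
        norm_num
      rw [e9, e2p, Real.rpow_add hX0, Real.rpow_add hX0, Real.rpow_add hX0, Real.rpow_one]
    rw [this]
    exact Real.rpow_le_rpow_of_exponent_le hX hC10
  rw [eL, Real.rpow_neg hX0.le]
  have hLn : 0 < (L ^ 2) ^ n := by positivity
  have h9n : 0 < a9 ^ n := by positivity
  calc (Xv ^ Cp) ^ 2 * ((2 * (W.Cb + W.T₀) * a10 / w + 3) ^ (n - 1) * (1 * (((n : ℝ) + 7) * w * L ^ 2 / a10) ^ n))
      ≤ (Xv ^ Cp) ^ 2 * (flaQ3 n W * (a9 ^ n * (L ^ 2) ^ n / a10)) := mul_le_mul_of_nonneg_left hprod (by positivity)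
    _ = (8 * flaQ3 n W) * ((Xv ^ Cp) ^ 2 * a9 ^ n * (L ^ 2) ^ n / (8 * a10)) := by field_simp
    _ ≤ (c₀ * cg * Xv) * ((Xv ^ Cp) ^ 2 * a9 ^ n * (L ^ 2) ^ n / (8 * a10)) := mul_le_mul_of_nonneg_right hc (by positivity)
    _ = (c₀ * cg) * ((L ^ 2) ^ n / (8 * Xv ^ Cgeo)) * (((Xv ^ Cp) ^ 2 * a9 ^ n * Xv ^ Cgeo * Xv) / a10) := by field_simp
    _ ≤ (c₀ * cg) * ((L ^ 2) ^ n / (8 * Xv ^ Cgeo)) * 1 := by
        refine mul_le_mul_of_nonneg_left ((div_le_one ha100).2 s3) ?_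
        have hcc : 0 ≤ c₀ * cg := by
          have : 0 ≤ c₀ * cg * Xv := le_trans (by positivity) hc
          exact nonneg_of_mul_nonneg_left this hX0
        positivity
    _ = c₀ / 8 * (cg * (L ^ 2) ^ n * (Xv ^ Cgeo)⁻¹) := by field_simp

/-! ### LEAF L-FLA-5C : the angular gain beats the logarithm      (~200 l.) -/

theorem fla_root_pow {Xv u : ℝ} (hX : 0 ≤ Xv) {J : ℕ} (hJ : 1 ≤ J) : (Xv ^ (u / (J : ℝ))) ^ J = Xv ^ u := by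
  have hJ0 : (J : ℝ) ≠ 0 := by positivity
  rw [← Real.rpow_natCast, ← Real.rpow_mul hX, div_mul_cancel₀ _ hJ0]

/-- `wdR Xv u J = ⌈Xv^{u/J}⌉₊^J`:  `Xv^u ≤ wdR ≤ 2^J Xv^u`   (as `wn_R_ge`, `wn_R_le`, which are the case `u = 1`). -/
theorem fla_R_bounds {Xv u : ℝ} (hX : 1 ≤ Xv) (hu : 0 ≤ u) {J : ℕ} (hJ : 1 ≤ J) : Xv ^ u ≤ wdR Xv u J ∧ wdR Xv u J ≤ 2 ^ J * Xv ^ u := by
  have hX0 : 0 ≤ Xv := by linarith
  have h1 : 1 ≤ Xv ^ (u / (J : ℝ)) := Real.one_le_rpow hX (by positivity)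
  constructor
  · unfold wdR wdK
    calc Xv ^ u = (Xv ^ (u / (J : ℝ))) ^ J := (fla_root_pow hX0 hJ).symm
      _ ≤ _ := pow_le_pow_left₀ (Real.rpow_nonneg hX0 _) (Nat.le_ceil _) _
  · have h2 : ((wdK Xv u J : ℕ) : ℝ) ≤ 2 * Xv ^ (u / (J : ℝ)) := by
      have := (Nat.ceil_lt_add_one (show 0 ≤ Xv ^ (u / (J : ℝ)) by linarith)).le
      unfold wdK
      linarith
    unfold wdR
    calc ((wdK Xv u J : ℕ) : ℝ) ^ J ≤ (2 * Xv ^ (u / (J : ℝ))) ^ J := pow_le_pow_left₀ (Nat.cast_nonneg _) h2 _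
      _ = 2 ^ J * Xv ^ u := by rw [mul_pow, fla_root_pow hX0 hJ]

/-- **PLAN.**  `ε = u c₂ - σ > 0`.   `Ns = flNc C11 Xv ≤ C11 log₂ Xv + 2`, `1 ≤ Ns`, so `Ns^p ≤ Ns^{pmax} ≤ (C11 log₂ Xv + 2)^{pmax}`;   `wdR^{-c₂} ≤ Xv^{-u c₂}` (`fla_R_bounds`, `Real.rpow_le_rpow_of_nonpos`), `D^σ ≤ Xv^σ`.
Enough: `Ca (C11 log₂ Xv + 2)^{pmax} ≤ (c₀/8) Xv^{ε}` for `Xv ≥ B₀`.   With `η = ε/(2 pmax)`: `log Xv ≤ Xv^η/η` (`Real.log_le_rpow_div`), so `C11 log₂ Xv + 2 ≤ c' Xv^η` (`Xv^η ≥ 1`), `(..)^{pmax} ≤ c'^{pmax} Xv^{ε/2}`, and `8 Ca c'^{pmax}/c₀ ≤ Xv^{ε/2}` for `Xv ≥ B₀ := max 1 ((8 Ca c'^{pmax}/c₀)^{2/ε})`. -/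
theorem fla_num_ang {J : ℕ} (hJ : 1 ≤ J) {u c₂ σ pmax C11 Ca c₀ : ℝ} (hu : 0 < u) (hc₂ : 0 < c₂) (hσ : 0 ≤ σ) (hσu : σ < u * c₂) (hpm : 0 < pmax) (hC11 : 0 ≤ C11)
    (hCa : 0 ≤ Ca) (hc₀ : 0 < c₀) :
    ∃ B₀ : ℝ, 1 ≤ B₀ ∧ ∀ Xv D p : ℝ, B₀ ≤ Xv → 1 ≤ D → D ≤ Xv → 0 ≤ p → p ≤ pmax →
      Ca * (flNc C11 Xv : ℝ) ^ p * wdR Xv u J ^ (-c₂) * D ^ σ ≤ c₀ / 8 := by
  set ε := u * c₂ - σ with hε
  have hε0 : 0 < ε := by rw [hε]; linarith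
  set η := ε / (2 * pmax) with hη
  have hη0 : 0 < η := by positivity
  have hlog2 : 0 < Real.log 2 := Real.log_pos (by norm_num)
  set c' := C11 / (η * Real.log 2) + 2 with hc'
  have hc'0 : 0 < c' := by positivity
  set Q := 8 * Ca * c' ^ pmax / c₀ with hQ
  have hQ0 : 0 ≤ Q := by positivity
  refine ⟨max 1 (Q ^ (2 / ε)), le_max_left _ _, fun Xv D p hB hD hDX hp hpp => ?_⟩
  have hX : 1 ≤ Xv := (le_max_left _ _).trans hB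
  have hX0 : 0 < Xv := by linarith
  have hQX : Q ≤ Xv ^ (ε / 2) := by
    have h1 : Q ^ (2 / ε) ≤ Xv := (le_max_right _ _).trans hB
    have h2 := Real.rpow_le_rpow (Real.rpow_nonneg hQ0 _) h1 (show 0 ≤ ε / 2 by positivity)
    rw [← Real.rpow_mul hQ0] at h2
    have : 2 / ε * (ε / 2) = 1 := by field_simp
    rwa [this, Real.rpow_one] at h2
  have hxη : 1 ≤ Xv ^ η := Real.one_le_rpow hX hη0.le
  -- the number of colours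
  have hlogb0 : 0 ≤ Real.logb 2 Xv := Real.logb_nonneg (by norm_num) hX
  have hNs1 : (1 : ℝ) ≤ (flNc C11 Xv : ℝ) := by
    unfold flNc
    push_cast
    have : (0 : ℝ) ≤ (⌈C11 * Real.logb 2 Xv⌉₊ : ℝ) := Nat.cast_nonneg _
    linarith
  have hNs2 : (flNc C11 Xv : ℝ) ≤ c' * Xv ^ η := by
    unfold flNc
    push_cast
    have h1 := (Nat.ceil_lt_add_one (show 0 ≤ C11 * Real.logb 2 Xv by positivity)).le
    have h2 : Real.logb 2 Xv ≤ Xv ^ η / (η * Real.log 2) := by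
      unfold Real.logb
      have := Real.log_le_rpow_div hX0.le hη0
      calc Real.log Xv / Real.log 2 ≤ (Xv ^ η / η) / Real.log 2 := div_le_div_of_nonneg_right this hlog2.le
        _ = Xv ^ η / (η * Real.log 2) := by rw [div_div]
    have h3 : C11 * Real.logb 2 Xv ≤ C11 / (η * Real.log 2) * Xv ^ η := by
      have := mul_le_mul_of_nonneg_left h2 hC11
      refine this.trans (le_of_eq ?_)
      ring
    rw [hc']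
    nlinarith
  have hN3 : (flNc C11 Xv : ℝ) ^ p ≤ c' ^ pmax * Xv ^ (ε / 2) := by
    calc (flNc C11 Xv : ℝ) ^ p ≤ (flNc C11 Xv : ℝ) ^ pmax := Real.rpow_le_rpow_of_exponent_le hNs1 hpp
      _ ≤ (c' * Xv ^ η) ^ pmax := Real.rpow_le_rpow (by linarith) hNs2 hpm.le
      _ = c' ^ pmax * Xv ^ (ε / 2) := by
          rw [Real.mul_rpow hc'0.le (by linarith), ← Real.rpow_mul hX0.le]
          congr 2
          rw [hη]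
          field_simp
  have hR : wdR Xv u J ^ (-c₂) ≤ Xv ^ (-(u * c₂)) := by
    have h1 := (fla_R_bounds hX hu.le hJ).1
    have h2 := Real.rpow_le_rpow_of_nonpos (Real.rpow_pos_of_pos hX0 u) h1 (show -c₂ ≤ 0 by linarith)
    refine h2.trans (le_of_eq ?_)
    rw [← Real.rpow_mul hX0.le]
    congr 1
    ring
  have hDσ : D ^ σ ≤ Xv ^ σ := Real.rpow_le_rpow (by linarith) hDX hσ
  have hR0 : 0 ≤ wdR Xv u J ^ (-c₂) := by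
    refine Real.rpow_nonneg ?_ _
    unfold wdR
    positivity
  have hD0 : 0 ≤ D ^ σ := Real.rpow_nonneg (by linarith) _
  have hN0 : 0 ≤ (flNc C11 Xv : ℝ) ^ p := Real.rpow_nonneg (by linarith) _
  have hxe : 0 < Xv ^ (ε / 2) := Real.rpow_pos_of_pos hX0 _
  calc Ca * (flNc C11 Xv : ℝ) ^ p * wdR Xv u J ^ (-c₂) * D ^ σ
      ≤ Ca * (c' ^ pmax * Xv ^ (ε / 2)) * Xv ^ (-(u * c₂)) * Xv ^ σ := by
        gcongr
    _ = Ca * c' ^ pmax * (Xv ^ (ε / 2) * Xv ^ (-(u * c₂)) * Xv ^ σ) := by ring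
    _ = Ca * c' ^ pmax * (Xv ^ (ε / 2))⁻¹ := by
        rw [← Real.rpow_add hX0, ← Real.rpow_add hX0, ← Real.rpow_neg hX0.le]
        congr 2
        rw [hε]
        ring
    _ = (c₀ / 8) * (Q / Xv ^ (ε / 2)) := by
        rw [hQ]
        field_simp
    _ ≤ (c₀ / 8) * 1 := mul_le_mul_of_nonneg_left ((div_le_one hxe).2 hQX) (by positivity)
    _ = c₀ / 8 := mul_one _

/-! ### LEAF L-FLA-5D : the small conditions      (~200 l.) -/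

/-- `(Xv^{P1})^{-σ} = Xv^{-σ P1} ≤ Xv^{-σ-1} ≤ D^{-σ}/Xv`;  `2^p ≤ 2^{pmax}`. -/
theorem fla_num_e1 {Xv D p pmax σ P1 c₀ : ℝ} (hX : 1 ≤ Xv) (hD : 1 ≤ D) (hDX : D ≤ Xv) (hσ : 0 ≤ σ) (hP1 : σ + 1 ≤ σ * P1) (hp : p ≤ pmax) (hc₀ : 0 < c₀)
    (h : 8 * 2 ^ pmax ≤ c₀ * Xv) : 2 ^ p * (Xv ^ P1) ^ (-σ) ≤ c₀ / 8 * D ^ (-σ) := by
  have hX0 : 0 < Xv := by linarith
  have hD0 : 0 < D := by linarith
  have h1 : (Xv ^ P1) ^ (-σ) ≤ D ^ (-σ) / Xv := by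
    calc (Xv ^ P1) ^ (-σ) = Xv ^ (-(σ * P1)) := by
          rw [← Real.rpow_mul hX0.le]
          congr 1
          ring
      _ ≤ Xv ^ (-σ - 1) := Real.rpow_le_rpow_of_exponent_le hX (by linarith)
      _ = Xv ^ (-σ) / Xv := by rw [Real.rpow_sub hX0, Real.rpow_one]
      _ ≤ D ^ (-σ) / Xv := div_le_div_of_nonneg_right (Real.rpow_le_rpow_of_nonpos hD0 hDX (by linarith)) hX0.le
  have h2 : (2 : ℝ) ^ p ≤ c₀ * Xv / 8 := by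
    have : (2 : ℝ) ^ p ≤ 2 ^ pmax := Real.rpow_le_rpow_of_exponent_le (by norm_num) hp
    linarith
  have hDσ : 0 < D ^ (-σ) := Real.rpow_pos_of_pos hD0 _
  calc 2 ^ p * (Xv ^ P1) ^ (-σ) ≤ (c₀ * Xv / 8) * (D ^ (-σ) / Xv) :=
        mul_le_mul h2 h1 (Real.rpow_nonneg (Real.rpow_nonneg hX0.le _) _) (by positivity)
    _ = c₀ / 8 * D ^ (-σ) := by field_simp

/-- `L^{-GN} ≤ 1`,  `L^{2n} ≥ L ≥ Xv^{Cp+Cgeo+1}`. -/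
theorem fla_num_e3b (hn : 1 ≤ n) {Xv L GN Cp Cgeo CN c₀ cg : ℝ} (hX : 1 ≤ Xv) (hL : 1 ≤ L) (hGN : 0 ≤ GN) (hCN : 0 ≤ CN) (hc₀ : 0 < c₀) (hcg : 0 < cg)
    (hXL : Xv ^ (Cp + Cgeo + 1) ≤ L) (h : 8 * CN ≤ c₀ * cg * Xv) :
    Xv ^ Cp * (CN * L ^ (-GN)) ≤ c₀ / 8 * (cg * L ^ (2 * (n : ℝ)) * Xv ^ (-Cgeo)) := by
  have hX0 : 0 < Xv := by linarith
  have hL0 : 0 < L := by linarith
  have h1 : L ^ (-GN) ≤ 1 := Real.rpow_le_one_of_one_le_of_nonpos hL (by linarith)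
  have h2 : L ≤ L ^ (2 * (n : ℝ)) := by
    have hn' : (1 : ℝ) ≤ n := by exact_mod_cast hn
    calc L = L ^ (1 : ℝ) := (Real.rpow_one L).symm
      _ ≤ _ := Real.rpow_le_rpow_of_exponent_le hL (by linarith)
  have hcp : 0 < Xv ^ Cp := Real.rpow_pos_of_pos hX0 _
  have hg : 0 < Xv ^ (-Cgeo) := Real.rpow_pos_of_pos hX0 _
  have e : Xv ^ (Cp + Cgeo + 1) * Xv ^ (-Cgeo) = Xv ^ Cp * Xv := by
    rw [← Real.rpow_add hX0]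
    have : Cp + Cgeo + 1 + -Cgeo = Cp + 1 := by ring
    rw [this, Real.rpow_add hX0, Real.rpow_one]
  calc Xv ^ Cp * (CN * L ^ (-GN)) ≤ Xv ^ Cp * (CN * 1) := by gcongr
    _ = (8 * CN) * (Xv ^ Cp / 8) := by ring
    _ ≤ (c₀ * cg * Xv) * (Xv ^ Cp / 8) := mul_le_mul_of_nonneg_right h (by positivity)
    _ = c₀ / 8 * (cg * (Xv ^ (Cp + Cgeo + 1) * Xv ^ (-Cgeo))) := by rw [e]; ring
    _ = c₀ / 8 * (cg * Xv ^ (Cp + Cgeo + 1) * Xv ^ (-Cgeo)) := by ring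
    _ ≤ c₀ / 8 * (cg * L ^ (2 * (n : ℝ)) * Xv ^ (-Cgeo)) := by
        have := hXL.trans h2
        gcongr

/-- `wdK ≥ Xv^{u/J} ≥ K₀` if `K₀^{J/u} ≤ Xv` (state: `K₀ ≤ Xv^{u/J}`);  `wdR ≥ Xv^u ≥ 2`;  `wdR² ≤ 4^J Xv^{2u} ≤ Xv^{2u+1} ≤ L`. -/
theorem fla_num_R {J : ℕ} (hJ : 1 ≤ J) {Xv L u K₀ : ℝ} (hX : 1 ≤ Xv) (hu : 0 < u) (hK : K₀ ≤ Xv ^ (u / (J : ℝ))) (h2 : 2 ≤ Xv ^ u) (h4 : (4 : ℝ) ^ J ≤ Xv)
    (hL : Xv ^ (2 * u + 1) ≤ L) : K₀ ≤ (wdK Xv u J : ℝ) ∧ 2 ≤ wdR Xv u J ∧ wdR Xv u J ^ 2 ≤ L := by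
  have hX0 : 0 < Xv := by linarith
  obtain ⟨b1, b2⟩ := fla_R_bounds hX hu.le hJ
  refine ⟨hK.trans (Nat.le_ceil _), h2.trans b1, ?_⟩
  have hR0 : 0 ≤ wdR Xv u J := by linarith
  have hxu : 0 < Xv ^ u := Real.rpow_pos_of_pos hX0 _
  calc wdR Xv u J ^ 2 ≤ (2 ^ J * Xv ^ u) ^ 2 := pow_le_pow_left₀ hR0 b2 2
    _ = 4 ^ J * (Xv ^ u * Xv ^ u) := by
        rw [mul_pow, ← pow_mul, mul_comm J 2, pow_mul]
        norm_num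
        ring
    _ ≤ Xv * (Xv ^ u * Xv ^ u) := mul_le_mul_of_nonneg_right h4 (by positivity)
    _ = Xv ^ (2 * u + 1) := by
        rw [Real.rpow_add hX0, Real.rpow_one, two_mul, Real.rpow_add hX0]
        ring
    _ ≤ L := hL

/-! ### LEAF L-FLA-5E : THE NUMERICS OF FL-A      (~250 l.) -/

/-- `a^(1/b) ≤ X` gives `a ≤ X^b` -/
theorem fla_aux_root {a b X : ℝ} (ha : 0 ≤ a) (hb : 0 < b) (h : a ^ (1 / b) ≤ X) : a ≤ X ^ b := by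
  have h2 := Real.rpow_le_rpow (Real.rpow_nonneg ha _) h hb.le
  rw [← Real.rpow_mul ha] at h2
  have : 1 / b * b = 1 := by field_simp
  rwa [this, Real.rpow_one] at h2

set_option maxHeartbeats 1000000 in
/-- **THE NUMERICAL HYPOTHESES HOLD** if `B₀ ≤ Xv`, `Xv^Γ ≤ L`, `1 ≤ D ≤ Xv`.   `Γ` depends only on exponents.
**PLAN.**  `P1 = 1 + 1/σ`, `C8 = Cp + P1 + 1`, `C9 = Cp + n C8 + P1 + 1`, `C10₀ = 2Cp + n C9 + Cgeo + 1`, `Γ = P1 + C9 + 1 + C10 + 2u + 1 + Cp + Cgeo + 1` (every needed exponent `e` satisfies `0 ≤ e ≤ Γ`, so `Xv^e ≤ Xv^Γ ≤ L`).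
`B₀ = max` of: `2`, `2^{1/u}` (for `2 ≤ Xv^u`), `2^σ`… (`2 D ≤ 2 Xv ≤ Xv^{1/σ} Xv`: needs `2 ≤ Xv^{1/σ}`), `4 whFar`, `6 q`, `8 flaQ3/(c₀ cg)`, `8·2^{pmax}/c₀`, `8 CN/(c₀ cg)`, `4^J`, `|K₀|^{J/u}`, and the `B₀` of `fla_num_ang`.
Fields: `x1`; `d1`; `d1L`; `lam`, `w8` (`Xv^{C8} ≥ Xv ≥ 2`, `Xv^{C8} ≥ Xv · Xv^{Cp} ≥ 2 Xv^{Cp}`); `mom` `fla_num_mom`; `hv` (`C9 ≤ C10₀ ≤ C10`); `v2` (`2 Xv^{C9} ≤ Xv^{C9+1}`); `h1`; `e1` `fla_num_e1`; `e2` `fla_num_pair`; `e3a` `fla_num_ang`; `e3b` `fla_num_e3b`; `k0, r2, rL` `fla_num_R`. -/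
theorem fla_num (hn : 1 ≤ n) (W : WCon) (hW : FlW n W) {J : ℕ} (hJ : 1 ≤ J) {u c₂ σ pmax Cp Cgeo : ℝ} (hu : 0 < u) (hc₂ : 0 < c₂) (hσ : 0 < σ) (hσu : σ < u * c₂)
    (hpm : 2 < pmax) (hCp : 0 ≤ Cp) (hCgeo : 0 ≤ Cgeo) :
    ∃ C8 C9 P1 C10₀ : ℝ, ∀ C10 : ℝ, C10₀ ≤ C10 → ∀ C11 : ℝ, 0 ≤ C11 → ∃ Γ : ℝ, 0 ≤ Γ ∧
      ∀ c₀ cg K₀ Ca CN GN : ℝ, 0 < c₀ → 0 < cg → 0 ≤ Ca → 0 ≤ CN → 0 ≤ GN → ∃ B₀ : ℝ, 1 ≤ B₀ ∧
        ∀ p Xv L D : ℝ, 2 ≤ p → p ≤ pmax → B₀ ≤ Xv → Xv ^ Γ ≤ L → 1 ≤ D → D ≤ Xv →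
          FlaNum n W p σ GN J u C8 C9 P1 C10 C11 Cp Cgeo c₀ cg K₀ c₂ Ca CN Xv L D := by
  have hn' : (1 : ℝ) ≤ n := by exact_mod_cast hn
  have hRω : 0 ≤ W.K.Rω := (Real.sqrt_nonneg _).trans hW.Rω
  have hCb : 0 ≤ W.Cb := (Real.sqrt_nonneg _).trans hW.Cb
  have hKR : 1 ≤ W.K.R := hW.R1
  have hT₀ : 0 ≤ W.T₀ := by linarith [hW.RT]
  obtain ⟨P1, hP1⟩ : ∃ x : ℝ, x = 1 + 1 / σ := ⟨_, rfl⟩
  have hP11 : 1 ≤ P1 := by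
    have : 0 < 1 / σ := by positivity
    linarith
  obtain ⟨C8, hC8⟩ : ∃ x : ℝ, x = Cp + P1 + 1 := ⟨_, rfl⟩
  have hC81 : 1 ≤ C8 := by linarith
  obtain ⟨C9, hC9⟩ : ∃ x : ℝ, x = Cp + n * C8 + P1 + 1 := ⟨_, rfl⟩
  have hnC8 : C8 ≤ n * C8 := le_mul_of_one_le_left (by linarith) hn'
  have hC89 : C8 ≤ C9 := by linarith
  have hC90 : 0 ≤ C9 := by linarith
  obtain ⟨C10₀, hC100⟩ : ∃ x : ℝ, x = 2 * Cp + n * C9 + Cgeo + 1 := ⟨_, rfl⟩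
  have hnC9 : C9 ≤ n * C9 := le_mul_of_one_le_left hC90 hn'
  refine ⟨C8, C9, P1, C10₀, fun C10 hC10 C11 hC11 => ?_⟩
  have hC910 : C9 ≤ C10 := by linarith
  obtain ⟨Γ, hΓ⟩ : ∃ x : ℝ, x = P1 + C9 + 1 + C10 + 2 * u + 1 + Cp + Cgeo + 1 := ⟨_, rfl⟩
  refine ⟨Γ, by linarith, fun c₀ cg K₀ Ca CN GN hc₀ hcg hCa hCN hGN => ?_⟩
  obtain ⟨Ba, hBa1, hBa⟩ := fla_num_ang hJ hu hc₂ hσ.le hσu (by linarith : 0 < pmax) hC11 hCa hc₀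
  have hQ30 : 0 ≤ flaQ3 n W := by
    unfold flaQ3
    positivity
  have t1 : (0 : ℝ) ≤ 2 ^ (1 / u) := by positivity
  have t2 : (0 : ℝ) ≤ 2 ^ σ := by positivity
  have t3 : 0 ≤ 4 * |whFar n W| := by positivity
  have t4 : 0 ≤ 6 * ((1 + 2 * W.K.Rω) / 2) ^ n := by positivity
  have t5 : 0 ≤ 8 * flaQ3 n W / (c₀ * cg) := by positivity
  have t6 : 0 ≤ 8 * 2 ^ pmax / c₀ := by positivity
  have t7 : 0 ≤ 8 * CN / (c₀ * cg) := by positivity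
  have t8 : (0 : ℝ) ≤ 4 ^ J := by positivity
  have t9 : 0 ≤ |K₀| ^ ((J : ℝ) / u) := by positivity
  refine ⟨2 + 2 ^ (1 / u) + 2 ^ σ + 4 * |whFar n W| + 6 * ((1 + 2 * W.K.Rω) / 2) ^ n + 8 * flaQ3 n W / (c₀ * cg) + 8 * 2 ^ pmax / c₀ +
    8 * CN / (c₀ * cg) + 4 ^ J + |K₀| ^ ((J : ℝ) / u) + Ba, by linarith, fun p Xv L D hp hpp hB hXL hD hDX => ?_⟩
  have hX2 : 2 ≤ Xv := by linarith
  have hX : 1 ≤ Xv := by linarith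
  have hX0 : 0 < Xv := by linarith
  have hpow : ∀ e : ℝ, e ≤ Γ → Xv ^ e ≤ L := fun e he => (Real.rpow_le_rpow_of_exponent_le hX he).trans hXL
  have hL : 1 ≤ L := by
    have := hpow 0 (by linarith)
    rwa [Real.rpow_zero] at this
  have hxu : 2 ≤ Xv ^ u := fla_aux_root (by norm_num) hu (by linarith)
  have hxσ : 2 ≤ Xv ^ (1 / σ) := by
    refine fla_aux_root (by norm_num) (by positivity) ?_
    rw [one_div_one_div]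
    linarith
  have hxK : K₀ ≤ Xv ^ (u / (J : ℝ)) := by
    have hJ0 : (0 : ℝ) < J := by exact_mod_cast hJ
    refine (le_abs_self _).trans (fla_aux_root (abs_nonneg _) (by positivity) ?_)
    rw [one_div_div]
    linarith
  have hx8 : Xv * Xv ^ Cp ≤ Xv ^ C8 := by
    have : Xv * Xv ^ Cp = Xv ^ (Cp + 1) := by rw [Real.rpow_add hX0, Real.rpow_one, mul_comm]
    rw [this]
    exact Real.rpow_le_rpow_of_exponent_le hX (by linarith)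
  have hxcp : 1 ≤ Xv ^ Cp := Real.one_le_rpow hX hCp
  have h28 : 2 ≤ Xv ^ C8 := by nlinarith
  have hF : 4 * whFar n W ≤ Xv := by
    have := le_abs_self (whFar n W)
    linarith
  have hq : 6 * ((1 + 2 * W.K.Rω) / 2) ^ n ≤ Xv := by linarith
  have hcc : 0 < c₀ * cg := by positivity
  have hc3 : 8 * flaQ3 n W ≤ c₀ * cg * Xv := by
    have : 8 * flaQ3 n W / (c₀ * cg) ≤ Xv := by linarith
    rw [div_le_iff₀ hcc] at this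
    linarith
  have hc1 : 8 * 2 ^ pmax ≤ c₀ * Xv := by
    have : 8 * 2 ^ pmax / c₀ ≤ Xv := by linarith
    rw [div_le_iff₀ hc₀] at this
    linarith
  have hcN : 8 * CN ≤ c₀ * cg * Xv := by
    have : 8 * CN / (c₀ * cg) ≤ Xv := by linarith
    rw [div_le_iff₀ hcc] at this
    linarith
  obtain ⟨r1, r2, r3⟩ := fla_num_R hJ hX hu hxK hxu (by linarith : (4 : ℝ) ^ J ≤ Xv) (hpow _ (by linarith))
  refine ⟨hX, ?_, hpow _ (by linarith), by linarith, by nlinarith, ?_, Real.rpow_le_rpow_of_exponent_le hX hC910, ?_, hpow _ (by linarith), ?_, ?_, ?_, ?_,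
    r1, r2, r3⟩
  · -- d1
    have : Xv ^ P1 = Xv * Xv ^ (1 / σ) := by rw [hP1, Real.rpow_add hX0, Real.rpow_one]
    rw [this]
    nlinarith
  · exact fla_num_mom W hW.M hRω hX h28 (by linarith) hC9.ge hF hq (hpow _ (by linarith))
  · -- v2
    have h1 : 2 * Xv ^ C9 ≤ Xv ^ (C9 + 1) := by
      rw [Real.rpow_add hX0, Real.rpow_one, mul_comm]
      exact mul_le_mul_of_nonneg_left hX2 (Real.rpow_nonneg hX0.le _)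
    exact h1.trans (hpow _ (by linarith))
  · refine fla_num_e1 hX hD hDX hσ.le ?_ hpp hc₀ hc1
    rw [hP1]
    have : σ * (1 + 1 / σ) = σ + 1 := by field_simp
    rw [this]
  · exact fla_num_pair hn W hT₀ hCb hKR hX hL (by linarith) hC89 hCp hCgeo (hC100.ge.trans hC10) hc3
  · exact hBa Xv D p (by linarith) hD hDX (by linarith) hpp
  · exact fla_num_e3b hn hX hL hGN hCN hc₀ hcg (hpow _ (by linarith)) hcN

end Claimed.Agent.R257
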