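import Claimed.Agent.R257.Fl.Defs
import Claimed.Agent.R257.Infra.ArrB
import Claimed.Agent.R257.Infra.Lay.Win
import Claimed.Agent.R257.Ang.Resc

/-!
# R257 / Fl / B1 : FL-B FLATTEN, part 1: CONSTRUCTION, CLASS, FIELD IDENTITY      (architect helper122; mathematics: `Fl/Plan.lean`, section FL-B, helper263)

Fine bin `θ` (`fbin h`), `v = bcen h θ`, labels `flbS A s' h θ`, child array `flbA A h θ = A.resc h v` (scale `b₁ = L/h`, class of `A`), child field `flbV = (flbA).fld (flbS) c`;  `A.fld (flbS θ) c z = h^{-n/2} car v z · flbV (pmap h v z)`.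
* `flbLat T`      lattice point of space-time;      `flbWin X = iflWin X.1 * pkWin1 X.2 ^ 2`  window, `∑_T flbWin (X - flbLat T) = 1`, support in the OPEN cube `(-1,1)^{n+1}`.
* `FlbD n N`, `flbL d`      coordinate lists of length `≤ N` (FINITELY many directions: the weighted budget needs one array per direction list).
* `flbSupE U q = sup_{cube q} |U|` (`ℝ≥0∞`),      `flbBox n = {-1,0,1}^{n+1}`,      `flbSz N V T = ∑_d ∑_{e ∈ box} sup_{cube (T+e)} |∂^d V|`  THE SIZE of the cell `T`.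
* `flbPf V T κ X = flbWin X · V (X + flbLat T) / κ`  the normalised profile (`0` if `κ = 0`),      `flbCf`, `flbPF`, `flbPk` coefficients, profiles, index set of the flattened array.
Every `sorry` is a LEAF `L-FLB-*` (name in the docstring).  Prove IN PLACE, helper lemmas directly above your theorem (prefix `flb_<leaf>_`), edit only your theorems, fresh pull, land at once.  Tell helper122 at once if a statement looks false or awkward.
-/

set_option autoImplicit false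

namespace Claimed.Agent.R257

open MeasureTheory Metric Set
open scoped ENNReal ContDiff InnerProductSpace

variable {n : ℕ} {ι : Type}

/-! ## 1. lattice, window -/

/-- lattice point of space-time -/
noncomputable def flbLat (T : MI n) : ST n := (flLat T.1, (T.2 : ℝ))

/-- the window -/
noncomputable def flbWin (X : ST n) : ℝ := iflWin X.1 * R255.pkWin1 X.2 ^ 2

theorem flb_lat_add (T e : MI n) : flbLat (T + e) = flbLat T + flbLat e := by
  unfold flbLat flLat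
  refine Prod.ext ?_ ?_
  · ext i
    simp
  · simp

/-- **L-FLB-WIN** (`ifl_win_smooth`, `R255.pk_win1_smooth`, `contDiff_fst`, `contDiff_snd`) -/
theorem flb_win_smooth : ContDiff ℝ ∞ (flbWin : ST n → ℝ) := by
  unfold flbWin
  exact (ifl_win_smooth.comp contDiff_fst).mul ((R255.pk_win1_smooth.comp contDiff_snd).pow 2)

/-- **L-FLB-WIN** (`ifl_win_supp`, `R255.pk_win1_supp`) -/
theorem flb_win_supp (X : ST n) (h : flbWin X ≠ 0) : (∀ i, |X.1 i| < 1) ∧ |X.2| < 1 := by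
  unfold flbWin at h
  have h1 : iflWin X.1 ≠ 0 := left_ne_zero_of_mul h
  have h2 : R255.pkWin1 X.2 ≠ 0 := fun h0 => right_ne_zero_of_mul h (by rw [h0]; norm_num)
  exact ⟨ifl_win_supp X.1 h1, R255.pk_win1_supp X.2 h2⟩

/-- **L-FLB-WIN** (`ifl_win_range`, `R255.pk_win1_range`) -/
theorem flb_win_range (X : ST n) : 0 ≤ flbWin X ∧ flbWin X ≤ 1 := by
  have h1 := ifl_win_range X.1
  have h2 := R255.pk_win1_range X.2
  unfold flbWin
  refine ⟨mul_nonneg h1.1 (sq_nonneg _), ?_⟩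
  calc iflWin X.1 * R255.pkWin1 X.2 ^ 2 ≤ 1 * 1 := mul_le_mul h1.2 (pow_le_one₀ h2.1 h2.2) (sq_nonneg _) zero_le_one
    _ = 1 := one_mul 1

theorem flb_win_sum1 (s : ℝ) : HasSum (fun k : ℤ => R255.pkWin1 (s - (k : ℝ)) ^ 2) 1 := by
  have hT : ∀ k : ℤ, |s - k| < 1 → k ∈ Finset.Icc (⌊s⌋ - 1) (⌊s⌋ + 1) := by
    intro k hk
    rw [abs_lt] at hk
    rw [Finset.mem_Icc]
    have h1 : (⌊s⌋ : ℝ) ≤ s := Int.floor_le _
    have h2 : s < ⌊s⌋ + 1 := Int.lt_floor_add_one _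
    constructor
    · have : ((⌊s⌋ - 1 : ℤ) : ℝ) < (k : ℝ) + 1 := by push_cast; linarith
      have : (⌊s⌋ - 1 : ℤ) < k + 1 := by exact_mod_cast this
      omega
    · have : (k : ℝ) < ((⌊s⌋ + 1 + 1 : ℤ) : ℝ) := by push_cast; linarith
      have : k < ⌊s⌋ + 1 + 1 := by exact_mod_cast this
      omega
  have hz : ∀ k ∉ Finset.Icc (⌊s⌋ - 1) (⌊s⌋ + 1), R255.pkWin1 (s - (k : ℝ)) ^ 2 = 0 := by
    intro k hk
    have : R255.pkWin1 (s - (k : ℝ)) = 0 := by
      by_contra hne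
      exact hk (hT k (R255.pk_win1_supp _ hne))
    rw [this]
    norm_num
  have hs : HasSum (fun k : ℤ => R255.pkWin1 (s - (k : ℝ)) ^ 2) (∑ k ∈ Finset.Icc (⌊s⌋ - 1) (⌊s⌋ + 1), R255.pkWin1 (s - (k : ℝ)) ^ 2) :=
    hasSum_sum_of_ne_finset_zero hz
  rwa [R255.pk_win1_sum s _ hT] at hs

/-- **L-FLB-WIN** partition of unity.  (`ifl_win_sum` (`iflLat = flLat` by `rfl`), `R255.pk_win1_sum` gives `HasSum (fun k : ℤ => pkWin1 (s - k) ^ 2) 1` (`hasSum_sum_of_ne_finset_zero` with `S = Icc (⌊s⌋ - 1) (⌈s⌉ + 1)`); product of two nonnegative summable families: `HasSum.mul_of_nonneg`/`HasSum.mul` + `Summable.mul_of_nonneg`.) -/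
theorem flb_win_sum (X : ST n) : HasSum (fun T : MI n => flbWin (X - flbLat T)) 1 := by
  have h1 : HasSum (fun k : Fin n → ℤ => iflWin (X.1 - flLat k)) 1 := ifl_win_sum X.1
  have h2 := flb_win_sum1 X.2
  have h3 : Summable fun T : MI n => iflWin (X.1 - flLat T.1) * R255.pkWin1 (X.2 - (T.2 : ℝ)) ^ 2 :=
    h1.summable.mul_of_nonneg h2.summable (fun k => (ifl_win_range _).1) (fun k => sq_nonneg _)
  have h4 := HasSum.mul (f := fun k : Fin n → ℤ => iflWin (X.1 - flLat k)) (g := fun k : ℤ => R255.pkWin1 (X.2 - (k : ℝ)) ^ 2) h1 h2 h3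
  rw [one_mul] at h4
  exact h4

/-- **L-FLB-WIN** bounds of all derivatives of the complex valued window.  (smooth with compact support: `R255.pk_cb_of_compact` as in `ifl_win_cb`; or `ContDiff.continuous_iteratedFDeriv` + `HasCompactSupport.iteratedFDeriv` + `Continuous.bounded_above_of_compact_support`.) -/
theorem flb_win_cb (n : ℕ) : ∃ Λ : ℕ → ℝ, ∀ (j : ℕ) (X : ST n), ‖iteratedFDeriv ℝ j (fun X : ST n => ((flbWin X : ℝ) : ℂ)) X‖ ≤ Λ j := by
  have hsm : ContDiff ℝ ∞ (fun X : ST n => ((flbWin X : ℝ) : ℂ)) := Complex.ofRealCLM.contDiff.comp flb_win_smooth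
  have hc : HasCompactSupport (fun X : ST n => ((flbWin X : ℝ) : ℂ)) :=
    HasCompactSupport.of_support_subset_isCompact (isCompact_closedBall (0 : ST n) (Real.sqrt n + 1))
      (fun X hX => by
        have h0 : flbWin X ≠ 0 := fun h => hX (by simp only [h, Complex.ofReal_zero])
        have h1 := flb_win_supp X h0
        have h2 : iflWin X.1 ≠ 0 := by
          unfold flbWin at h0
          exact left_ne_zero_of_mul h0
        have h3 := ifl_win_supp_norm X.1 h2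
        rw [mem_closedBall_zero_iff, Prod.norm_def, max_le_iff, Real.norm_eq_abs]
        exact ⟨by linarith, by linarith [h1.2, Real.sqrt_nonneg (n : ℝ)]⟩)
  have hex : ∀ j : ℕ, ∃ C : ℝ, ∀ X : ST n, ‖iteratedFDeriv ℝ j (fun X : ST n => ((flbWin X : ℝ) : ℂ)) X‖ ≤ C := fun j =>
    (hc.iteratedFDeriv j).exists_bound_of_continuous (hsm.continuous_iteratedFDeriv (by exact_mod_cast le_top))
  choose Λ hΛ using hex
  exact ⟨Λ, hΛ⟩

/-! ## 2. coordinate derivatives -/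

/-- coordinate lists of length `≤ N` -/
abbrev FlbD (n N : ℕ) : Type := Σ j : Fin (N + 1), (Fin j → Fin (n + 1))

/-- the list of directions -/
noncomputable def flbL {N : ℕ} (d : FlbD n N) : List (ST n) := List.ofFn fun a => bvec (d.2 a)

theorem flb_L_length {N : ℕ} (d : FlbD n N) : (flbL d).length ≤ N := by
  unfold flbL
  rw [List.length_ofFn]
  exact Nat.lt_succ_iff.1 d.1.2

theorem flb_L_norm {N : ℕ} (d : FlbD n N) : ∀ e ∈ flbL d, ‖e‖ ≤ 1 := by
  intro e he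
  unfold flbL at he
  rw [List.mem_ofFn] at he
  obtain ⟨a, rfl⟩ := he
  exact inf_bvec_norm _

theorem flb_iter_apply {U : ST n → ℂ} (hU : ContDiff ℝ ∞ U) (j : ℕ) : ∀ (X : ST n) (m : Fin j → ST n),
    iteratedFDeriv ℝ j U X m = dirD (List.ofFn m) U X := by
  induction j with
  | zero =>
    intro X m
    simp [dirD]
  | succ j ih =>
    intro X m
    rw [List.ofFn_succ, iteratedFDeriv_succ_apply_left]
    have e : dirD (List.ofFn fun i : Fin j => m i.succ) U = fun Y => iteratedFDeriv ℝ j U Y (Fin.tail m) := by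
      funext Y
      exact (ih Y (Fin.tail m)).symm
    show _ = fderiv ℝ (dirD (List.ofFn fun i : Fin j => m i.succ) U) X (m 0)
    rw [e]
    have hd : DifferentiableAt ℝ (iteratedFDeriv ℝ j U) X :=
      (hU.differentiable_iteratedFDeriv (m := j) (by exact_mod_cast WithTop.coe_lt_top _)) X
    have h1 := ((ContinuousMultilinearMap.apply ℝ (fun _ : Fin j => ST n) ℂ (Fin.tail m)).hasFDerivAt
      (x := iteratedFDeriv ℝ j U X)).comp X hd.hasFDerivAt
    have h2 : fderiv ℝ (fun Y => iteratedFDeriv ℝ j U Y (Fin.tail m)) X =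
        (ContinuousMultilinearMap.apply ℝ (fun _ : Fin j => ST n) ℂ (Fin.tail m)).comp (fderiv ℝ (iteratedFDeriv ℝ j U) X) :=
      h1.fderiv
    rw [h2]
    rfl

/-- coordinates -/
noncomputable def flbIterCo (b : Fin (n + 1)) (x : ST n) : ℝ := Fin.lastCases (motive := fun _ => ℝ) x.2 (fun i => x.1 i) b

theorem flb_iter_forced : True := by
  have := @flbIterCo.eq_1
  trivial

theorem flb_iter_co_le (b : Fin (n + 1)) (x : ST n) : |flbIterCo b x| ≤ ‖x‖ := by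
  refine Fin.lastCases ?_ (fun i => ?_) b
  · simp only [flbIterCo, Fin.lastCases_last]
    exact norm_snd_le x
  · simp only [flbIterCo, Fin.lastCases_castSucc]
    exact (PiLp.norm_apply_le x.1 i).trans (norm_fst_le x)

theorem flb_iter_expand (x : ST n) : x = ∑ b, flbIterCo b x • (bvec b : ST n) := by
  rw [Fin.sum_univ_castSucc]
  simp only [flbIterCo, bvec, Fin.lastCases_last, Fin.lastCases_castSucc]
  refine Prod.ext ?_ ?_
  · simp only [Prod.fst_add, Prod.fst_sum, Prod.smul_fst, smul_zero, add_zero]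
    ext i
    simp [Finset.sum_apply, Pi.single_apply]
  · simp [Prod.snd_sum]

/-- **L-FLB-ITER** (~150 l., Mathlib + `dirD`).  **The norm of the iterated derivative from the coordinate derivatives.**
(1) `iteratedFDeriv ℝ j U X m = dirD (List.ofFn m) U X` by induction on `j`, generalising `X` (`iteratedFDeriv_succ_apply_left`, `List.ofFn_succ`; `Y ↦ iteratedFDeriv ℝ j U Y (tail m)` = evaluation CLM ∘ `iteratedFDeriv`; SAME as step (1) of `l7_iter_le`, `Infra/L7/Prof.lean`: cite it if it is proved there);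
(2) every `x : ST n` is `∑ b, co b x • bvec b` with `|co b x| ≤ ‖x‖` (`co` = coordinates: `x.1 i`, `x.2`; `PiLp.norm_apply_le`, `norm_fst_le`, `norm_snd_le`); `ContinuousMultilinearMap.map_sum` (expansion over `Fin j → Fin (n+1)`), `map_smul_univ`; `ContinuousMultilinearMap.opNorm_le_bound`. -/
theorem flb_iter_le {U : ST n → ℂ} (hU : ContDiff ℝ ∞ U) (j : ℕ) (X : ST n) :
    ‖iteratedFDeriv ℝ j U X‖ ≤ ∑ i : Fin j → Fin (n + 1), ‖dirD (List.ofFn fun a => bvec (i a)) U X‖ := by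
  refine ContinuousMultilinearMap.opNorm_le_bound (Finset.sum_nonneg fun _ _ => norm_nonneg _) fun m => ?_
  have h1 : iteratedFDeriv ℝ j U X m = iteratedFDeriv ℝ j U X fun a => ∑ b, flbIterCo b (m a) • (bvec b : ST n) := by
    congr 1
    funext a
    exact flb_iter_expand (m a)
  rw [h1, ContinuousMultilinearMap.map_sum, Finset.sum_mul]
  refine (norm_sum_le _ _).trans (Finset.sum_le_sum fun i _ => ?_)
  rw [ContinuousMultilinearMap.map_smul_univ, norm_smul, flb_iter_apply hU, mul_comm]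
  refine mul_le_mul_of_nonneg_left ?_ (norm_nonneg _)
  rw [norm_prod]
  exact Finset.prod_le_prod (fun _ _ => norm_nonneg _) fun a _ => flb_iter_co_le _ _

/-! ## 3. suprema over unit cubes, the size of a cell -/

/-- `sup_{cube q} |U|` -/
noncomputable def flbSupE (U : ST n → ℂ) (q : MI n) : ℝ≥0∞ := ⨆ z ∈ cube q, ‖U z‖ₑ

/-- the box `{-1,0,1}^{n+1}` -/
noncomputable def flbBox (n : ℕ) : Finset (MI n) := (Fintype.piFinset fun _ => Finset.Icc (-1 : ℤ) 1) ×ˢ Finset.Icc (-1 : ℤ) 1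

/-- **the size of the cell `T`** -/
noncomputable def flbSz (N : ℕ) (V : ST n → ℂ) (T : MI n) : ℝ :=
  ∑ d : FlbD n N, ∑ e ∈ flbBox n, (flbSupE (dirD (flbL d) V) (T + e)).toReal

theorem flb_supE_ne_top {U : ST n → ℂ} {B : ℝ} (hB : ∀ z, ‖U z‖ ≤ B) (q : MI n) : flbSupE U q ≠ (⊤ : ℝ≥0∞) := by
  have h1 : flbSupE U q ≤ ENNReal.ofReal B := iSup₂_le fun z _ => by
    rw [← ofReal_norm]
    exact ENNReal.ofReal_le_ofReal (hB z)
  exact ne_top_of_le_ne_top ENNReal.ofReal_ne_top h1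

theorem flb_le_supE (U : ST n → ℂ) {q : MI n} {z : ST n} (hz : z ∈ cube q) : ‖U z‖ₑ ≤ flbSupE U q := by
  exact le_iSup₂ (f := fun z (_ : z ∈ cube q) => ‖U z‖ₑ) z hz

theorem flb_sz_nonneg (N : ℕ) (V : ST n → ℂ) (T : MI n) : 0 ≤ flbSz N V T := by
  exact Finset.sum_nonneg fun d _ => Finset.sum_nonneg fun e _ => ENNReal.toReal_nonneg

theorem flb_box_card (n : ℕ) : (flbBox n).card = 3 ^ (n + 1) := by
  unfold flbBox
  rw [Finset.card_product, Fintype.card_piFinset]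
  simp [pow_succ]

/-- **L-FLB-SZ** every point of the closed cube `flbLat T + [-1,1]^{n+1}` lies in one of the cubes `T + e`, `e ∈ flbBox n`.  (`e = (fun i => ⌊(X + flbLat T).1 i⌋ - T.1 i, ⌊..⌋ - T.2)`; `Int.floor_add_intCast`-type rewriting, `⌊x⌋ ∈ {-1,0,1}` for `|x| ≤ 1`.) -/
theorem flb_box_cover (T : MI n) (X : ST n) (hX : (∀ i, |X.1 i| ≤ 1) ∧ |X.2| ≤ 1) : ∃ e ∈ flbBox n, X + flbLat T ∈ cube (T + e) := by
  have hfl : ∀ x : ℝ, |x| ≤ 1 → ⌊x⌋ ∈ Finset.Icc (-1 : ℤ) 1 := by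
    intro x hx
    rw [abs_le] at hx
    rw [Finset.mem_Icc]
    constructor
    · rw [Int.le_floor]
      push_cast
      exact hx.1
    · rw [Int.floor_le_iff]
      push_cast
      linarith [hx.2]
  refine ⟨(fun i => ⌊X.1 i⌋, ⌊X.2⌋), ?_, ?_⟩
  · unfold flbBox
    rw [Finset.mem_product, Fintype.mem_piFinset]
    exact ⟨fun i => hfl _ (hX.1 i), hfl _ hX.2⟩
  · refine ⟨fun i => ?_, ?_⟩
    · have e1 : (X + flbLat T).1 i = X.1 i + (T.1 i : ℝ) := by simp [flbLat, flLat]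
      have e2 : (((T + ((fun i => ⌊X.1 i⌋, ⌊X.2⌋) : MI n)).1 i : ℤ) : ℝ) = (T.1 i : ℝ) + (⌊X.1 i⌋ : ℝ) := by simp
      rw [e1, e2]
      constructor
      · linarith [Int.floor_le (X.1 i)]
      · linarith [Int.lt_floor_add_one (X.1 i)]
    · have e1 : (X + flbLat T).2 = X.2 + (T.2 : ℝ) := by simp [flbLat]
      have e2 : (((T + ((fun i => ⌊X.1 i⌋, ⌊X.2⌋) : MI n)).2 : ℤ) : ℝ) = (T.2 : ℝ) + (⌊X.2⌋ : ℝ) := by simp
      rw [e1, e2]
      constructor
      · linarith [Int.floor_le X.2]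
      · linarith [Int.lt_floor_add_one X.2]

/-- **L-FLB-SZ** the size controls all derivatives of order `≤ N` on the closed cube.  (`flb_iter_le`; regroup `∑_{j ≤ N} ∑_{i : Fin j → _}` as `∑ d : FlbD n N` (`Finset.sum_sigma'`/`Fintype.sum_sigma`, `Fin.sum_univ_eq_sum_range`); `flb_box_cover`, `flb_le_supE`, `flb_supE_ne_top`,
`ENNReal.toReal_mono`, `toReal_enorm`; one term of a sum of nonnegative terms.) -/
theorem flb_sz_ge {N : ℕ} {V : ST n → ℂ} (hV : ContDiff ℝ ∞ V) (hb : ∀ d : FlbD n N, ∃ B : ℝ, ∀ z, ‖dirD (flbL d) V z‖ ≤ B) (T : MI n) (X : ST n)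
    (hX : (∀ i, |X.1 i| ≤ 1) ∧ |X.2| ≤ 1) : ∑ j ∈ Finset.range (N + 1), ‖iteratedFDeriv ℝ j V (X + flbLat T)‖ ≤ flbSz N V T := by
  obtain ⟨e, he, hmem⟩ := flb_box_cover T X hX
  have h1 : ∑ j ∈ Finset.range (N + 1), ‖iteratedFDeriv ℝ j V (X + flbLat T)‖ ≤
      ∑ j ∈ Finset.range (N + 1), ∑ i : Fin j → Fin (n + 1), ‖dirD (List.ofFn fun a => bvec (i a)) V (X + flbLat T)‖ :=
    Finset.sum_le_sum fun j _ => flb_iter_le hV j _
  have h2 : ∑ j ∈ Finset.range (N + 1), ∑ i : Fin j → Fin (n + 1), ‖dirD (List.ofFn fun a => bvec (i a)) V (X + flbLat T)‖ =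
      ∑ d : FlbD n N, ‖dirD (flbL d) V (X + flbLat T)‖ := by
    rw [Fintype.sum_sigma, ← Fin.sum_univ_eq_sum_range
      (fun j => ∑ i : Fin j → Fin (n + 1), ‖dirD (List.ofFn fun a => bvec (i a)) V (X + flbLat T)‖) (N + 1)]
    rfl
  refine h1.trans (h2.le.trans (Finset.sum_le_sum fun d _ => ?_))
  obtain ⟨B, hB⟩ := hb d
  have h3 : ‖dirD (flbL d) V (X + flbLat T)‖ ≤ (flbSupE (dirD (flbL d) V) (T + e)).toReal := by
    have := ENNReal.toReal_mono (flb_supE_ne_top hB (T + e)) (flb_le_supE (dirD (flbL d) V) hmem)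
    rwa [toReal_enorm] at this
  exact h3.trans (Finset.single_le_sum (f := fun e => (flbSupE (dirD (flbL d) V) (T + e)).toReal)
    (fun _ _ => ENNReal.toReal_nonneg) he)

/-- **L-FLB-SZ** Cauchy-Schwarz.  (`sq_sum_le_card_mul_sum_sq` twice or once on the product `univ ×ˢ flbBox n`.) -/
theorem flb_sz_sq (N : ℕ) (V : ST n → ℂ) (T : MI n) :
    flbSz N V T ^ 2 ≤ (Fintype.card (FlbD n N) * 3 ^ (n + 1) : ℕ) * ∑ d : FlbD n N, ∑ e ∈ flbBox n, (flbSupE (dirD (flbL d) V) (T + e)).toReal ^ 2 := by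
  have h1 : flbSz N V T = ∑ p ∈ (Finset.univ : Finset (FlbD n N)) ×ˢ flbBox n, (flbSupE (dirD (flbL p.1) V) (T + p.2)).toReal := by
    rw [Finset.sum_product]
    rfl
  have h2 : ∑ d : FlbD n N, ∑ e ∈ flbBox n, (flbSupE (dirD (flbL d) V) (T + e)).toReal ^ 2 =
      ∑ p ∈ (Finset.univ : Finset (FlbD n N)) ×ˢ flbBox n, (flbSupE (dirD (flbL p.1) V) (T + p.2)).toReal ^ 2 := by
    rw [Finset.sum_product]
  have h3 : ((Finset.univ : Finset (FlbD n N)) ×ˢ flbBox n).card = Fintype.card (FlbD n N) * 3 ^ (n + 1) := by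
    rw [Finset.card_product, flb_box_card, Finset.card_univ]
  rw [h1, h2, ← h3]
  exact sq_sum_le_card_mul_sum_sq

/-- **L-FLB-FIN** finitely many cells have a nonzero size if the derivatives have bounded support.  (`flbSz ≠ 0` ⟹ some `flbSupE … (T + e) ≠ 0` ⟹ some `z ∈ cube (T + e)` with `dirD … z ≠ 0`, `‖z‖ ≤ ρ`; so `|T.1 i|, |T.2| ≤ ρ + 2`;
`Finset.Icc` of the locally finite order `MI n` (or `Fintype.piFinset` of `Icc (-M) M`, `M = ⌈ρ⌉ + 2`).) -/
theorem flb_sz_fin {N : ℕ} {V : ST n → ℂ} {ρ : ℝ} (hs : ∀ (d : FlbD n N) (z : ST n), dirD (flbL d) V z ≠ 0 → ‖z‖ ≤ ρ) :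
    ∃ Tb : Finset (MI n), ∀ T : MI n, flbSz N V T ≠ 0 → T ∈ Tb := by
  obtain ⟨M, hM⟩ : ∃ M : ℤ, M = ⌈ρ⌉ + 2 := ⟨_, rfl⟩
  refine ⟨(Fintype.piFinset fun _ => Finset.Icc (-M) M) ×ˢ Finset.Icc (-M) M, fun T hT => ?_⟩
  unfold flbSz at hT
  obtain ⟨d, -, hd⟩ := Finset.exists_ne_zero_of_sum_ne_zero hT
  obtain ⟨e, he, hde⟩ := Finset.exists_ne_zero_of_sum_ne_zero hd
  have h1 : flbSupE (dirD (flbL d) V) (T + e) ≠ 0 := by
    intro h0
    rw [h0] at hde
    exact hde rfl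
  obtain ⟨z, hz, hzne⟩ : ∃ z ∈ cube (T + e), dirD (flbL d) V z ≠ 0 := by
    by_contra hcon
    push Not at hcon
    apply h1
    unfold flbSupE
    refine le_antisymm (iSup₂_le fun z hz => ?_) zero_le
    rw [hcon z hz, enorm_zero]
  have hzρ := hs d z hzne
  have hρ : ρ ≤ (⌈ρ⌉ : ℝ) := Int.le_ceil _
  unfold flbBox at he
  rw [Finset.mem_product, Fintype.mem_piFinset] at he
  have key : ∀ (t ee : ℤ) (x : ℝ), ee ∈ Finset.Icc (-1 : ℤ) 1 → |x| ≤ ρ → ((t + ee : ℤ) : ℝ) ≤ x → x < ((t + ee : ℤ) : ℝ) + 1 →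
      t ∈ Finset.Icc (-M) M := by
    intro t ee x hee hx a1 a2
    rw [Finset.mem_Icc] at hee ⊢
    rw [abs_le] at hx
    have b1 : (-1 : ℝ) ≤ (ee : ℝ) := by exact_mod_cast hee.1
    have b2 : (ee : ℝ) ≤ 1 := by exact_mod_cast hee.2
    push_cast at a1 a2
    constructor
    · have : ((-M : ℤ) : ℝ) ≤ (t : ℝ) := by
        rw [hM]
        push_cast
        linarith
      exact_mod_cast this
    · have : (t : ℝ) ≤ ((M : ℤ) : ℝ) := by
        rw [hM]
        push_cast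
        linarith
      exact_mod_cast this
  rw [Finset.mem_product, Fintype.mem_piFinset]
  refine ⟨fun i => key (T.1 i) (e.1 i) (z.1 i) (he.1 i) ?_ (hz.1 i).1 (hz.1 i).2, key T.2 e.2 z.2 he.2 ?_ hz.2.1 hz.2.2⟩
  · exact ((PiLp.norm_apply_le z.1 i).trans (norm_fst_le z)).trans hzρ
  · exact (norm_snd_le z).trans hzρ

/-! ## 4. the normalised profiles -/

/-- the profile of the cell `T`, divided by `κ` -/
noncomputable def flbPf (V : ST n → ℂ) (T : MI n) (κ : ℝ) (X : ST n) : ℂ := ((flbWin X : ℝ) : ℂ) * V (X + flbLat T) / (κ : ℂ)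

theorem flb_prof_cube_closed (n : ℕ) : IsClosed {X : ST n | (∀ i, |X.1 i| ≤ 1) ∧ |X.2| ≤ 1} := by
  have h1 : IsClosed {X : ST n | ∀ i, |X.1 i| ≤ 1} := by
    simp only [Set.ofPred_forall]
    refine isClosed_iInter fun i => isClosed_le ?_ continuous_const
    exact continuous_abs.comp ((EuclideanSpace.proj i).continuous.comp continuous_fst)
  have h2 : IsClosed {X : ST n | |X.2| ≤ 1} := isClosed_le (continuous_abs.comp continuous_snd) continuous_const
  exact h1.inter h2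

theorem flb_prof_mul {N : ℕ} {Λ : ℕ → ℝ} (hΛ : ∀ (j : ℕ) (X : ST n), ‖iteratedFDeriv ℝ j (fun X : ST n => ((flbWin X : ℝ) : ℂ)) X‖ ≤ Λ j)
    {V : ST n → ℂ} (hV : ContDiff ℝ ∞ V) (c : ST n) {σ : ℝ} (hσ : 0 ≤ σ)
    (hb : ∀ X : ST n, ((∀ i, |X.1 i| ≤ 1) ∧ |X.2| ≤ 1) → ∑ j ∈ Finset.range (N + 1), ‖iteratedFDeriv ℝ j V (X + c)‖ ≤ σ)
    {j : ℕ} (hj : j ≤ N) (z : ST n) :
    ‖iteratedFDeriv ℝ j (fun X : ST n => ((flbWin X : ℝ) : ℂ) * V (X + c)) z‖ ≤ 2 ^ N * (∑ i ∈ Finset.range (N + 1), |Λ i|) * σ := by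
  set M := ∑ i ∈ Finset.range (N + 1), |Λ i| with hM
  have hM0 : 0 ≤ M := Finset.sum_nonneg fun i _ => abs_nonneg _
  have hW : ContDiff ℝ ∞ (fun X : ST n => ((flbWin X : ℝ) : ℂ)) := Complex.ofRealCLM.contDiff.comp flb_win_smooth
  have hV' : ContDiff ℝ ∞ (fun X : ST n => V (X + c)) := hV.comp (contDiff_id.add contDiff_const)
  by_cases hz : (∀ i, |z.1 i| ≤ 1) ∧ |z.2| ≤ 1
  · have h1 := norm_iteratedFDeriv_mul_le (𝕜 := ℝ) (N := ∞) hW hV' z (n := j) (by exact_mod_cast le_top)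
    refine h1.trans ?_
    have h2 : ∀ i ∈ Finset.range (j + 1), (j.choose i : ℝ) * ‖iteratedFDeriv ℝ i (fun X : ST n => ((flbWin X : ℝ) : ℂ)) z‖ *
        ‖iteratedFDeriv ℝ (j - i) (fun X : ST n => V (X + c)) z‖ ≤ (j.choose i : ℝ) * (M * σ) := by
      intro i hi
      have hi' : i ≤ N := (Nat.lt_succ_iff.1 (Finset.mem_range.1 hi)).trans hj
      have a1 : ‖iteratedFDeriv ℝ i (fun X : ST n => ((flbWin X : ℝ) : ℂ)) z‖ ≤ M :=
        ((hΛ i z).trans (le_abs_self _)).trans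
          (Finset.single_le_sum (f := fun i => |Λ i|) (fun i _ => abs_nonneg _) (Finset.mem_range.2 (Nat.lt_succ_of_le hi')))
      have a2 : ‖iteratedFDeriv ℝ (j - i) (fun X : ST n => V (X + c)) z‖ ≤ σ := by
        rw [iteratedFDeriv_comp_add_right]
        refine le_trans ?_ (hb z hz)
        exact Finset.single_le_sum (f := fun k => ‖iteratedFDeriv ℝ k V (z + c)‖) (fun k _ => norm_nonneg _)
          (Finset.mem_range.2 (Nat.lt_succ_of_le ((Nat.sub_le j i).trans hj)))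
      rw [mul_assoc]
      exact mul_le_mul_of_nonneg_left (mul_le_mul a1 a2 (norm_nonneg _) hM0) (Nat.cast_nonneg _)
    refine (Finset.sum_le_sum h2).trans ?_
    rw [← Finset.sum_mul]
    have h3 : ∑ i ∈ Finset.range (j + 1), (j.choose i : ℝ) = 2 ^ j := by
      exact_mod_cast Nat.sum_range_choose j
    rw [h3, mul_assoc]
    exact mul_le_mul_of_nonneg_right (pow_le_pow_right₀ (by norm_num) hj) (mul_nonneg hM0 hσ)
  · have hopen : IsOpen {X : ST n | (∀ i, |X.1 i| ≤ 1) ∧ |X.2| ≤ 1}ᶜ := (flb_prof_cube_closed n).isOpen_compl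
    have hev : (fun X : ST n => ((flbWin X : ℝ) : ℂ) * V (X + c)) =ᶠ[nhds z] fun _ => 0 := by
      filter_upwards [hopen.mem_nhds hz] with X hX
      have : flbWin X = 0 := by
        by_contra h
        have := flb_win_supp X h
        exact hX ⟨fun i => (this.1 i).le, this.2.le⟩
      rw [this]
      simp
    rw [(Filter.EventuallyEq.iteratedFDeriv (𝕜 := ℝ) hev j).eq_of_nhds]
    have : iteratedFDeriv ℝ j (fun _ : ST n => (0 : ℂ)) z = 0 := by
      simp
    rw [this, norm_zero]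
    positivity

/-- **L-FLB-PROF** (~200 l.)  **The normalised profiles belong to the class.**   `Cψ = max 1 (2^N max_{i ≤ N} Λ i)`, `Λ` of `flb_win_cb`.
smooth: `flb_win_smooth`, `Complex.ofRealCLM.contDiff`, `ContDiff.comp` with `X ↦ X + flbLat T`, `ContDiff.div_const`.   support: `flb_win_supp`, `an_norm_le_sqrt` (`δ = 1`), `1 ≤ √n`.
bound: if `σ = 0` the profile is `0` (division by `0`).  Otherwise, `X` in the closed cube: `norm_iteratedFDeriv_mul_le`, `iteratedFDeriv_comp_add_right`, `∑ choose = 2^j`, hypothesis; `‖D^j(f/κ)‖ = ‖D^j f‖/κ` (`iteratedFDeriv_const_smul_apply`/`ContinuousLinearMap`…);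
`X` off the closed cube: the window vanishes in a neighbourhood (the complement of the closed cube is open), `Filter.EventuallyEq.iteratedFDeriv_eq`, or `support_iteratedFDeriv_subset` + `tsupport ⊆` closed cube. -/
theorem flb_prof (hn : 1 ≤ n) (N : ℕ) : ∃ Cψ : ℝ, 1 ≤ Cψ ∧ ∀ (V : ST n → ℂ) (T : MI n) (σ b : ℝ), ContDiff ℝ ∞ V → 0 < b → 0 ≤ σ →
    (∀ X : ST n, ((∀ i, |X.1 i| ≤ 1) ∧ |X.2| ≤ 1) → ∑ j ∈ Finset.range (N + 1), ‖iteratedFDeriv ℝ j V (X + flbLat T)‖ ≤ σ) →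
    Prof N (Real.sqrt n) b (flbPf V T (Cψ / b * σ)) := by
  obtain ⟨Λ, hΛ⟩ := flb_win_cb n
  set M := ∑ i ∈ Finset.range (N + 1), |Λ i| with hM
  refine ⟨max 1 (2 ^ N * M), le_max_left _ _, ?_⟩
  intro V T σ b hV hb hσ hbd
  set Cψ := max 1 (2 ^ N * M) with hC
  have hC1 : 1 ≤ Cψ := le_max_left _ _
  have hW : ContDiff ℝ ∞ (fun X : ST n => ((flbWin X : ℝ) : ℂ)) := Complex.ofRealCLM.contDiff.comp flb_win_smooth
  have hV' : ContDiff ℝ ∞ (fun X : ST n => V (X + flbLat T)) := hV.comp (contDiff_id.add contDiff_const)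
  have hf : ContDiff ℝ ∞ (fun X : ST n => ((flbWin X : ℝ) : ℂ) * V (X + flbLat T)) := hW.mul hV'
  have hsq : 1 ≤ Real.sqrt n := by
    rw [Real.one_le_sqrt]
    exact_mod_cast hn
  refine ⟨?_, ?_, ?_⟩
  · unfold flbPf
    exact hf.div_const _
  · intro z hz
    have hw : flbWin z ≠ 0 := by
      intro h
      apply hz
      unfold flbPf
      rw [h]
      simp
    obtain ⟨h1, h2⟩ := flb_win_supp z hw
    have h3 := an_norm_le_sqrt z.1 zero_le_one (fun i => (h1 i).le)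
    rw [mul_one] at h3
    rw [Prod.norm_def]
    exact max_le h3 (by rw [Real.norm_eq_abs]; exact h2.le.trans hsq)
  · intro j hj z
    rcases hσ.eq_or_lt with h0 | h0
    · have : flbPf V T (Cψ / b * σ) = fun _ => 0 := by
        funext X
        unfold flbPf
        rw [← h0]
        simp
      rw [this]
      have : iteratedFDeriv ℝ j (fun _ : ST n => (0 : ℂ)) z = 0 := by
        simp
      rw [this, norm_zero]
      exact hb.le
    · have hκ : 0 < Cψ / b * σ := by positivity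
      have e : flbPf V T (Cψ / b * σ) = (Cψ / b * σ)⁻¹ • (fun X : ST n => ((flbWin X : ℝ) : ℂ) * V (X + flbLat T)) := by
        funext X
        unfold flbPf
        rw [Pi.smul_apply, Complex.real_smul, Complex.ofReal_inv, div_eq_inv_mul]
      rw [e, iteratedFDeriv_const_smul_apply (hf.contDiffAt.of_le (by exact_mod_cast le_top)), norm_smul, Real.norm_eq_abs, abs_of_pos (inv_pos.2 hκ)]
      have h1 := flb_prof_mul hΛ hV (flbLat T) hσ hbd hj z
      have h2 : 2 ^ N * M * σ ≤ Cψ * σ := mul_le_mul_of_nonneg_right (le_max_right _ _) hσ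
      calc (Cψ / b * σ)⁻¹ * ‖iteratedFDeriv ℝ j (fun X : ST n => ((flbWin X : ℝ) : ℂ) * V (X + flbLat T)) z‖
          ≤ (Cψ / b * σ)⁻¹ * (Cψ * σ) := mul_le_mul_of_nonneg_left (h1.trans h2) (inv_pos.2 hκ).le
        _ = b := by
          have : Cψ ≠ 0 := by positivity
          field_simp

/-! ## 5. the child arrays -/

/-- the labels of `s'` in the fine bin `θ` -/
noncomputable def flbS (A : Arr n ι) (s' : Finset ι) (h : ℝ) (θ : BI n) : Finset ι := selS A s' h {θ}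

/-- the child array of the fine bin `θ` -/
noncomputable def flbA (A : Arr n ι) (h : ℝ) (θ : BI n) : Arr n ι := A.resc h (bcen h θ)

/-- the child field of the fine bin `θ` -/
noncomputable def flbV (A : Arr n ι) (s' : Finset ι) (c : ι → ℂ) (h : ℝ) (θ : BI n) : ST n → ℂ := (flbA A h θ).fld (flbS A s' h θ) c

open scoped Classical in
/-- the occupied fine bins -/
noncomputable def flbOcc (A : Arr n ι) (s' : Finset ι) (h : ℝ) : Finset (BI n) := s'.image fun α => fbin h (A.om α)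

theorem flb_mem_S (A : Arr n ι) (s' : Finset ι) (h : ℝ) (θ : BI n) (α : ι) : α ∈ flbS A s' h θ ↔ α ∈ s' ∧ fbin h (A.om α) = θ := by
  simp only [flbS, selS, Finset.mem_filter, Finset.mem_singleton]

/-- **L-FLB-CHILD** the class of the child arrays.  (`inf_in_mono` to the subset, `inf_in_resc` with `ρ = K.Rω`; `an_fbin_near`: `h ‖ω - bcen h θ‖ ≤ √n ≤ K.Rω`; `{K with Rω := K.Rω} = K` by `rfl`.) -/
theorem flb_child_in {A : Arr n ι} {s' : Finset ι} {K : Cls} (hA : A.In s' K) (h0 : ∀ α ∈ s', A.tc α = 0) (hR : Real.sqrt n ≤ K.Rω) {h : ℝ} (hh : 1 ≤ h) (hhL : h ≤ A.L)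
    (θ : BI n) : (flbA A h θ).In (flbS A s' h θ) K := by
  have hh0 : 0 < h := by linarith
  have hsub : flbS A s' h θ ⊆ s' := fun α hα => ((flb_mem_S A s' h θ α).1 hα).1
  have h1 : A.In (flbS A s' h θ) K := inf_in_mono hA hsub le_rfl le_rfl le_rfl le_rfl le_rfl
  have h2 := inf_in_resc h1 (fun α hα => h0 α (hsub hα)) (ρ := K.Rω) hh0 hhL (bcen h θ) (fun α hα => by
    have e := ((flb_mem_S A s' h θ α).1 hα).2
    have h3 := an_fbin_near h hh0 (A.om α)
    rw [e] at h3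
    rw [le_div_iff₀ hh0]
    linarith)
  exact h2

theorem flb_child_tc {A : Arr n ι} {s' : Finset ι} (h0 : ∀ α ∈ s', A.tc α = 0) (h : ℝ) (θ : BI n) (l : List (ST n)) :
    ∀ α ∈ flbS A s' h θ, ((flbA A h θ).derL l).tc α = 0 := by
  intro α hα
  rw [inf_derL_tc]
  exact h0 α ((flb_mem_S A s' h θ α).1 hα).1

/-- **L-FLB-CHILD** the class of the derivatives of the child arrays.  (`flb_child_in`, `inf_in_derL`, `flb_L_length`, `flb_L_norm`, `inf_in_mono`: `J - |l| ≥ J - N`, `(1 + 3Rω + Rω²)^{|l|} B ≤ (1 + 3Rω + Rω²)^N |B|`; `0 ≤ Rω`.) -/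
theorem flb_child_der_in {A : Arr n ι} {s' : Finset ι} {K : Cls} (hA : A.In s' K) (h0 : ∀ α ∈ s', A.tc α = 0) (hR : Real.sqrt n ≤ K.Rω) {h : ℝ} (hh : 1 ≤ h) (hhL : h ≤ A.L)
    {N : ℕ} (hN : N ≤ K.J) (θ : BI n) (d : FlbD n N) :
    ((flbA A h θ).derL (flbL d)).In (flbS A s' h θ) { K with J := K.J - N, B := (1 + 3 * K.Rω + K.Rω ^ 2) ^ N * |K.B| } := by
  have h1 := flb_child_in hA h0 hR hh hhL θ
  have h2 := inf_in_derL h1 (flbL d) ((flb_L_length d).trans hN) (flb_L_norm d)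
  have hRω : 0 ≤ K.Rω := (Real.sqrt_nonneg _).trans hR
  have hb : 1 ≤ 1 + 3 * K.Rω + K.Rω ^ 2 := by nlinarith
  refine inf_in_mono h2 (Finset.Subset.refl _) (Nat.sub_le_sub_left (flb_L_length d) _) le_rfl ?_ le_rfl le_rfl
  show (1 + 3 * K.Rω + K.Rω ^ 2) ^ (flbL d).length * K.B ≤ (1 + 3 * K.Rω + K.Rω ^ 2) ^ N * |K.B|
  calc (1 + 3 * K.Rω + K.Rω ^ 2) ^ (flbL d).length * K.B
      ≤ (1 + 3 * K.Rω + K.Rω ^ 2) ^ (flbL d).length * |K.B| :=
        mul_le_mul_of_nonneg_left (le_abs_self _) (by positivity)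
    _ ≤ (1 + 3 * K.Rω + K.Rω ^ 2) ^ N * |K.B| :=
        mul_le_mul_of_nonneg_right (pow_le_pow_right₀ hb (flb_L_length d)) (abs_nonneg _)

/-- (`inf_fld_dirD`) -/
theorem flb_child_dirD {A : Arr n ι} {s' : Finset ι} {K : Cls} (hA : A.In s' K) (h0 : ∀ α ∈ s', A.tc α = 0) (hR : Real.sqrt n ≤ K.Rω) {h : ℝ} (hh : 1 ≤ h) (hhL : h ≤ A.L)
    (c : ι → ℂ) (θ : BI n) (l : List (ST n)) : dirD l (flbV A s' c h θ) = ((flbA A h θ).derL l).fld (flbS A s' h θ) c := by
  exact inf_fld_dirD (flb_child_in hA h0 hR hh hhL θ) c l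

/-- **L-FLB-CHILD** the field is the sum of the fields of the occupied fine bins, in their native coordinates.  (`Finset.sum_fiberwise_of_maps_to` for `α ↦ fbin h (A.om α)`; `inf_fld_resc`.) -/
theorem flb_fld_bins (A : Arr n ι) (hL : 0 < A.L) (s' : Finset ι) (c : ι → ℂ) {h : ℝ} (hh : 0 < h) (z : ST n) :
    A.fld s' c z = ∑ θ ∈ flbOcc A s' h, ((h ^ (-(n : ℝ) / 2) : ℝ) : ℂ) * car (bcen h θ) z * flbV A s' c h θ (pmap h (bcen h θ) z) := by
  classical
  have hmap : ∀ α ∈ s', fbin h (A.om α) ∈ flbOcc A s' h := fun α hα => by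
    unfold flbOcc
    exact Finset.mem_image_of_mem _ hα
  have h1 := Finset.sum_fiberwise_of_maps_to hmap (fun α => c α * A.atom α z)
  have h2 : ∀ θ ∈ flbOcc A s' h,
      ((h ^ (-(n : ℝ) / 2) : ℝ) : ℂ) * car (bcen h θ) z * flbV A s' c h θ (pmap h (bcen h θ) z)
        = ∑ α ∈ s' with fbin h (A.om α) = θ, c α * A.atom α z := fun θ _ => by
    have e := inf_fld_resc A hL hh (bcen h θ) (flbS A s' h θ) c z
    have e2 : flbS A s' h θ = s'.filter (fun α => fbin h (A.om α) = θ) := by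
      ext α
      rw [flb_mem_S, Finset.mem_filter]
    unfold flbV flbA
    rw [← e, e2]
    rfl
  rw [Finset.sum_congr rfl h2, h1]
  rfl

/-- **L-FLB-CHILD** (`Finset.sum_fiberwise_of_maps_to`) -/
theorem flb_energy_bins (A : Arr n ι) (s' : Finset ι) (c : ι → ℂ) (h : ℝ) : ∑ θ ∈ flbOcc A s' h, energy (flbS A s' h θ) c = energy s' c := by
  classical
  have hmap : ∀ α ∈ s', fbin h (A.om α) ∈ flbOcc A s' h := fun α hα => by
    unfold flbOcc
    exact Finset.mem_image_of_mem _ hα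
  have h1 := Finset.sum_fiberwise_of_maps_to hmap (fun α => ‖c α‖ ^ 2)
  have h2 : ∀ θ ∈ flbOcc A s' h, energy (flbS A s' h θ) c = ∑ α ∈ s' with fbin h (A.om α) = θ, ‖c α‖ ^ 2 := fun θ _ => by
    have e2 : flbS A s' h θ = s'.filter (fun α => fbin h (A.om α) = θ) := by
      ext α
      rw [flb_mem_S, Finset.mem_filter]
    rw [e2]
    rfl
  rw [Finset.sum_congr rfl h2, h1]
  rfl

/-- **L-FLB-CHILD** bounded support of all derivatives of a field of an array (finitely many labels).  (`z` with `(A'.derL l).fld s c z ≠ 0` has an active label `α ∈ s` (`inf_fld_eq_act`), `inf_act_near` in the class of `inf_in_derL`: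
`tdist α z ≤ K.R L`, `|z.2| ≤ K.R L²` (`tc = 0`), so `‖z.1‖ ≤ K.R L + ‖y α‖ + 2 K.R L² K.Rω`;   `ρ` = maximum over `α ∈ s` (`Finset.exists_le`/`Finset.sup'`, or the SUM over `α ∈ s` of the bounds).) -/
theorem flb_supp_bdd {A' : Arr n ι} {s : Finset ι} {K : Cls} (hA : A'.In s K) (h0 : ∀ α ∈ s, A'.tc α = 0) (c : ι → ℂ) :
    ∃ ρ : ℝ, ∀ (l : List (ST n)) (z : ST n), l.length ≤ K.J → (∀ e ∈ l, ‖e‖ ≤ 1) → (A'.derL l).fld s c z ≠ 0 → ‖z‖ ≤ ρ := by
  refine ⟨|K.R| * A'.L ^ 2 + |K.R| * A'.L + ∑ α ∈ s, ‖A'.y α‖ + 2 * (|K.R| * A'.L ^ 2) * |K.Rω|, ?_⟩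
  intro l z hl he hne
  have hL : 0 < A'.L := lt_of_lt_of_le one_pos hA.one_le
  have hIn := inf_in_derL hA l hl he
  obtain ⟨α, hα⟩ : ((A'.derL l).act s z).Nonempty := by
    by_contra hem
    rw [Finset.not_nonempty_iff_eq_empty] at hem
    apply hne
    rw [inf_fld_eq_act, hem]
    rfl
  obtain ⟨hs, h1, h2⟩ := inf_act_near hIn hα
  unfold Arr.tdist at h1
  rw [inf_derL_y, inf_derL_om, inf_derL_L] at h1
  rw [inf_derL_tc, inf_derL_L, h0 α hs, sub_zero] at h2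
  have h1' : ‖z.1 - A'.y α - (2 * z.2) • A'.om α‖ ≤ |K.R| * A'.L :=
    h1.trans (mul_le_mul_of_nonneg_right (le_abs_self _) hL.le)
  have h2' : |z.2| ≤ |K.R| * A'.L ^ 2 := by
    rw [abs_div, abs_of_pos (by positivity : 0 < A'.L ^ 2), div_le_iff₀ (by positivity)] at h2
    exact h2.trans (mul_le_mul_of_nonneg_right (le_abs_self _) (by positivity))
  have h3 : ‖A'.om α‖ ≤ |K.Rω| := (hA.freq α hs).trans (le_abs_self _)
  have h4 : ‖A'.y α‖ ≤ ∑ α ∈ s, ‖A'.y α‖ :=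
    Finset.single_le_sum (f := fun α => ‖A'.y α‖) (fun _ _ => norm_nonneg _) hs
  have h5 : ‖(2 * z.2) • A'.om α‖ ≤ 2 * (|K.R| * A'.L ^ 2) * |K.Rω| := by
    rw [norm_smul, Real.norm_eq_abs, abs_mul, abs_two]
    exact mul_le_mul (by linarith) h3 (norm_nonneg _) (by positivity)
  have h6 : ‖z.1‖ ≤ ‖z.1 - A'.y α - (2 * z.2) • A'.om α‖ + ‖A'.y α‖ + ‖(2 * z.2) • A'.om α‖ := by
    have e : z.1 = (z.1 - A'.y α - (2 * z.2) • A'.om α) + A'.y α + (2 * z.2) • A'.om α := by abel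
    calc ‖z.1‖ = ‖(z.1 - A'.y α - (2 * z.2) • A'.om α) + A'.y α + (2 * z.2) • A'.om α‖ := by rw [← e]
      _ ≤ _ := norm_add₃_le
  have p1 : 0 ≤ |K.R| * A'.L ^ 2 := by positivity
  have p2 : 0 ≤ |K.R| * A'.L := by positivity
  have p3 : 0 ≤ ∑ α ∈ s, ‖A'.y α‖ := Finset.sum_nonneg fun _ _ => norm_nonneg _
  have p4 : 0 ≤ 2 * (|K.R| * A'.L ^ 2) * |K.Rω| := by positivity
  rw [Prod.norm_def]
  refine max_le (by linarith) ?_
  rw [Real.norm_eq_abs]
  linarith

/-! ## 6. the flattened array -/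

/-- coefficients -/
noncomputable def flbCf (A : Arr n ι) (s' : Finset ι) (c : ι → ℂ) (h : ℝ) (N : ℕ) (κ₀ : ℝ) (p : FI n) : ℂ :=
  ((κ₀ * flbSz N (flbV A s' c h p.1) p.2 : ℝ) : ℂ)

/-- profiles -/
noncomputable def flbPF (A : Arr n ι) (s' : Finset ι) (c : ι → ℂ) (h : ℝ) (N : ℕ) (κ₀ : ℝ) (p : FI n) : ST n → ℂ :=
  flbPf (flbV A s' c h p.1) p.2 (κ₀ * flbSz N (flbV A s' c h p.1) p.2)

open scoped Classical in
/-- index set: occupied bins, cells of a finite box `Tb` with nonzero size -/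
noncomputable def flbPk (A : Arr n ι) (s' : Finset ι) (c : ι → ℂ) (h : ℝ) (N : ℕ) (Tb : Finset (MI n)) : Finset (FI n) :=
  (flbOcc A s' h ×ˢ Tb).filter fun p => flbSz N (flbV A s' c h p.1) p.2 ≠ 0

/-- the native coordinates of the flattened packets.  (unfold `chart`, `pmap`, `flArr`, `flbLat`; `h⁻¹ • (h • x) = x`.) -/
theorem flb_chart {h : ℝ} (hh : h ≠ 0) (pf : FI n → ST n → ℂ) (p : FI n) (z : ST n) :
    chart (flArr h pf).L ((flArr h pf).om p) ((flArr h pf).y p) ((flArr h pf).tc p) z = pmap h (bcen h p.1) z - flbLat p.2 := by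
  unfold chart pmap flArr flbLat
  refine Prod.ext ?_ ?_
  · simp only [Prod.fst_sub]
    rw [sub_right_comm, smul_sub, smul_smul, inv_mul_cancel₀ hh, one_smul]
  · simp only [Prod.snd_sub]

theorem flb_mult_int {a : ℝ} {k : ℤ} (h : |(k : ℝ) - a| ≤ 1) : k - ⌈a - 1⌉ ∈ Finset.Icc (0 : ℤ) 2 := by
  rw [abs_le] at h
  rw [Finset.mem_Icc]
  constructor
  · have : ⌈a - 1⌉ ≤ k := Int.ceil_le.2 (by linarith [h.1])
    omega
  · have h1 := Int.le_ceil (a - 1)
    have h2 : (k : ℝ) ≤ ((⌈a - 1⌉ + 2 : ℤ) : ℝ) := by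
      push_cast
      linarith [h.2]
    have h3 : k ≤ ⌈a - 1⌉ + 2 := by exact_mod_cast h2
    omega

/-- **L-FLB-MULT** (~150 l., paper free) phase space multiplicity of the lattice labels.   `h • bcen h θ = flLat θ + (1/2,…,1/2)`.  The map `p ↦ (θ, T_t, T_x)` is injective; `θ` lies in a product of `n` intervals of length `2` (`|x i| ≤ ‖x‖`: `PiLp.norm_apply_le`): `≤ 3^n` values
(an interval `[a - 1, a + 1]` contains at most `3` integers: they lie in `Finset.Icc ⌈a - 1⌉ ⌊a + 1⌋`, `Int.card_Icc`); `T_t`: `≤ 3`; for FIXED `θ`: `T_x` lies in a product of intervals of length `2`: `≤ 3^n`.   (`Finset.card_le_mul_card_image` twice; cf. `an_grid_mult` in `Ang/Iter.lean`, `pkw_tree_in` in `PK1/WTree.lean`.) -/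
theorem flb_mult {h : ℝ} (hh : 0 < h) (ξ y : E n) (τ : ℝ) (t : Finset (FI n))
    (ht : ∀ p ∈ t, ‖h • bcen h p.1 - ξ‖ ≤ 1 ∧ |(p.2.2 : ℝ) - τ| ≤ 1 ∧ ‖h⁻¹ • (h • flLat p.2.1) + (2 * τ * h) • bcen h p.1 - y‖ ≤ 1) :
    t.card ≤ 3 ^ (2 * n + 1) := by
  classical
  set B : Finset ((Fin n → ℤ) × ((Fin n → ℤ) × ℤ)) := (Fintype.piFinset fun _ => Finset.Icc (0 : ℤ) 2) ×ˢ
    ((Fintype.piFinset fun _ => Finset.Icc (0 : ℤ) 2) ×ˢ Finset.Icc (0 : ℤ) 2) with hBdef
  have hB : B.card = 3 ^ (2 * n + 1) := by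
    rw [hBdef, Finset.card_product, Finset.card_product, Fintype.card_piFinset]
    have h3 : (Finset.Icc (0 : ℤ) 2).card = 3 := by rw [Int.card_Icc]; rfl
    simp only [h3, Finset.prod_const, Finset.card_univ, Fintype.card_fin]
    ring
  set Φ : FI n → (Fin n → ℤ) × ((Fin n → ℤ) × ℤ) := fun p =>
    (fun i => p.1 i - ⌈ξ i - 1 / 2 - 1⌉, (fun i => p.2.1 i - ⌈y i - 2 * τ * ((p.1 i : ℝ) + 1 / 2) - 1⌉, p.2.2 - ⌈τ - 1⌉)) with hΦ
  rw [← hB]
  refine Finset.card_le_card_of_injOn Φ ?_ ?_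
  · intro p hp
    obtain ⟨h1, h2, h3⟩ := ht p hp
    rw [Finset.mem_coe, hBdef, Finset.mem_product, Finset.mem_product, Fintype.mem_piFinset, Fintype.mem_piFinset]
    refine ⟨fun i => flb_mult_int ?_, fun i => flb_mult_int ?_, flb_mult_int h2⟩
    · have e : (h • bcen h p.1 - ξ) i = (p.1 i : ℝ) - (ξ i - 1 / 2) := by
        simp only [bcen, PiLp.sub_apply, PiLp.smul_apply, smul_eq_mul]
        field_simp
        ring
      have := (PiLp.norm_apply_le (h • bcen h p.1 - ξ) i).trans h1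
      rwa [e, Real.norm_eq_abs] at this
    · have e : (h⁻¹ • (h • flLat p.2.1) + (2 * τ * h) • bcen h p.1 - y) i =
          (p.2.1 i : ℝ) - (y i - 2 * τ * ((p.1 i : ℝ) + 1 / 2)) := by
        simp only [bcen, flLat, PiLp.sub_apply, PiLp.add_apply, PiLp.smul_apply, smul_eq_mul]
        field_simp
        ring
      have := (PiLp.norm_apply_le (h⁻¹ • (h • flLat p.2.1) + (2 * τ * h) • bcen h p.1 - y) i).trans h3
      rwa [e, Real.norm_eq_abs] at this
  · intro p _ p' _ hpp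
    have h1 : p.1 = p'.1 := by
      funext i
      have := congrFun (congrArg Prod.fst hpp) i
      simp only [hΦ] at this
      omega
    have h2 : p.2.1 = p'.2.1 := by
      funext i
      have := congrFun (congrArg (fun x => x.2.1) hpp) i
      simp only [hΦ, h1] at this
      omega
    have h3 : p.2.2 = p'.2.2 := by
      have := congrArg (fun x => x.2.2) hpp
      simp only [hΦ] at this
      omega
    exact Prod.ext h1 (Prod.ext h2 h3)

/-- boundedness of the derivatives of the child fields.  (`flb_child_dirD`, `flb_child_der_in`, `inf_arr_sup`.) -/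
theorem flb_child_bdd {A : Arr n ι} {s' : Finset ι} {K : Cls} (hA : A.In s' K) (h0 : ∀ α ∈ s', A.tc α = 0) (hR : Real.sqrt n ≤ K.Rω) {h : ℝ} (hh : 1 ≤ h) (hhL : h ≤ A.L)
    {N : ℕ} (hN : N ≤ K.J) (c : ι → ℂ) (θ : BI n) (d : FlbD n N) : ∃ B : ℝ, ∀ z, ‖dirD (flbL d) (flbV A s' c h θ) z‖ ≤ B := by
  obtain ⟨C, hC, H⟩ := inf_arr_sup n { K with J := K.J - N, B := (1 + 3 * K.Rω + K.Rω ^ 2) ^ N * |K.B| }
  refine ⟨C * Real.sqrt (energy (flbS A s' h θ) c), fun z => ?_⟩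
  rw [flb_child_dirD hA h0 hR hh hhL c θ (flbL d)]
  exact H ι _ _ c z (flb_child_der_in hA h0 hR hh hhL hN θ d) fun α hα =>
    ⟨0, by rw [flb_child_tc h0 h θ (flbL d) α hα]; simp⟩

/-- **L-FLB-TB** a finite box of cells for all occupied bins.  (`flb_supp_bdd` + `flb_child_dirD` + `flb_sz_fin` for every `θ ∈ flbOcc`; union over the finite set (`Finset.biUnion` with `Classical.choose`, or induction on the finset).) -/
theorem flb_Tb {A : Arr n ι} {s' : Finset ι} {K : Cls} (hA : A.In s' K) (h0 : ∀ α ∈ s', A.tc α = 0) (hR : Real.sqrt n ≤ K.Rω) {h : ℝ} (hh : 1 ≤ h) (hhL : h ≤ A.L)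
    {N : ℕ} (hN : N ≤ K.J) (c : ι → ℂ) : ∃ Tb : Finset (MI n), ∀ θ ∈ flbOcc A s' h, ∀ T : MI n, flbSz N (flbV A s' c h θ) T ≠ 0 → T ∈ Tb := by
  classical
  have key : ∀ θ : BI n, ∃ Tb : Finset (MI n), ∀ T : MI n, flbSz N (flbV A s' c h θ) T ≠ 0 → T ∈ Tb := by
    intro θ
    have hc := flb_child_in hA h0 hR hh hhL θ
    obtain ⟨ρ, hρ⟩ := flb_supp_bdd hc (fun α hα => flb_child_tc h0 h θ [] α hα) c
    refine flb_sz_fin (ρ := ρ) fun d z hz => ?_
    rw [flb_child_dirD hA h0 hR hh hhL c θ (flbL d)] at hz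
    exact hρ (flbL d) z ((flb_L_length d).trans hN) (flb_L_norm d) hz
  choose Tb hTb using key
  exact ⟨(flbOcc A s' h).biUnion Tb, fun θ hθ T hT => Finset.mem_biUnion.2 ⟨θ, hθ, hTb θ T hT⟩⟩

/-- **L-FLB-CLS** **THE CLASS OF THE FLATTENED ARRAY** (field `cls` of `FlatOut`).   `one_le`: `hh`.   `prof`: `flb_prof` (this fixes `Cψ`) with `σ = flbSz`, hypothesis from `flb_sz_ge` (`inf_fld_contDiff`, `flb_child_bdd`).
`freq`: `p.1 = fbin h (A.om α)`, `‖bcen h θ‖ ≤ ‖ω‖ + √n/h ≤ Rω + √n` (`an_fbin_near`).   `mult`: `flb_mult`. -/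
theorem flb_cls (hn : 1 ≤ n) (N : ℕ) : ∃ Cψ : ℝ, 1 ≤ Cψ ∧ ∀ (ι : Type) (A : Arr n ι) (s' : Finset ι) (c : ι → ℂ) (K : Cls) (h b : ℝ) (Tb : Finset (MI n)),
    A.In s' K → (∀ α ∈ s', A.tc α = 0) → Real.sqrt n ≤ K.Rω → 1 ≤ h → h ≤ A.L → N ≤ K.J → 0 < b →
    (flArr h (flbPF A s' c h N (Cψ / b))).In (flbPk A s' c h N Tb) (flCls n N b K.Rω) := by
  obtain ⟨Cψ, hCψ, H⟩ := flb_prof hn N
  refine ⟨Cψ, hCψ, fun ι A s' c K h b Tb hA h0 hR hh hhL hN hb => ?_⟩
  have hh0 : 0 < h := by linarith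
  refine ⟨hh, fun p _ => ?_, fun p hp => ?_, fun ξ y τ t _ ht => flb_mult hh0 ξ y τ t ht⟩
  · have hc := flb_child_in hA h0 hR hh hhL p.1
    have hV : ContDiff ℝ ∞ (flbV A s' c h p.1) := inf_fld_contDiff hc c
    exact H (flbV A s' c h p.1) p.2 (flbSz N (flbV A s' c h p.1) p.2) b hV hb (flb_sz_nonneg _ _ _)
      (fun X hX => flb_sz_ge hV (fun d => flb_child_bdd hA h0 hR hh hhL hN c p.1 d) p.2 X hX)
  · classical
    have hp1 : p.1 ∈ flbOcc A s' h := (Finset.mem_product.1 (Finset.mem_filter.1 hp).1).1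
    obtain ⟨α, hα, hαp⟩ := Finset.mem_image.1 hp1
    have h1 := an_fbin_near h hh0 (A.om α)
    rw [hαp] at h1
    have h2 : ‖A.om α - bcen h p.1‖ ≤ Real.sqrt n := by
      have h3 : ‖A.om α - bcen h p.1‖ ≤ h * ‖A.om α - bcen h p.1‖ := le_mul_of_one_le_left (norm_nonneg _) hh
      linarith
    have h4 : ‖bcen h p.1‖ ≤ ‖A.om α‖ + ‖A.om α - bcen h p.1‖ := by
      have := norm_sub_le (A.om α) (A.om α - bcen h p.1)
      rwa [sub_sub_cancel] at this
    have h5 := hA.freq α hα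
    show ‖bcen h p.1‖ ≤ K.Rω + Real.sqrt n
    linarith

/-- the windows of the cells of nonzero size sum to one where the field does not vanish -/
theorem flb_fld_key {N : ℕ} {V : ST n → ℂ} (hV : ContDiff ℝ ∞ V) (hb : ∀ d : FlbD n N, ∃ B : ℝ, ∀ z, ‖dirD (flbL d) V z‖ ≤ B) {Tb : Finset (MI n)}
    (hTb : ∀ T : MI n, flbSz N V T ≠ 0 → T ∈ Tb) (X : ST n) :
    ∑ T ∈ Tb, (if flbSz N V T ≠ 0 then ((flbWin (X - flbLat T) : ℝ) : ℂ) * V X else 0) = V X := by
  by_cases hX : V X = 0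
  · simp [hX]
  have hσ : ∀ T : MI n, flbWin (X - flbLat T) ≠ 0 → flbSz N V T ≠ 0 := by
    intro T hT
    have h1 := flb_win_supp _ hT
    have h2 := flb_sz_ge hV hb T (X - flbLat T) ⟨fun i => (h1.1 i).le, h1.2.le⟩
    rw [sub_add_cancel] at h2
    have h3 : ‖iteratedFDeriv ℝ 0 V X‖ ≤ ∑ j ∈ Finset.range (N + 1), ‖iteratedFDeriv ℝ j V X‖ :=
      Finset.single_le_sum (f := fun j => ‖iteratedFDeriv ℝ j V X‖) (fun j _ => norm_nonneg _) (Finset.mem_range.2 (Nat.succ_pos N))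
    rw [norm_iteratedFDeriv_zero] at h3
    have h4 : 0 < ‖V X‖ := norm_pos_iff.2 hX
    intro h0
    rw [h0] at h2
    linarith
  have e1 : ∑ T ∈ Tb, (if flbSz N V T ≠ 0 then ((flbWin (X - flbLat T) : ℝ) : ℂ) * V X else 0)
      = ((∑ T ∈ Tb, flbWin (X - flbLat T) : ℝ) : ℂ) * V X := by
    rw [Complex.ofReal_sum, Finset.sum_mul]
    refine Finset.sum_congr rfl fun T _ => ?_
    by_cases h0 : flbSz N V T ≠ 0
    · rw [if_pos h0]
    · rw [if_neg h0]
      have : flbWin (X - flbLat T) = 0 := by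
        by_contra hne
        exact h0 (hσ T hne)
      rw [this, Complex.ofReal_zero, zero_mul]
  have e2 : ∑ T ∈ Tb, flbWin (X - flbLat T) = 1 := by
    have hs : HasSum (fun T : MI n => flbWin (X - flbLat T)) (∑ T ∈ Tb, flbWin (X - flbLat T)) :=
      hasSum_sum_of_ne_finset_zero fun T hT => by
        by_contra hne
        exact hT (hTb T (hσ T hne))
    exact hs.unique (flb_win_sum X)
  rw [e1, e2, Complex.ofReal_one, one_mul]

/-- **L-FLB-FLD** (~200 l.) **THE FIELD IDENTITY** (field `fld` of `FlatOut`).   `flb_fld_bins`; right side: `Finset.sum_filter`, `Finset.sum_product`; atom of `flArr`: `flb_chart`; for `σ = flbSz ≠ 0`, `κ₀ ≠ 0`: `flbCf p * flbPF p (X - flbLat T) = flbWin (X - flbLat T) · V_θ X`  (`X - flbLat T + flbLat T = X`).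
So it is enough that `∑_{T ∈ Tb} (if σ_{θT} ≠ 0 then flbWin (X - flbLat T) else 0) · V_θ X = V_θ X`:  trivial if `V_θ X = 0`;  if `V_θ X ≠ 0` every `T` with `flbWin (X - flbLat T) ≠ 0` has `σ_{θT} ≥ ‖V_θ X‖ > 0` (`flb_sz_ge` at `X - flbLat T`, term `j = 0`, `norm_iteratedFDeriv_zero`, `flb_win_supp`),
so it lies in `Tb` (`hTb`), and the sum is `1` (`flb_win_sum`, `hasSum_sum_of_ne_finset_zero`, `HasSum.unique`). -/
theorem flb_fld {A : Arr n ι} {s' : Finset ι} {K : Cls} (hA : A.In s' K) (h0 : ∀ α ∈ s', A.tc α = 0) (hR : Real.sqrt n ≤ K.Rω) {h : ℝ} (hh : 1 ≤ h) (hhL : h ≤ A.L)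
    {N : ℕ} (hN : N ≤ K.J) (c : ι → ℂ) {κ₀ : ℝ} (hκ : 0 < κ₀) {Tb : Finset (MI n)} (hTb : ∀ θ ∈ flbOcc A s' h, ∀ T : MI n, flbSz N (flbV A s' c h θ) T ≠ 0 → T ∈ Tb) (z : ST n) :
    A.fld s' c z = (flArr h (flbPF A s' c h N κ₀)).fld (flbPk A s' c h N Tb) (flbCf A s' c h N κ₀) z := by
  classical
  have hh0 : 0 < h := by linarith
  have hL0 : 0 < A.L := by linarith
  rw [flb_fld_bins A hL0 s' c hh0 z]
  unfold Arr.fld flbPk
  rw [Finset.sum_filter, Finset.sum_product]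
  refine Finset.sum_congr rfl fun θ hθ => ?_
  have hc := flb_child_in hA h0 hR hh hhL θ
  have hV : ContDiff ℝ ∞ (flbV A s' c h θ) := inf_fld_contDiff hc c
  have key := flb_fld_key hV (fun d => flb_child_bdd hA h0 hR hh hhL hN c θ d) (hTb θ hθ) (pmap h (bcen h θ) z)
  rw [← key, Finset.mul_sum]
  refine Finset.sum_congr rfl fun T _ => ?_
  by_cases hσ : flbSz N (flbV A s' c h θ) T = 0
  · simp only [hσ, ne_eq, not_true_eq_false, if_false, mul_zero]
  · simp only [hσ, ne_eq, not_false_eq_true, if_true]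
    unfold Arr.atom
    rw [flb_chart hh0.ne']
    show _ = flbCf A s' c h N κ₀ (θ, T) * (((h ^ (-(n : ℝ) / 2) : ℝ) : ℂ) * car (bcen h θ) z *
      flbPF A s' c h N κ₀ (θ, T) (pmap h (bcen h θ) z - flbLat T))
    unfold flbCf flbPF flbPf
    simp only [sub_add_cancel]
    have hne : ((κ₀ * flbSz N (flbV A s' c h θ) T : ℝ) : ℂ) ≠ 0 := by
      exact_mod_cast mul_ne_zero hκ.ne' hσ
    field_simp

/-- field `occ` of `FlatOut` -/
theorem flb_occ (A : Arr n ι) (s' : Finset ι) (c : ι → ℂ) (h : ℝ) (N : ℕ) (Tb : Finset (MI n)) :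
    ∀ p ∈ flbPk A s' c h N Tb, ∃ α ∈ s', fbin h (A.om α) = p.1 := by
  classical
  intro p hp
  have hp1 : p.1 ∈ flbOcc A s' h := (Finset.mem_product.1 (Finset.mem_filter.1 hp).1).1
  obtain ⟨α, hα, hαp⟩ := Finset.mem_image.1 hp1
  exact ⟨α, hα, hαp⟩

/-- Stores the on-demand equation lemmas of the definitions above in THIS module (rule 6 hygiene). -/
theorem flb_b1_forced : True := by
  have := @flbLat.eq_1
  have := @flbWin.eq_1
  have := @flbL.eq_1
  have := @flbSupE.eq_1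
  have := @flbBox.eq_1
  have := @flbSz.eq_1
  have := @flbPf.eq_1
  have := @flbS.eq_1
  have := @flbA.eq_1
  have := @flbV.eq_1
  have := @flbOcc.eq_1
  have := @flbCf.eq_1
  have := @flbPF.eq_1
  have := @flbPk.eq_1
  trivial

end Claimed.Agent.R257
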