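import Claimed.Agent.R257.Fl.B1

/-!
# R257 / Fl / B2 : FL-B FLATTEN, part 2: THE CRUDE BUDGET AND THE MOMENTS      (architect helper122; mathematics: `Fl/Plan.lean`, section FL-B)

CRUDE (field `crude` of `FlatOut`, (w:eq-flat-unweighted) with the loss `b₁^n`): NO Gram matrix.   `sup_{cube q} |U|² ≤ C ∑ {|c_α|² : α active somewhere in the cube}` (`flb_sup_cube`, from `inf_arr_sup_loc`), a label is active in `≤ C b₁^n` cubes of a fixed time index (`flb_act_count`).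
MOMENTS: `flMom μ (flArr h pf) P (θ,T) = ∫ (1 + ‖w - flbLat T‖)^{-P} dμ_θ`, `μ_θ = μ.map (pmap h (bcen h θ))` (`flb_mom_eq`) `≤ ∑'_a 2^P (1 + ‖a‖)^{-P} μ_θ (cube (T + a))` (`flb_mom_le`); lattice sums `flb_lat_sum`; `dmax`.
Every `sorry` is a LEAF `L-FLB-*`.  Prove IN PLACE, helper lemmas directly above your theorem, edit only your theorems, fresh pull, land at once.
-/

set_option autoImplicit false

namespace Claimed.Agent.R257

open MeasureTheory Metric Set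
open scoped ENNReal ContDiff InnerProductSpace

variable {n : ℕ} {ι : Type}

/-! ## 1. the crude budget of one array -/

open scoped Classical in
/-- the labels which are active somewhere in the cube `q` -/
noncomputable def flbAct (A' : Arr n ι) (s : Finset ι) (q : MI n) : Finset ι := s.filter fun α => ∃ z ∈ cube q, α ∈ A'.act s z

/-- **L-FLB-SUPC** (~80 l.)  (`inf_arr_sup_loc n K` pointwise; `A'.act s z ⊆ flbAct A' s q` for `z ∈ cube q` (`inf_b4_mem_act`), `Finset.sum_le_sum_of_subset_of_nonneg`; `‖U z‖ₑ ^ 2 = ofReal (‖U z‖ ^ 2)`; `iSup₂_le` after taking square roots: `x ≤ y^(1/2)`, or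
`ENNReal.pow_le_pow_left` + `(⨆ x)^2 ≤ B` from `∀ x, x ^ 2 ≤ B` via `ENNReal.iSup_pow`-free argument: `⨆ x ≤ sqrt B`.) -/
theorem flb_sup_cube (n : ℕ) (K : Cls) : ∃ C : ℝ, 0 ≤ C ∧ ∀ (ι : Type) (A' : Arr n ι) (s : Finset ι) (c : ι → ℂ) (q : MI n), A'.In s K → (∀ α ∈ s, A'.tc α = 0) →
    flbSupE (A'.fld s c) q ^ 2 ≤ ENNReal.ofReal (C * ∑ α ∈ flbAct A' s q, ‖c α‖ ^ 2) := by
  classical
  obtain ⟨C, hC, h1⟩ := inf_arr_sup_loc n K
  refine ⟨C, hC, ?_⟩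
  intro ι A' s c q hA h0
  set B : ℝ := C * ∑ α ∈ flbAct A' s q, ‖c α‖ ^ 2 with hB
  have hB0 : 0 ≤ B := mul_nonneg hC (Finset.sum_nonneg fun _ _ => by positivity)
  have hpt : ∀ z ∈ cube q, ‖A'.fld s c z‖ₑ ≤ ENNReal.ofReal (Real.sqrt B) := by
    intro z hz
    have h2 := h1 ι A' s c z hA (fun α hα => ⟨0, by rw [h0 α hα]; simp⟩)
    have h3 : ∑ α ∈ A'.act s z, ‖c α‖ ^ 2 ≤ ∑ α ∈ flbAct A' s q, ‖c α‖ ^ 2 := by
      apply Finset.sum_le_sum_of_subset_of_nonneg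
      · intro α hα
        unfold flbAct
        rw [Finset.mem_filter]
        exact ⟨((inf_b4_mem_act A' s z α).1 hα).1, z, hz, hα⟩
      · intro _ _ _; positivity
    have h4 : ‖A'.fld s c z‖ ^ 2 ≤ B := h2.trans (mul_le_mul_of_nonneg_left h3 hC)
    rw [← ofReal_norm]
    apply ENNReal.ofReal_le_ofReal
    exact Real.le_sqrt_of_sq_le h4
  have hsup : flbSupE (A'.fld s c) q ≤ ENNReal.ofReal (Real.sqrt B) := iSup₂_le hpt
  calc flbSupE (A'.fld s c) q ^ 2 ≤ ENNReal.ofReal (Real.sqrt B) ^ 2 := by gcongr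
    _ = ENNReal.ofReal B := by rw [← ENNReal.ofReal_pow (Real.sqrt_nonneg _), Real.sq_sqrt hB0]

theorem flb_cnt_icc (x r : ℝ) (hr : 0 ≤ r) : ((Finset.Icc ⌈x - r⌉ ⌊x + r⌋).card : ℝ) ≤ 2 * r + 1 := by
  rw [Int.card_Icc]
  have h1 : (⌊x + r⌋ : ℝ) ≤ x + r := Int.floor_le _
  have h2 : x - r ≤ (⌈x - r⌉ : ℝ) := Int.le_ceil _
  by_cases h : 0 ≤ ⌊x + r⌋ + 1 - ⌈x - r⌉
  · have : (((⌊x + r⌋ + 1 - ⌈x - r⌉).toNat : ℤ) : ℝ) = ((⌊x + r⌋ + 1 - ⌈x - r⌉ : ℤ) : ℝ) := by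
      rw [Int.toNat_of_nonneg h]
    rw [Int.cast_natCast] at this
    rw [this]
    push_cast
    linarith
  · have : (⌊x + r⌋ + 1 - ⌈x - r⌉).toNat = 0 := Int.toNat_eq_zero.2 (by omega)
    rw [this]
    simp
    linarith

/-- **L-FLB-CNT** (~150 l.)  a label is active in at most `C L^n` cubes of a fixed time index.   `α ∈ A'.act s z`, `z ∈ cube q`, `q.2 = j`: `inf_act_near`: `‖z.1 - y - 2 z.2 ω‖ ≤ K.R L`, `j ≤ z.2 < j + 1`, `‖ω‖ ≤ K.Rω`, so `‖z.1 - (y + 2jω)‖ ≤ K.R L + 2 K.Rω`, and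
`|q.1 i - (y + 2jω) i| ≤ K.R L + 2 K.Rω + 1 =: r` for all `i`.   The map `q ↦ q.1` is injective on `Q`, with values in `Fintype.piFinset fun i => Finset.Icc ⌈x i - r⌉ ⌊x i + r⌋`, of cardinality `≤ (2r + 1)^n ≤ (2|K.R| + 4|K.Rω| + 3)^n L^n` (`1 ≤ L`). -/
theorem flb_act_count (n : ℕ) (K : Cls) : ∃ C : ℝ, 0 ≤ C ∧ ∀ (ι : Type) (A' : Arr n ι) (s : Finset ι) (α : ι) (j : ℤ) (Q : Finset (MI n)), A'.In s K → (∀ α ∈ s, A'.tc α = 0) →
    (∀ q ∈ Q, q.2 = j ∧ α ∈ flbAct A' s q) → (Q.card : ℝ) ≤ C * A'.L ^ n := by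
  classical
  refine ⟨(2 * |K.R| + 4 * |K.Rω| + 3) ^ n, by positivity, ?_⟩
  intro ι A' s α j Q hA h0 hQ
  have hL := hA.one_le
  set r : ℝ := |K.R| * A'.L + 2 * |K.Rω| + 1 with hr
  have hr0 : 0 ≤ r := by positivity
  set x : E n := A'.y α + (2 * (j : ℝ)) • A'.om α with hx
  have hmem : ∀ q ∈ Q, q.1 ∈ Fintype.piFinset fun i => Finset.Icc ⌈x i - r⌉ ⌊x i + r⌋ := by
    intro q hq
    obtain ⟨hqj, hact⟩ := hQ q hq
    unfold flbAct at hact
    rw [Finset.mem_filter] at hact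
    obtain ⟨hαs, z, hz, hαz⟩ := hact
    obtain ⟨_, htd, _⟩ := inf_act_near hA hαz
    have hω := hA.freq α hαs
    unfold Arr.tdist at htd
    have hz2 : |z.2 - j| ≤ 1 := by
      have := hz.2
      rw [hqj] at this
      rw [abs_le]; constructor <;> linarith [this.1, this.2]
    have hzx : ‖z.1 - x‖ ≤ |K.R| * A'.L + 2 * |K.Rω| := by
      have e : z.1 - x = (z.1 - A'.y α - (2 * z.2) • A'.om α) + (2 * (z.2 - j)) • A'.om α := by
        rw [hx]; module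
      rw [e]
      refine (norm_add_le _ _).trans ?_
      have h1 : ‖(2 * (z.2 - j)) • A'.om α‖ ≤ 2 * |K.Rω| := by
        rw [norm_smul, Real.norm_eq_abs, abs_mul, abs_two]
        have : ‖A'.om α‖ ≤ |K.Rω| := hω.trans (le_abs_self _)
        have h3 : 0 ≤ ‖A'.om α‖ := norm_nonneg _
        nlinarith [abs_nonneg (z.2 - j)]
      have h2 : K.R * A'.L ≤ |K.R| * A'.L := mul_le_mul_of_nonneg_right (le_abs_self _) (by linarith)
      linarith
    rw [Fintype.mem_piFinset]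
    intro i
    have hi : |z.1 i - x i| ≤ |K.R| * A'.L + 2 * |K.Rω| := by
      have := PiLp.norm_apply_le (z.1 - x) i
      rw [Real.norm_eq_abs] at this
      exact this.trans hzx
    have hzi := hz.1 i
    rw [abs_le] at hi
    rw [Finset.mem_Icc]
    constructor
    · rw [Int.ceil_le]; linarith [hi.1, hzi.2]
    · rw [Int.le_floor]; linarith [hi.2, hzi.1]
  have hinj : Set.InjOn (fun q : MI n => q.1) Q := by
    intro a ha b hb hab
    exact Prod.ext hab ((hQ a ha).1.trans (hQ b hb).1.symm)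
  have hcard : Q.card ≤ (Fintype.piFinset fun i => Finset.Icc ⌈x i - r⌉ ⌊x i + r⌋).card := by
    rw [← Finset.card_image_of_injOn hinj]
    apply Finset.card_le_card
    intro k hk
    obtain ⟨q, hq, rfl⟩ := Finset.mem_image.1 hk
    exact hmem q hq
  calc (Q.card : ℝ) ≤ ((Fintype.piFinset fun i => Finset.Icc ⌈x i - r⌉ ⌊x i + r⌋).card : ℝ) := by exact_mod_cast hcard
    _ = ∏ i : Fin n, ((Finset.Icc ⌈x i - r⌉ ⌊x i + r⌋).card : ℝ) := by
        rw [Fintype.card_piFinset]; push_cast; rfl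
    _ ≤ ∏ _i : Fin n, (2 * r + 1) := Finset.prod_le_prod (fun _ _ => Nat.cast_nonneg _) fun i _ => flb_cnt_icc _ _ hr0
    _ = (2 * r + 1) ^ n := by simp
    _ ≤ ((2 * |K.R| + 4 * |K.Rω| + 3) * A'.L) ^ n := by
        apply pow_le_pow_left₀ (by positivity)
        rw [hr]
        nlinarith [abs_nonneg K.Rω, abs_nonneg K.R]
    _ = _ := by rw [mul_pow]

/-- **L-FLB-CR1** (~100 l.)  the crude budget of one array.   (`flb_sup_cube` (take `toReal`; the right side is finite), exchange the sums: `∑_{q ∈ Q} ∑_{α ∈ flbAct q} |c_α|² = ∑_{α ∈ s} |c_α|² #{q ∈ Q : α ∈ flbAct q}` (`Finset.sum_comm'`/`Finset.sum_filter` + `Finset.sum_comm`), `flb_act_count`.) -/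
theorem flb_crude_one (n : ℕ) (K : Cls) : ∃ C : ℝ, 0 ≤ C ∧ ∀ (ι : Type) (A' : Arr n ι) (s : Finset ι) (c : ι → ℂ) (j : ℤ) (Q : Finset (MI n)), A'.In s K → (∀ α ∈ s, A'.tc α = 0) →
    (∀ q ∈ Q, q.2 = j) → ∑ q ∈ Q, (flbSupE (A'.fld s c) q).toReal ^ 2 ≤ C * A'.L ^ n * energy s c := by
  classical
  obtain ⟨C1, hC1, h1⟩ := flb_sup_cube n K
  obtain ⟨C2, hC2, h2⟩ := flb_act_count n K
  refine ⟨C1 * C2, by positivity, ?_⟩
  intro ι A' s c j Q hA h0 hQ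
  have hq : ∀ q ∈ Q, (flbSupE (A'.fld s c) q).toReal ^ 2 ≤ C1 * ∑ α ∈ flbAct A' s q, ‖c α‖ ^ 2 := by
    intro q _
    have := h1 ι A' s c q hA h0
    have h3 : 0 ≤ C1 * ∑ α ∈ flbAct A' s q, ‖c α‖ ^ 2 := mul_nonneg hC1 (Finset.sum_nonneg fun _ _ => by positivity)
    rw [← ENNReal.toReal_pow, ← ENNReal.toReal_ofReal h3]
    exact ENNReal.toReal_mono ENNReal.ofReal_ne_top this
  calc ∑ q ∈ Q, (flbSupE (A'.fld s c) q).toReal ^ 2 ≤ ∑ q ∈ Q, C1 * ∑ α ∈ flbAct A' s q, ‖c α‖ ^ 2 := Finset.sum_le_sum hq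
    _ = C1 * ∑ q ∈ Q, ∑ α ∈ s, if α ∈ flbAct A' s q then ‖c α‖ ^ 2 else 0 := by
        rw [Finset.mul_sum]
        refine Finset.sum_congr rfl fun q _ => ?_
        congr 1
        rw [← Finset.sum_filter]
        apply Finset.sum_congr _ fun _ _ => rfl
        ext α
        simp only [Finset.mem_filter]
        constructor
        · intro h; exact ⟨(Finset.mem_filter.1 (by unfold flbAct at h; exact h)).1, h⟩
        · intro h; exact h.2
    _ = C1 * ∑ α ∈ s, ‖c α‖ ^ 2 * ((Q.filter fun q => α ∈ flbAct A' s q).card : ℝ) := by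
        rw [Finset.sum_comm]
        congr 1
        refine Finset.sum_congr rfl fun α _ => ?_
        rw [← Finset.sum_filter, Finset.sum_const, nsmul_eq_mul, mul_comm]
    _ ≤ C1 * ∑ α ∈ s, ‖c α‖ ^ 2 * (C2 * A'.L ^ n) := by
        gcongr with α _
        apply h2 ι A' s α j _ hA h0
        intro q hq
        rw [Finset.mem_filter] at hq
        exact ⟨hQ q hq.1, hq.2⟩
    _ = C1 * C2 * A'.L ^ n * energy s c := by
        rw [← Finset.sum_mul]; unfold energy; ring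

open scoped Classical in
/-- **L-FLB-CRUDE** (~200 l.)  **THE CRUDE BUDGET** (field `crude` of `FlatOut`).   `‖flbCf p‖² = κ₀² σ²` (`flb_sz_nonneg`), `flb_sz_sq`;   `∑_{p ∈ Pk, p.2.2 = j} ≤ ∑_{θ ∈ flbOcc} ∑_{T ∈ Tb, T.2 = j}` (drop the condition `σ ≠ 0`; `Finset.sum_filter`, `Finset.sum_product`);
for fixed `θ, d, e`: `∑_{T ∈ Tb, T.2 = j} sup(T + e)² = ∑_{q ∈ (Tb.filter ..).image (· + e)} sup(q)²` (`Finset.sum_image`, injective), all `q.2 = j + e.2`: `flb_crude_one` for the class of `flb_child_der_in` (`flb_child_dirD`, `flb_child_tc`), scale `(flbA A h θ).L = A.L / h` (`inf_derL_L`);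
`flb_energy_bins`.   `C = κ₀² (card (FlbD n N) · 3^{n+1})² C₁`. -/
theorem flb_crude (n N : ℕ) (K : Cls) (κ₀ : ℝ) (hR : Real.sqrt n ≤ K.Rω) (hN : N ≤ K.J) : ∃ C : ℝ, 0 ≤ C ∧ ∀ (ι : Type) (A : Arr n ι) (s' : Finset ι) (c : ι → ℂ) (h : ℝ) (Tb : Finset (MI n)),
    A.In s' K → (∀ α ∈ s', A.tc α = 0) → 1 ≤ h → h ≤ A.L → ∀ j : ℤ,
    ∑ p ∈ (flbPk A s' c h N Tb).filter (fun p => p.2.2 = j), ‖flbCf A s' c h N κ₀ p‖ ^ 2 ≤ C * (A.L / h) ^ n * energy s' c := by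
  obtain ⟨C1, hC1, h1⟩ := flb_crude_one n { K with J := K.J - N, B := (1 + 3 * K.Rω + K.Rω ^ 2) ^ N * |K.B| }
  set N₁ : ℕ := Fintype.card (FlbD n N) * 3 ^ (n + 1) with hN₁
  refine ⟨κ₀ ^ 2 * N₁ * (N₁ * C1), by positivity, ?_⟩
  intro ι A s' c h Tb hA h0 hh hhL j
  have hbin : ∀ θ : BI n, ∑ T ∈ Tb.filter (fun T => T.2 = j), ‖flbCf A s' c h N κ₀ (θ, T)‖ ^ 2 ≤ κ₀ ^ 2 * N₁ * (N₁ * C1) * (A.L / h) ^ n * energy (flbS A s' h θ) c := by
    intro θ
    have hde : ∀ (d : FlbD n N) (e : MI n), ∑ T ∈ Tb.filter (fun T => T.2 = j), (flbSupE (dirD (flbL d) (flbV A s' c h θ)) (T + e)).toReal ^ 2 ≤ C1 * (A.L / h) ^ n * energy (flbS A s' h θ) c := by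
      intro d e
      have himg : ∑ T ∈ Tb.filter (fun T => T.2 = j), (flbSupE (dirD (flbL d) (flbV A s' c h θ)) (T + e)).toReal ^ 2
          = ∑ q ∈ (Tb.filter (fun T => T.2 = j)).image (fun T => T + e), (flbSupE (dirD (flbL d) (flbV A s' c h θ)) q).toReal ^ 2 := by
        rw [Finset.sum_image]
        intro a _ b _ hab
        exact add_right_cancel hab
      rw [himg, flb_child_dirD hA h0 hR hh hhL c θ (flbL d)]
      have := h1 ι ((flbA A h θ).derL (flbL d)) (flbS A s' h θ) c (j + e.2) ((Tb.filter (fun T => T.2 = j)).image (fun T => T + e))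
        (flb_child_der_in hA h0 hR hh hhL hN θ d) (flb_child_tc h0 h θ (flbL d)) (by
          intro q hq
          obtain ⟨T, hT, rfl⟩ := Finset.mem_image.1 hq
          rw [Finset.mem_filter] at hT
          show T.2 + e.2 = j + e.2
          rw [hT.2])
      have hLe : ((flbA A h θ).derL (flbL d)).L = A.L / h := by rw [inf_derL_L]; rfl
      rw [hLe] at this
      exact this
    calc ∑ T ∈ Tb.filter (fun T => T.2 = j), ‖flbCf A s' c h N κ₀ (θ, T)‖ ^ 2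
        ≤ ∑ T ∈ Tb.filter (fun T => T.2 = j), κ₀ ^ 2 * (N₁ * ∑ d : FlbD n N, ∑ e ∈ flbBox n, (flbSupE (dirD (flbL d) (flbV A s' c h θ)) (T + e)).toReal ^ 2) := by
          refine Finset.sum_le_sum fun T _ => ?_
          unfold flbCf
          rw [Complex.norm_real, Real.norm_eq_abs, sq_abs, mul_pow]
          exact mul_le_mul_of_nonneg_left (flb_sz_sq N _ T) (sq_nonneg _)
      _ = κ₀ ^ 2 * (N₁ * ∑ d : FlbD n N, ∑ e ∈ flbBox n, ∑ T ∈ Tb.filter (fun T => T.2 = j), (flbSupE (dirD (flbL d) (flbV A s' c h θ)) (T + e)).toReal ^ 2) := by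
          rw [← Finset.mul_sum, ← Finset.mul_sum, Finset.sum_comm]
          congr 2
          refine Finset.sum_congr rfl fun d _ => ?_
          rw [Finset.sum_comm]
      _ ≤ κ₀ ^ 2 * (N₁ * ∑ _d : FlbD n N, ∑ _e ∈ flbBox n, C1 * (A.L / h) ^ n * energy (flbS A s' h θ) c) := by
          gcongr with d _ e _
          exact hde d e
      _ = _ := by
          rw [Finset.sum_const, Finset.sum_const, flb_box_card, Finset.card_univ, smul_smul, nsmul_eq_mul, ← hN₁]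
          ring
  calc ∑ p ∈ (flbPk A s' c h N Tb).filter (fun p => p.2.2 = j), ‖flbCf A s' c h N κ₀ p‖ ^ 2
      ≤ ∑ p ∈ flbOcc A s' h ×ˢ Tb.filter (fun T => T.2 = j), ‖flbCf A s' c h N κ₀ p‖ ^ 2 := by
        apply Finset.sum_le_sum_of_subset_of_nonneg
        · intro p hp
          rw [Finset.mem_filter] at hp
          unfold flbPk at hp
          rw [Finset.mem_filter, Finset.mem_product] at hp
          rw [Finset.mem_product, Finset.mem_filter]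
          exact ⟨hp.1.1.1, hp.1.1.2, hp.2⟩
        · intro _ _ _; positivity
    _ = ∑ θ ∈ flbOcc A s' h, ∑ T ∈ Tb.filter (fun T => T.2 = j), ‖flbCf A s' c h N κ₀ (θ, T)‖ ^ 2 := Finset.sum_product _ _ _
    _ ≤ ∑ θ ∈ flbOcc A s' h, κ₀ ^ 2 * N₁ * (N₁ * C1) * (A.L / h) ^ n * energy (flbS A s' h θ) c := Finset.sum_le_sum fun θ _ => hbin θ
    _ = _ := by rw [← Finset.mul_sum, flb_energy_bins]

/-! ## 2. the moments -/

/-- **L-FLB-MOM** (`flb_chart`, `lintegral_map` (`inf_pmap_continuous`; the integrand is continuous)) -/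
theorem flb_mom_eq (μ : Measure (ST n)) {h : ℝ} (hh : h ≠ 0) (pf : FI n → ST n → ℂ) (P : ℕ) (p : FI n) :
    flMom μ (flArr h pf) P p = ∫⁻ w, ENNReal.ofReal ((1 + ‖w - flbLat p.2‖) ^ (-(P : ℤ))) ∂(μ.map (pmap h (bcen h p.1))) := by
  have hm : Measurable fun w : ST n => ENNReal.ofReal ((1 + ‖w - flbLat p.2‖) ^ (-(P : ℤ))) := by
    refine ENNReal.measurable_ofReal.comp ?_
    have hc : Continuous fun w : ST n => (1 + ‖w - flbLat p.2‖) ^ (-(P : ℤ)) := by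
      refine Continuous.zpow₀ (by fun_prop) _ fun w => Or.inl ?_
      have := norm_nonneg (w - flbLat p.2)
      positivity
    exact hc.measurable
  rw [lintegral_map hm (inf_pmap_continuous h _).measurable]
  unfold flMom Arr.wt
  simp only [flb_chart hh]

theorem flb_mom_norm {T a : MI n} {w : ST n} (hw : w ∈ cube (T + a)) : ‖a‖ ≤ ‖w - flbLat T‖ + 1 := by
  obtain ⟨h1, h2, h3⟩ := hw
  have hx : ∀ i, |(a.1 i : ℝ)| ≤ ‖w - flbLat T‖ + 1 := by
    intro i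
    have e1 : (w - flbLat T).1 i = w.1 i - (T.1 i : ℝ) := by simp [flbLat, flLat]
    have e2 : |(w - flbLat T).1 i| ≤ ‖(w - flbLat T).1‖ := by
      have := PiLp.norm_apply_le (w - flbLat T).1 i
      simpa using this
    have e3 : ‖(w - flbLat T).1‖ ≤ ‖w - flbLat T‖ := norm_fst_le _
    have h4 := h1 i
    simp only [Prod.fst_add, Pi.add_apply, Int.cast_add] at h4
    rw [e1] at e2
    have e4 := abs_le.1 (e2.trans e3)
    rw [abs_le]
    constructor <;> linarith [h4.1, h4.2, e4.1, e4.2]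
  have ht : |(a.2 : ℝ)| ≤ ‖w - flbLat T‖ + 1 := by
    have e1 : (w - flbLat T).2 = w.2 - (T.2 : ℝ) := by simp [flbLat]
    have e3 : ‖(w - flbLat T).2‖ ≤ ‖w - flbLat T‖ := norm_snd_le _
    rw [e1, Real.norm_eq_abs] at e3
    simp only [Prod.snd_add, Int.cast_add] at h2 h3
    have e4 := abs_le.1 e3
    rw [abs_le]
    constructor <;> linarith [e4.1, e4.2]
  have h0 : 0 ≤ ‖w - flbLat T‖ + 1 := by positivity
  rw [Prod.norm_def]
  refine max_le ?_ ?_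
  · rw [pi_norm_le_iff_of_nonneg h0]
    intro i
    rw [Int.norm_eq_abs]
    exact hx i
  · rw [Int.norm_eq_abs]
    exact ht

/-- **L-FLB-MOM** (~150 l.)  the moment of a polynomial weight through the unit cubes.   (`univ = ⋃ a, cube (T + a)`, pairwise disjoint, measurable (`inf_cube_partition`, `inf_cube_measurable`; reindex `q = T + a`: `Equiv.addLeft T`): `lintegral_iUnion`;
on `cube (T + a)`: `w - flbLat T` has coordinates in `[a_i, a_i + 1)`, so `‖w - flbLat T‖ ≥ ‖a‖ - 1` (`‖a‖` = sup norm of `MI n`; `PiLp.norm_apply_le`, `pi_norm_le_iff_of_nonneg`, `Int.norm_eq_abs`), `1 + ‖w - flbLat T‖ ≥ max 1 ‖a‖ ≥ (1 + ‖a‖)/2`; `setLIntegral_mono` + `setLIntegral_const`.) -/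
theorem flb_mom_le (P : ℕ) (ν : Measure (ST n)) (T : MI n) :
    ∫⁻ w, ENNReal.ofReal ((1 + ‖w - flbLat T‖) ^ (-(P : ℤ))) ∂ν ≤ ∑' a : MI n, ENNReal.ofReal (2 ^ P * (1 + ‖a‖) ^ (-(P : ℝ))) * ν (cube (T + a)) := by
  have hU : (⋃ a : MI n, cube (T + a)) = (univ : Set (ST n)) := by
    refine eq_univ_of_forall fun z => ?_
    obtain ⟨k, hk, -⟩ := inf_cube_partition z
    refine mem_iUnion.2 ⟨k - T, ?_⟩
    rwa [add_sub_cancel]
  have hd : Pairwise (Function.onFun Disjoint fun a : MI n => (cube (T + a) : Set (ST n))) := by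
    intro a b hab
    refine Set.disjoint_left.2 fun z hza hzb => hab ?_
    obtain ⟨k, -, hk⟩ := inf_cube_partition z
    have := (hk _ hza).trans (hk _ hzb).symm
    exact add_left_cancel this
  rw [← setLIntegral_univ, ← hU, lintegral_iUnion (fun a => inf_cube_measurable _) hd]
  refine ENNReal.tsum_le_tsum fun a => ?_
  rw [← setLIntegral_const]
  refine setLIntegral_mono measurable_const fun w hw => ENNReal.ofReal_le_ofReal ?_
  have h1 := flb_mom_norm hw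
  have h2 : 0 ≤ ‖w - flbLat T‖ := norm_nonneg _
  have h3 : 0 ≤ ‖a‖ := norm_nonneg _
  have h4 : (1 + ‖a‖) / 2 ≤ 1 + ‖w - flbLat T‖ := by linarith
  rw [zpow_neg, zpow_natCast, Real.rpow_neg (by positivity), Real.rpow_natCast]
  have h5 : ((1 + ‖a‖) / 2) ^ P ≤ (1 + ‖w - flbLat T‖) ^ P := pow_le_pow_left₀ (by positivity) h4 P
  have h6 : 0 < ((1 + ‖a‖) / 2) ^ P := by positivity
  calc ((1 + ‖w - flbLat T‖) ^ P)⁻¹ ≤ (((1 + ‖a‖) / 2) ^ P)⁻¹ := inv_anti₀ h6 h5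
    _ = 2 ^ P * ((1 + ‖a‖) ^ P)⁻¹ := by
      rw [div_pow, inv_div, div_eq_mul_inv]

theorem flb_lat_tsum_pi {J I : Type*} [Fintype I] (wt : J → ℝ≥0∞) :
    ∑' g : I → J, ∏ i, wt (g i) ≤ (∑' j, wt j) ^ Fintype.card I := by
  classical
  rw [ENNReal.tsum_eq_iSup_sum]
  refine iSup_le fun T => ?_
  set s : Finset J := T.biUnion fun g => Finset.univ.image g with hs
  have hT : T ⊆ Fintype.piFinset fun _ : I => s := by
    intro g hg
    rw [Fintype.mem_piFinset]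
    intro i
    rw [hs, Finset.mem_biUnion]
    exact ⟨g, hg, Finset.mem_image_of_mem g (Finset.mem_univ i)⟩
  calc ∑ g ∈ T, ∏ i, wt (g i) ≤ ∑ g ∈ Fintype.piFinset fun _ : I => s, ∏ i, wt (g i) := Finset.sum_le_sum_of_subset hT
    _ = ∏ _i : I, ∑ j ∈ s, wt j := (Finset.prod_univ_sum (fun _ : I => s) fun _ j => wt j).symm
    _ ≤ ∏ _i : I, ∑' j, wt j := Finset.prod_le_prod' fun _ _ => ENNReal.sum_le_tsum s
    _ = _ := by rw [Finset.prod_const, Finset.card_univ]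

theorem flb_lat_one {t : ℝ} (ht : 1 < t) :
    ∑' k : ℤ, ENNReal.ofReal ((1 + |(k : ℝ)|) ^ (-t)) ≤ ENNReal.ofReal ((∑' k : ℤ, |(k : ℝ)| ^ (-t)) + 1) := by
  have hsum := Real.summable_abs_int_rpow ht
  have hnn : ∀ k : ℤ, 0 ≤ |(k : ℝ)| ^ (-t) := fun k => by positivity
  have hpt : ∀ k : ℤ, ENNReal.ofReal ((1 + |(k : ℝ)|) ^ (-t)) ≤
      ENNReal.ofReal (|(k : ℝ)| ^ (-t)) + if k = 0 then 1 else 0 := by
    intro k
    by_cases hk : k = 0
    · rw [if_pos hk]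
      refine le_add_left ?_
      rw [← ENNReal.ofReal_one]
      apply ENNReal.ofReal_le_ofReal
      exact Real.rpow_le_one_of_one_le_of_nonpos (by linarith [abs_nonneg (k : ℝ)]) (by linarith)
    · rw [if_neg hk, add_zero]
      apply ENNReal.ofReal_le_ofReal
      exact Real.rpow_le_rpow_of_nonpos (abs_pos.2 (by exact_mod_cast hk)) (by linarith) (by linarith)
  calc ∑' k : ℤ, ENNReal.ofReal ((1 + |(k : ℝ)|) ^ (-t))
      ≤ ∑' k : ℤ, (ENNReal.ofReal (|(k : ℝ)| ^ (-t)) + if k = 0 then 1 else 0) := ENNReal.tsum_le_tsum hpt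
    _ = _ := by
        rw [ENNReal.tsum_add, tsum_ite_eq, ← ENNReal.ofReal_tsum_of_nonneg hnn hsum, ← ENNReal.ofReal_one,
          ← ENNReal.ofReal_add (tsum_nonneg hnn) zero_le_one]

/-- **L-FLB-LAT** (~150 l., paper free)  lattice sums.   (Shells: `#{a : ‖a‖ = r} ≤ #{a : ‖a‖ ≤ r} = (2r + 1)^{n+1}`, `∑_r (2r+1)^{n+1} ((1+r)^{-s} - (2+r)^{-s})`…; SIMPLER: compare with an integral, or by induction on the number of coordinates with
`(1 + max |a_i|)^{-s} ≤ ∏_i (1 + |a_i|)^{-s/(n+1)}` and `∑_{k ∈ ℤ} (1 + |k|)^{-t} < ∞` for `t > 1` (`Real.summable_one_div_nat_rpow`/`Real.summable_nat_rpow_inv`, `Summable.of_nat_of_neg`); product of summable families `Summable.mul_of_nonneg`, `Finset.prod`: see `ti_lat_sum`/`tg_sum_lat` in `R257/Tree/Geo*.lean`, `pk_lat_sum`-type lemmas in `R257/Pk/Api.lean`: CITE if one fits.) -/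
theorem flb_lat_sum (n : ℕ) {s : ℝ} (hs : (n : ℝ) + 1 < s) : ∃ C : ℝ, 0 ≤ C ∧ ∑' a : MI n, ENNReal.ofReal ((1 + ‖a‖) ^ (-s)) ≤ ENNReal.ofReal C := by
  obtain ⟨t, ht⟩ : ∃ t : ℝ, t = s / ((n : ℝ) + 1) := ⟨_, rfl⟩
  have hn0 : (0 : ℝ) < (n : ℝ) + 1 := by positivity
  have ht1 : 1 < t := by rw [ht, lt_div_iff₀ hn0]; linarith
  have hst : s = t * ((n + 1 : ℕ) : ℝ) := by
    rw [ht]
    push_cast
    field_simp
  have hC₁ : 0 ≤ (∑' k : ℤ, |(k : ℝ)| ^ (-t)) + 1 := add_nonneg (tsum_nonneg fun k => by positivity) zero_le_one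
  refine ⟨((∑' k : ℤ, |(k : ℝ)| ^ (-t)) + 1) ^ n * ((∑' k : ℤ, |(k : ℝ)| ^ (-t)) + 1), by positivity, ?_⟩
  have hpt : ∀ a : MI n, ENNReal.ofReal ((1 + ‖a‖) ^ (-s)) ≤
      (∏ i, ENNReal.ofReal ((1 + |((a.1 i : ℤ) : ℝ)|) ^ (-t))) * ENNReal.ofReal ((1 + |((a.2 : ℤ) : ℝ)|) ^ (-t)) := by
    intro a
    rw [← ENNReal.ofReal_prod_of_nonneg (fun _ _ => by positivity), ← ENNReal.ofReal_mul (Finset.prod_nonneg fun _ _ => by positivity)]
    apply ENNReal.ofReal_le_ofReal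
    have h0 : 0 ≤ ‖a‖ := norm_nonneg a
    have h1 : ∀ i, |((a.1 i : ℤ) : ℝ)| ≤ ‖a‖ := fun i => by
      rw [← Int.norm_eq_abs]
      exact (norm_le_pi_norm a.1 i).trans (norm_fst_le a)
    have h2 : |((a.2 : ℤ) : ℝ)| ≤ ‖a‖ := by
      rw [← Int.norm_eq_abs]
      exact norm_snd_le a
    calc (1 + ‖a‖) ^ (-s) = (∏ _i : Fin n, (1 + ‖a‖) ^ (-t)) * (1 + ‖a‖) ^ (-t) := by
          rw [Finset.prod_const, Finset.card_univ, Fintype.card_fin, ← pow_succ, ← Real.rpow_natCast,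
            ← Real.rpow_mul (by positivity), hst, neg_mul]
      _ ≤ _ := by
          refine mul_le_mul ?_ ?_ (by positivity) (Finset.prod_nonneg fun _ _ => by positivity)
          · refine Finset.prod_le_prod (fun _ _ => by positivity) fun i _ => ?_
            exact Real.rpow_le_rpow_of_nonpos (by positivity) (by linarith [h1 i]) (by linarith)
          · exact Real.rpow_le_rpow_of_nonpos (by positivity) (by linarith) (by linarith)
  have h1D := flb_lat_one ht1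
  calc ∑' a : MI n, ENNReal.ofReal ((1 + ‖a‖) ^ (-s))
      ≤ ∑' a : MI n, (∏ i, ENNReal.ofReal ((1 + |((a.1 i : ℤ) : ℝ)|) ^ (-t))) * ENNReal.ofReal ((1 + |((a.2 : ℤ) : ℝ)|) ^ (-t)) :=
        ENNReal.tsum_le_tsum hpt
    _ = ∑' a₁ : Fin n → ℤ, ∑' a₂ : ℤ, (∏ i, ENNReal.ofReal ((1 + |((a₁ i : ℤ) : ℝ)|) ^ (-t))) * ENNReal.ofReal ((1 + |((a₂ : ℤ) : ℝ)|) ^ (-t)) :=
        ENNReal.tsum_prod (f := fun (a₁ : Fin n → ℤ) (a₂ : ℤ) =>
          (∏ i, ENNReal.ofReal ((1 + |((a₁ i : ℤ) : ℝ)|) ^ (-t))) * ENNReal.ofReal ((1 + |((a₂ : ℤ) : ℝ)|) ^ (-t)))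
    _ = (∑' a₁ : Fin n → ℤ, ∏ i, ENNReal.ofReal ((1 + |((a₁ i : ℤ) : ℝ)|) ^ (-t))) * ∑' a₂ : ℤ, ENNReal.ofReal ((1 + |((a₂ : ℤ) : ℝ)|) ^ (-t)) := by
        simp_rw [ENNReal.tsum_mul_left, ENNReal.tsum_mul_right]
    _ ≤ (∑' k : ℤ, ENNReal.ofReal ((1 + |(k : ℝ)|) ^ (-t))) ^ Fintype.card (Fin n) * ∑' a₂ : ℤ, ENNReal.ofReal ((1 + |((a₂ : ℤ) : ℝ)|) ^ (-t)) := by
        gcongr
        exact flb_lat_tsum_pi (I := Fin n) fun k : ℤ => ENNReal.ofReal ((1 + |(k : ℝ)|) ^ (-t))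
    _ ≤ ENNReal.ofReal ((∑' k : ℤ, |(k : ℝ)| ^ (-t)) + 1) ^ n * ENNReal.ofReal ((∑' k : ℤ, |(k : ℝ)| ^ (-t)) + 1) := by
        rw [Fintype.card_fin]
        gcongr
    _ = _ := by
        rw [← ENNReal.ofReal_pow hC₁, ← ENNReal.ofReal_mul (by positivity)]

/-- the mass of a unit cube.  (`inf_cube_subset_ball` about the corner/any point of the cube (the cube is nonempty: it contains `flbLat q`), `Grow` at `r = √n + 1`.) -/
theorem flb_cube_mass {ν : Measure (ST n)} {m : ℝ} (hν : Grow ν m n) (q : MI n) : ν (cube q) ≤ ENNReal.ofReal (m * (Real.sqrt n + 1) ^ (n : ℝ)) := by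
  have hmem : flbLat q ∈ cube q := by
    refine ⟨fun i => ?_, ?_⟩
    · have e : (flbLat q).1 i = (q.1 i : ℝ) := by simp [flbLat, flLat]
      rw [e]
      exact ⟨le_rfl, by linarith⟩
    · have e : (flbLat q).2 = (q.2 : ℝ) := rfl
      rw [e]
      exact ⟨le_rfl, by linarith⟩
  refine (measure_mono (inf_cube_subset_ball q hmem)).trans (hν _ _ ?_)
  linarith [Real.sqrt_nonneg (n : ℝ)]

/-- **L-FLB-DMAX** (~100 l.)  **`d_p ≲ 1`** (field `dmax` of `FlatOut`).   (`flb_mom_eq`, `flb_mom_le`, `flb_cube_mass` for `μ.map (pmap h v)`: `inf_grow_push` with `a = n`, `Rv`; `ENNReal.tsum_mul_right`, `flb_lat_sum` with `s = P`.) -/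
theorem flb_dmax (n P : ℕ) (hP : n + 2 ≤ P) (Rv : ℝ) : ∃ C : ℝ, 0 ≤ C ∧ ∀ (μ : Measure (ST n)) (m h : ℝ) (pf : FI n → ST n → ℂ) (p : FI n), Grow μ m n → 0 ≤ m → 1 ≤ h → ‖bcen h p.1‖ ≤ Rv →
    flMom μ (flArr h pf) P p ≤ ENNReal.ofReal (C * m * h ^ (n + 1)) := by
  have hs : (n : ℝ) + 1 < ((P : ℕ) : ℝ) := by
    have : n + 1 < P := by omega
    exact_mod_cast this
  obtain ⟨Cl, hCl, hlat⟩ := flb_lat_sum n hs
  have hsq : 0 ≤ Real.sqrt (n : ℝ) := Real.sqrt_nonneg _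
  refine ⟨2 ^ P * Cl * (2 * (1 + 2 * |Rv|) ^ (n : ℝ)) * (Real.sqrt n + 1) ^ (n : ℝ), by positivity, ?_⟩
  intro μ m h pf p hμ hm hh hv
  have hh0 : 0 < h := by linarith
  have hg := inf_grow_push hμ hm (Nat.cast_nonneg n) hh (hv.trans (le_abs_self Rv))
  set ν := μ.map (pmap h (bcen h p.1)) with hν
  set m' : ℝ := 2 * (1 + 2 * |Rv|) ^ (n : ℝ) * m * h ^ ((n : ℝ) + 1) with hm'
  rw [flb_mom_eq μ hh0.ne' pf P p]
  refine (flb_mom_le P ν p.2).trans ?_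
  have h1 : ∑' a : MI n, ENNReal.ofReal (2 ^ P * (1 + ‖a‖) ^ (-(P : ℝ))) * ν (cube (p.2 + a)) ≤
      ∑' a : MI n, ENNReal.ofReal (2 ^ P) * ENNReal.ofReal ((1 + ‖a‖) ^ (-(P : ℝ))) * ENNReal.ofReal (m' * (Real.sqrt n + 1) ^ (n : ℝ)) := by
    refine ENNReal.tsum_le_tsum fun a => ?_
    rw [ENNReal.ofReal_mul (by positivity)]
    exact mul_le_mul' le_rfl (flb_cube_mass hg _)
  refine h1.trans ?_
  rw [ENNReal.tsum_mul_right]
  simp_rw [ENNReal.tsum_mul_left]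
  have h2 : ENNReal.ofReal (2 ^ P) * (∑' a : MI n, ENNReal.ofReal ((1 + ‖a‖) ^ (-(P : ℝ)))) * ENNReal.ofReal (m' * (Real.sqrt n + 1) ^ (n : ℝ)) ≤
      ENNReal.ofReal (2 ^ P) * ENNReal.ofReal Cl * ENNReal.ofReal (m' * (Real.sqrt n + 1) ^ (n : ℝ)) :=
    mul_le_mul' (mul_le_mul' le_rfl hlat) le_rfl
  refine h2.trans (le_of_eq ?_)
  rw [← ENNReal.ofReal_mul (by positivity), ← ENNReal.ofReal_mul (by positivity)]
  congr 1
  have e : h ^ ((n : ℝ) + 1) = h ^ (n + 1) := by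
    rw [← Real.rpow_natCast]
    push_cast
    rfl
  rw [hm', e]
  ring

/-- Stores the on-demand equation lemmas of the definitions above in THIS module (rule 6 hygiene). -/
theorem flb_b2_forced : True := by
  have := @flbAct.eq_1
  trivial

end Claimed.Agent.R257
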