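import Claimed.Agent.R257.Fl.B2

/-!
# R257 / Fl / B3 : FL-B FLATTEN, part 3: THE WEIGHTED BUDGET AND THE EXIT      (architect helper122; mathematics: `Fl/Plan.lean`, section FL-B)

WEIGHTED (field `weighted` of `FlatOut`, (w:eq-flat-weighted)).   Fix a fine bin `θ`, `ν = μ.map (pmap h (bcen h θ))`, child array `A' = flbA A h θ`, `β = bet n ≤ 1`.
* `flMom (θ,T) ≤ ∑'_a w_a ν(cube (T + a))`, `w_a = 2^P (1 + ‖a‖)^{-P}` (`flb_mom_eq`, `flb_mom_le`);   `(∑' x_a)^β ≤ ∑' x_a^β` (`flb_subadd`);   `|cf (θ,T)|² ≤ C ∑_d ∑_{e ∈ box} sup_{cube (T+e)} |∂^d V|²` (`flb_cf_sq`);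
* `∑'_T ν(cube (T+a))^β sup_{cube (T+e)} |U|² = supN β (ν.map (· + flbLat (e - a))) U` (`flb_supN_shift`);      these three give the abstract inequality `flb_w_abs`;
* `SparseWith` for translates (`flb_sparse_translate`): restriction to the slab (`flb_supN_restrict`), Peetre for the tube moments (`flb_tubeMom_translate`);
* lattice sum `flb_lat_w` (`(P - M) β ≥ 2 (n+1) > n + 1`);   one bin: `flb_w_bin`;   sum over the bins: `flb_weighted`.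
EXIT: `flb_main`.
Every `sorry` is a LEAF `L-FLB-*`.  Prove IN PLACE, helper lemmas directly above your theorem, edit only your theorems, fresh pull, land at once.
-/

set_option autoImplicit false

namespace Claimed.Agent.R257

open MeasureTheory Metric Set
open scoped ENNReal ContDiff InnerProductSpace

variable {n : ℕ} {ι : Type}

/-! ## 1. abstract part -/

theorem flb_subadd_fin {κ : Type} (x : κ → ℝ≥0∞) {β : ℝ} (h0 : 0 < β) (h1 : β ≤ 1) (s : Finset κ) : (∑ a ∈ s, x a) ^ β ≤ ∑ a ∈ s, x a ^ β := by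
  classical
  induction s using Finset.induction_on with
  | empty => simp [h0]
  | insert a s ha ih =>
    rw [Finset.sum_insert ha, Finset.sum_insert ha]
    exact (ENNReal.rpow_add_le_add_rpow _ _ h0.le h1).trans (add_le_add le_rfl ih)

/-- **L-FLB-SUBADD** (~50 l., Mathlib only).   (finite sums by induction from `ENNReal.rpow_add_le_add_rpow`; `ENNReal.tsum_eq_iSup_sum`; `x ↦ x ^ β` is monotone and continuous: `ENNReal.continuous_rpow_const`, `Monotone.map_iSup_of_continuousAt`, or: `ENNReal.orderIsoRpow β h0` + `OrderIso.map_iSup`.) -/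
theorem flb_subadd {κ : Type} (x : κ → ℝ≥0∞) {β : ℝ} (h0 : 0 < β) (h1 : β ≤ 1) : (∑' a, x a) ^ β ≤ ∑' a, x a ^ β := by
  rw [ENNReal.tsum_eq_iSup_sum]
  have e := (ENNReal.orderIsoRpow β h0).map_iSup (fun s : Finset κ => ∑ a ∈ s, x a)
  simp only [ENNReal.orderIsoRpow_apply] at e
  rw [e]
  exact iSup_le fun s => (flb_subadd_fin x h0 h1 s).trans (ENNReal.sum_le_tsum s)

theorem flb_bet_pos (n : ℕ) : 0 < bet n := by
  unfold bet
  positivity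

theorem flb_bet_le_one (hn : 1 ≤ n) : bet n ≤ 1 := by
  unfold bet
  have : (1 : ℝ) ≤ n := by exact_mod_cast hn
  rw [div_le_one (by positivity)]
  linarith

/-- **L-FLB-SHIFT** (`Measure.map_apply` (`measurable_add_const`), `inf_cube_measurable`; the preimage is `cube (q - k)`: `ext z`, unfold `cube`, `flbLat`, `flLat`, `push_cast`, `constructor <;> … linarith`.) -/
theorem flb_cube_shift (ν : Measure (ST n)) (k q : MI n) : (ν.map fun z => z + flbLat k) (cube q) = ν (cube (q - k)) := by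
  rw [Measure.map_apply (measurable_add_const _) (inf_cube_measurable q)]
  congr 1
  ext z
  simp only [cube, flbLat, flLat, mem_preimage, mem_ofPred_eq, Prod.fst_add, Prod.snd_add, PiLp.add_apply, Prod.fst_sub, Prod.snd_sub,
    Pi.sub_apply, Int.cast_sub]
  constructor
  · rintro ⟨h1, h2, h3⟩
    exact ⟨fun i => ⟨by linarith [(h1 i).1], by linarith [(h1 i).2]⟩, by linarith, by linarith⟩
  · rintro ⟨h1, h2, h3⟩
    exact ⟨fun i => ⟨by linarith [(h1 i).1], by linarith [(h1 i).2]⟩, by linarith, by linarith⟩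

/-- **L-FLB-SHIFT** (unfold `supN`, `flbSupE`; reindex `q = T + e`: `(Equiv.addRight e).tsum_eq`; `flb_cube_shift`, `T + e - (e - a) = T + a`.) -/
theorem flb_supN_shift (β : ℝ) (ν : Measure (ST n)) (U : ST n → ℂ) (a e : MI n) :
    ∑' T : MI n, ν (cube (T + a)) ^ β * flbSupE U (T + e) ^ 2 = supN β (ν.map fun z => z + flbLat (e - a)) U := by
  unfold supN
  rw [← (Equiv.addRight e).tsum_eq fun k : MI n => (ν.map fun z => z + flbLat (e - a)) (cube k) ^ β * (⨆ z ∈ cube k, ‖U z‖ₑ) ^ 2]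
  refine tsum_congr fun T => ?_
  rw [Equiv.coe_addRight, flb_cube_shift]
  have e1 : T + e - (e - a) = T + a := by abel
  rw [e1]
  rfl

/-- **L-FLB-WABS** (~100 l., paper free)  **the abstract inequality.**   `flb_mom_le`, `ENNReal.rpow_le_rpow`, `flb_subadd`, `ENNReal.mul_rpow_of_nonneg`; `hx`;   expand (`Finset.mul_sum`, `ENNReal.tsum_mul_right`, `Finset.sum_comm`), `∑_{T ∈ Tb} ≤ ∑'_T` (`ENNReal.sum_le_tsum`), `ENNReal.tsum_comm`, `ENNReal.tsum_mul_left`, `flb_supN_shift`. -/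
theorem flb_w_abs {𝔇 : Type} [Fintype 𝔇] (ν : Measure (ST n)) (P : ℕ) {β : ℝ} (h0 : 0 < β) (h1 : β ≤ 1) (U : 𝔇 → ST n → ℂ) (Tb : Finset (MI n)) (x : MI n → ℝ≥0∞) (N₁ : ℝ≥0∞)
    (hx : ∀ T, x T ≤ N₁ * ∑ d, ∑ e ∈ flbBox n, flbSupE (U d) (T + e) ^ 2) :
    ∑ T ∈ Tb, (∫⁻ w, ENNReal.ofReal ((1 + ‖w - flbLat T‖) ^ (-(P : ℤ))) ∂ν) ^ β * x T ≤
      N₁ * ∑ d, ∑ e ∈ flbBox n, ∑' a : MI n, ENNReal.ofReal (2 ^ P * (1 + ‖a‖) ^ (-(P : ℝ))) ^ β * supN β (ν.map fun z => z + flbLat (e - a)) (U d) := by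
  set w : MI n → ℝ≥0∞ := fun a => ENNReal.ofReal (2 ^ P * (1 + ‖a‖) ^ (-(P : ℝ))) ^ β with hw
  -- one term
  have hA : ∀ T, (∫⁻ z, ENNReal.ofReal ((1 + ‖z - flbLat T‖) ^ (-(P : ℤ))) ∂ν) ^ β * x T ≤
      N₁ * ∑ d, ∑ e ∈ flbBox n, ∑' a : MI n, w a * (ν (cube (T + a)) ^ β * flbSupE (U d) (T + e) ^ 2) := by
    intro T
    have a1 : (∫⁻ z, ENNReal.ofReal ((1 + ‖z - flbLat T‖) ^ (-(P : ℤ))) ∂ν) ^ β ≤ ∑' a : MI n, w a * ν (cube (T + a)) ^ β := by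
      refine (ENNReal.rpow_le_rpow (flb_mom_le P ν T) h0.le).trans ((flb_subadd _ h0 h1).trans (le_of_eq ?_))
      refine tsum_congr fun a => ?_
      rw [ENNReal.mul_rpow_of_nonneg _ _ h0.le]
    refine (mul_le_mul' a1 (hx T)).trans (le_of_eq ?_)
    rw [mul_left_comm, Finset.mul_sum]
    congr 1
    refine Finset.sum_congr rfl fun d _ => ?_
    rw [Finset.mul_sum]
    refine Finset.sum_congr rfl fun e _ => ?_
    rw [← ENNReal.tsum_mul_right]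
    refine tsum_congr fun a => ?_
    rw [mul_assoc]
  refine (Finset.sum_le_sum fun T _ => hA T).trans ?_
  rw [← Finset.mul_sum, Finset.sum_comm]
  gcongr with d _
  rw [Finset.sum_comm]
  gcongr with e _
  refine (ENNReal.sum_le_tsum Tb).trans (le_of_eq ?_)
  rw [ENNReal.tsum_comm]
  refine tsum_congr fun a => ?_
  rw [ENNReal.tsum_mul_left, flb_supN_shift]

/-- **L-FLB-CFSQ** (~50 l.)  (`Complex.norm_real`, `mul_pow`, `sq_abs`; `flb_sz_sq`; `ENNReal.ofReal_mul`, `ENNReal.ofReal_sum_of_nonneg`; `ENNReal.ofReal (x.toReal ^ 2) = x ^ 2` for `x ≠ ⊤` (`ENNReal.ofReal_pow`, `ENNReal.ofReal_toReal`, `flb_supE_ne_top`).) -/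
theorem flb_cf_sq {N : ℕ} {V : ST n → ℂ} (hb : ∀ d : FlbD n N, ∃ B : ℝ, ∀ z, ‖dirD (flbL d) V z‖ ≤ B) (κ₀ : ℝ) (T : MI n) :
    ENNReal.ofReal (‖((κ₀ * flbSz N V T : ℝ) : ℂ)‖ ^ 2) ≤
      ENNReal.ofReal (κ₀ ^ 2 * (Fintype.card (FlbD n N) * 3 ^ (n + 1) : ℕ)) * ∑ d : FlbD n N, ∑ e ∈ flbBox n, flbSupE (dirD (flbL d) V) (T + e) ^ 2 := by
  have hne : ∀ (d : FlbD n N) (e : MI n), flbSupE (dirD (flbL d) V) (T + e) ≠ ⊤ := by
    intro d e
    obtain ⟨B, hB⟩ := hb d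
    exact flb_supE_ne_top hB _
  have e1 : ‖((κ₀ * flbSz N V T : ℝ) : ℂ)‖ ^ 2 = κ₀ ^ 2 * flbSz N V T ^ 2 := by
    rw [Complex.norm_real, Real.norm_eq_abs, sq_abs, mul_pow]
  have e2 : ∑ d : FlbD n N, ∑ e ∈ flbBox n, flbSupE (dirD (flbL d) V) (T + e) ^ 2 =
      ENNReal.ofReal (∑ d : FlbD n N, ∑ e ∈ flbBox n, (flbSupE (dirD (flbL d) V) (T + e)).toReal ^ 2) := by
    rw [ENNReal.ofReal_sum_of_nonneg fun d _ => Finset.sum_nonneg fun e _ => by positivity]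
    refine Finset.sum_congr rfl fun d _ => ?_
    rw [ENNReal.ofReal_sum_of_nonneg fun e _ => by positivity]
    refine Finset.sum_congr rfl fun e _ => ?_
    rw [ENNReal.ofReal_pow ENNReal.toReal_nonneg, ENNReal.ofReal_toReal (hne d e)]
  rw [e1, e2, ← ENNReal.ofReal_mul (by positivity)]
  apply ENNReal.ofReal_le_ofReal
  rw [mul_assoc]
  exact mul_le_mul_of_nonneg_left (flb_sz_sq N V T) (by positivity)

/-! ## 2. `SparseWith` for translates -/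

theorem flb_peetre_td (A' : Arr n ι) (α : ι) {Rω : ℝ} (hω : ‖A'.om α‖ ≤ Rω) (z w : ST n) :
    A'.tdist α z ≤ A'.tdist α (z + w) + (1 + 2 * Rω) * ‖w‖ := by
  unfold Arr.tdist
  have e : z.1 - A'.y α - (2 * z.2) • A'.om α
      = ((z + w).1 - A'.y α - (2 * (z + w).2) • A'.om α) - (w.1 - (2 * w.2) • A'.om α) := by
    simp only [Prod.fst_add, Prod.snd_add, mul_add, add_smul]
    abel
  rw [e]
  refine (norm_sub_le _ _).trans ?_
  have h1 : ‖w.1 - (2 * w.2) • A'.om α‖ ≤ ‖w.1‖ + 2 * |w.2| * ‖A'.om α‖ := by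
    refine (norm_sub_le _ _).trans ?_
    rw [norm_smul, Real.norm_eq_abs, abs_mul, abs_two]
  have h2 : ‖w.1‖ ≤ ‖w‖ := norm_fst_le w
  have h3 : |w.2| ≤ ‖w‖ := by
    have := norm_snd_le w
    rwa [Real.norm_eq_abs] at this
  have h4 : 2 * |w.2| * ‖A'.om α‖ ≤ 2 * ‖w‖ * Rω :=
    mul_le_mul (by linarith) hω (norm_nonneg _) (by positivity)
  nlinarith

theorem flb_peetre_pt (A' : Arr n ι) (α : ι) {Rω : ℝ} (hω : ‖A'.om α‖ ≤ Rω) (hL : 1 ≤ A'.L) (M : ℕ) (z w : ST n) :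
    (1 + A'.tdist α (z + w) / A'.L) ^ (-(M : ℤ)) ≤ (1 + (1 + 2 * Rω) * ‖w‖) ^ M * (1 + A'.tdist α z / A'.L) ^ (-(M : ℤ)) := by
  have hL0 : 0 < A'.L := by linarith
  have hR : 0 ≤ Rω := (norm_nonneg _).trans hω
  set G := (1 + 2 * Rω) * ‖w‖ with hG
  have hG0 : 0 ≤ G := by positivity
  have ht1 : 0 ≤ A'.tdist α z := norm_nonneg _
  have ht2 : 0 ≤ A'.tdist α (z + w) := norm_nonneg _
  set a := 1 + A'.tdist α z / A'.L with ha
  set b := 1 + A'.tdist α (z + w) / A'.L with hb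
  have ha0 : 0 < a := by positivity
  have hb0 : 0 < b := by positivity
  have hab : a ≤ (1 + G) * b := by
    have h1 := flb_peetre_td A' α hω z w
    have h2 : A'.tdist α z / A'.L ≤ A'.tdist α (z + w) / A'.L + G / A'.L := by
      rw [← add_div]
      exact div_le_div_of_nonneg_right h1 hL0.le
    have h3 : G / A'.L ≤ G := div_le_self hG0 hL
    have h4 : 0 ≤ G * (A'.tdist α (z + w) / A'.L) := by positivity
    simp only [ha, hb]
    nlinarith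
  rw [zpow_neg, zpow_neg, zpow_natCast, zpow_natCast]
  have h5 : a ^ M ≤ (1 + G) ^ M * b ^ M := by
    rw [← mul_pow]
    exact pow_le_pow_left₀ ha0.le hab M
  rw [inv_le_iff_one_le_mul₀ (by positivity), ← div_eq_mul_inv, div_mul_eq_mul_div, le_div_iff₀ (by positivity), one_mul]
  exact h5

/-- **L-FLB-PEETRE** (~120 l.)  **tube moments of translates.**   `∫ f d((ν.map (· + w)).restrict S) ≤ ∫ f d(ν.map (· + w)) = ∫ f (z + w) dν` (`lintegral_mono'`/`setLIntegral_le_lintegral`, `lintegral_map` (the integrand is continuous, hence measurable: `inf_A8_cont`; or `lintegral_map'`/`MeasurableEmbedding` of the homeomorphism `Homeomorph.addRight w`: `MeasurableEmbedding.lintegral_map` needs NO measurability of the integrand));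
Peetre: `tdist α z ≤ tdist α (z + w) + ‖w.1‖ + 2 |w.2| ‖ω‖ ≤ tdist α (z + w) + (1 + 2Rω) ‖w‖`, so with `1 ≤ L`: `1 + tdist α z / L ≤ (1 + (1 + 2Rω)‖w‖) (1 + tdist α (z + w) / L)`, and `(1 + tdist α (z+w)/L)^{-M} ≤ (1 + (1+2Rω)‖w‖)^M (1 + tdist α z / L)^{-M}`; `lintegral_const_mul'`. -/
theorem flb_tubeMom_translate {ν : Measure (ST n)} {A' : Arr n ι} {s : Finset ι} {m' D Rω : ℝ} {M : ℕ} (hT : TubeMom ν A' s m' D M) (hL : 1 ≤ A'.L) (hω : ∀ α ∈ s, ‖A'.om α‖ ≤ Rω)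
    (w : ST n) (S : Set (ST n)) : TubeMom ((ν.map fun z => z + w).restrict S) A' s ((1 + (1 + 2 * Rω) * ‖w‖) ^ M * m') D M := by
  intro α hα
  have hR : 0 ≤ Rω := (norm_nonneg _).trans (hω α hα)
  have hF : 0 ≤ (1 + (1 + 2 * Rω) * ‖w‖) ^ M := by positivity
  calc ∫⁻ z, ENNReal.ofReal ((1 + A'.tdist α z / A'.L) ^ (-(M : ℤ))) ∂((ν.map fun z => z + w).restrict S)
      ≤ ∫⁻ z, ENNReal.ofReal ((1 + A'.tdist α z / A'.L) ^ (-(M : ℤ))) ∂(ν.map fun z => z + w) :=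
        setLIntegral_le_lintegral S _
    _ = ∫⁻ z, ENNReal.ofReal ((1 + A'.tdist α (z + w) / A'.L) ^ (-(M : ℤ))) ∂ν :=
        (measurableEmbedding_addRight w).lintegral_map _
    _ ≤ ∫⁻ z, ENNReal.ofReal ((1 + (1 + 2 * Rω) * ‖w‖) ^ M) * ENNReal.ofReal ((1 + A'.tdist α z / A'.L) ^ (-(M : ℤ))) ∂ν := by
        refine lintegral_mono fun z => ?_
        rw [← ENNReal.ofReal_mul hF]
        exact ENNReal.ofReal_le_ofReal (flb_peetre_pt A' α (hω α hα) hL M z w)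
    _ = ENNReal.ofReal ((1 + (1 + 2 * Rω) * ‖w‖) ^ M) * ∫⁻ z, ENNReal.ofReal ((1 + A'.tdist α z / A'.L) ^ (-(M : ℤ))) ∂ν :=
        lintegral_const_mul' _ _ ENNReal.ofReal_ne_top
    _ ≤ ENNReal.ofReal ((1 + (1 + 2 * Rω) * ‖w‖) ^ M) * ENNReal.ofReal (m' * A'.L ^ ((n : ℝ) + 1) / D) :=
        mul_le_mul_right (hT α hα) _
    _ = ENNReal.ofReal ((1 + (1 + 2 * Rω) * ‖w‖) ^ M * m' * A'.L ^ ((n : ℝ) + 1) / D) := by
        rw [← ENNReal.ofReal_mul hF]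
        congr 1
        ring

/-- **L-FLB-CUT** (~100 l.)  **the cubes which meet the support of the field lie in the slab.**   Termwise (`ENNReal.tsum_le_tsum`).   If `⨆ z ∈ cube q, ‖U z‖ₑ = 0` both sides vanish.   Otherwise there is `z ∈ cube q` with `U z ≠ 0`: an active label (`inf_fld_eq_act`: the sum over `A'.act s z` is not empty), `inf_act_near` with `tc = 0`:
`|z.2| ≤ K.R L²`;  every `z' ∈ cube q` has `|z'.2 - z.2| < 1`, so `cube q ⊆ {|t| ≤ T}` and `(ν.restrict S) (cube q) = ν (cube q)` (`Measure.restrict_apply (inf_cube_measurable q)`, `inter_eq_left`). -/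
theorem flb_supN_restrict {A' : Arr n ι} {s : Finset ι} {K : Cls} (hA : A'.In s K) (h0 : ∀ α ∈ s, A'.tc α = 0) (c : ι → ℂ) (ν : Measure (ST n)) (β : ℝ) {T : ℝ} (hb : K.R * A'.L ^ 2 + 1 ≤ T) :
    supN β ν (A'.fld s c) ≤ supN β (ν.restrict {z | |z.2| ≤ T}) (A'.fld s c) := by
  unfold supN
  refine ENNReal.tsum_le_tsum fun q => ?_
  by_cases hz : (⨆ z ∈ cube q, ‖A'.fld s c z‖ₑ) = 0
  · rw [hz]
    simp
  · have hex : ∃ z ∈ cube q, A'.fld s c z ≠ 0 := by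
      by_contra hcon
      push_neg at hcon
      apply hz
      simp only [ENNReal.iSup_eq_zero, enorm_eq_zero]
      exact hcon
    obtain ⟨z, hzq, hne⟩ := hex
    have hL : 0 < A'.L := lt_of_lt_of_le one_pos hA.one_le
    have hact : (A'.act s z).Nonempty := by
      rw [Finset.nonempty_iff_ne_empty]
      intro he
      apply hne
      rw [inf_fld_eq_act, he]
      simp [Arr.fld]
    obtain ⟨α, hα⟩ := hact
    obtain ⟨hs, -, h2⟩ := inf_act_near hA hα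
    rw [h0 α hs, sub_zero, abs_div, abs_of_pos (by positivity : (0 : ℝ) < A'.L ^ 2), div_le_iff₀ (by positivity)] at h2
    have hsub : cube q ⊆ {z : ST n | |z.2| ≤ T} := by
      intro z' hz'
      have a1 := hz'.2
      have a2 := hzq.2
      have a3 : |z'.2 - z.2| ≤ 1 := by
        rw [abs_le]
        constructor <;> linarith [a1.1, a1.2, a2.1, a2.2]
      have a4 : |z'.2| ≤ |z'.2 - z.2| + |z.2| := by
        have := abs_add_le (z'.2 - z.2) z.2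
        rwa [sub_add_cancel] at this
      show |z'.2| ≤ T
      linarith
    rw [Measure.restrict_apply (inf_cube_measurable q), inter_eq_left.2 hsub]

/-- monotonicity of the growth condition -/
theorem flb_grow_mono {ν : Measure (ST n)} {m m' a : ℝ} (h : Grow ν m a) (hm : m ≤ m') : Grow ν m' a := by
  intro z r hr
  exact (h z r hr).trans (ENNReal.ofReal_le_ofReal (mul_le_mul_of_nonneg_right hm (Real.rpow_nonneg (by linarith) _)))

/-- monotonicity of the tube moments -/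
theorem flb_tubeMom_mono {ν : Measure (ST n)} {A' : Arr n ι} {s t : Finset ι} {m m' D : ℝ} {M : ℕ} (h : TubeMom ν A' s m D M) (hts : t ⊆ s) (hm : m ≤ m') (hL : 0 ≤ A'.L) (hD : 0 ≤ D) : TubeMom ν A' t m' D M := by
  intro α hα
  exact (h α (hts hα)).trans (ENNReal.ofReal_le_ofReal
    (div_le_div_of_nonneg_right (mul_le_mul_of_nonneg_right hm (Real.rpow_nonneg hL _)) hD))

/-- the tube moments see only the labels.  (`TubeMom`, `Arr.tdist` unfold; `inf_derL_L`, `inf_derL_om`, `inf_derL_y`.) -/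
theorem flb_tubeMom_derL {ν : Measure (ST n)} {A' : Arr n ι} {s : Finset ι} {m D : ℝ} {M : ℕ} (h : TubeMom ν A' s m D M) (l : List (ST n)) : TubeMom ν (A'.derL l) s m D M := by
  intro α hα
  have := h α hα
  simpa only [Arr.tdist, inf_derL_L, inf_derL_om, inf_derL_y] using this

/-- **L-FLB-SPT** (~80 l., glue)  **`SparseWith` for translates of the measure; no condition on the time range of `ν`.**   `ν' = (ν.map (· + w)).restrict {|t| ≤ T₀ L²}`, `m'' = (1 + (1+2Rω)‖w‖)^M m' ≥ m'`:   `Grow`: `inf_grow_translate`, `inf_grow_restrict`, `flb_grow_mono`;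
`Slab`: `Measure.restrict_apply'`/`restrict_apply` of the (measurable) complement: empty intersection;   `TubeMom`: `flb_tubeMom_translate`;   `flb_supN_restrict`. -/
theorem flb_sparse_translate {Ws : WCon} {cs τ Cs : ℝ} (hS : SparseWith n Ws cs τ Cs) {A' : Arr n ι} {s : Finset ι} (c : ι → ℂ) {ν : Measure (ST n)} {m' D : ℝ} (w : ST n)
    (hA : A'.In s Ws.K) (h0 : ∀ α ∈ s, A'.tc α = 0) (hR : 0 ≤ Ws.K.Rω) (hm : 0 ≤ m') (hg : Grow ν m' n) (hT : TubeMom ν A' s m' D Ws.M)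
    (hb : Ws.K.R * A'.L ^ 2 + 1 ≤ Ws.T₀ * A'.L ^ 2) (hD1 : A'.L ^ τ ≤ D) (hD2 : D ≤ A'.L) :
    supN (bet n) (ν.map fun z => z + w) (A'.fld s c) ≤
      ENNReal.ofReal (Cs * ((1 + (1 + 2 * Ws.K.Rω) * ‖w‖) ^ Ws.M * m') ^ bet n * A'.L ^ (2 * (n : ℝ) / ((n : ℝ) + 1)) * D ^ (-cs) * energy s c) := by
  refine (flb_supN_restrict hA h0 c (ν.map fun z => z + w) (bet n) hb).trans ?_
  have hF1 : 1 ≤ (1 + (1 + 2 * Ws.K.Rω) * ‖w‖) ^ Ws.M := by
    apply one_le_pow₀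
    have : 0 ≤ (1 + 2 * Ws.K.Rω) * ‖w‖ := by positivity
    linarith
  have hmm : m' ≤ (1 + (1 + 2 * Ws.K.Rω) * ‖w‖) ^ Ws.M * m' := by
    calc m' = 1 * m' := (one_mul _).symm
      _ ≤ _ := mul_le_mul_of_nonneg_right hF1 hm
  refine hS ι A' s c _ _ D hA h0 (hm.trans hmm) ?_ ?_ (flb_tubeMom_translate hT hA.one_le hA.freq w _) hD1 hD2
  · exact flb_grow_mono (inf_grow_restrict (inf_grow_translate hg w) _) hmm
  · unfold Slab
    have hmeas : MeasurableSet {z : ST n | Ws.T₀ * A'.L ^ 2 < |z.2|} :=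
      measurableSet_lt measurable_const (continuous_abs.measurable.comp measurable_snd)
    rw [Measure.restrict_apply hmeas]
    have : {z : ST n | Ws.T₀ * A'.L ^ 2 < |z.2|} ∩ {z | |z.2| ≤ Ws.T₀ * A'.L ^ 2} = ∅ := by
      ext z
      simp only [mem_inter_iff, mem_setOf_eq, mem_empty_iff_false, iff_false, not_and, not_le]
      exact fun h => h
    rw [this, measure_empty]

/-! ## 3. the lattice sum -/

/-- (`‖flLat k.1‖ ≤ √n ‖k.1‖` by `an_norm_le_sqrt`, `|k.2| ≤ ‖k‖ ≤ √n ‖k‖`; `norm_le_pi_norm`, `Int.norm_eq_abs`, `Prod.norm_def`.) -/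
theorem flb_lat_norm (hn : 1 ≤ n) (k : MI n) : ‖flbLat k‖ ≤ Real.sqrt n * ‖k‖ := by
  have h0 : 0 ≤ ‖k‖ := norm_nonneg k
  have hs : 1 ≤ Real.sqrt n := by
    rw [Real.one_le_sqrt]
    exact_mod_cast hn
  unfold flbLat
  rw [Prod.norm_def]
  apply max_le
  · refine an_norm_le_sqrt _ h0 fun i => ?_
    have : (flLat k.1) i = ((k.1 i : ℤ) : ℝ) := rfl
    rw [this, ← Int.norm_eq_abs]
    exact (norm_le_pi_norm k.1 i).trans (norm_fst_le k)
  · have h2 : ‖((k.2 : ℤ) : ℝ)‖ ≤ ‖k‖ := by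
      rw [Real.norm_eq_abs, ← Int.norm_eq_abs]
      exact norm_snd_le k
    nlinarith

/-- (`pi_norm_le_iff_of_nonneg`, `Finset.mem_Icc`, `Int.norm_eq_abs`) -/
theorem flb_box_norm {e : MI n} (he : e ∈ flbBox n) : ‖e‖ ≤ 1 := by
  unfold flbBox at he
  rw [Finset.mem_product, Fintype.mem_piFinset] at he
  rw [Prod.norm_def]
  apply max_le
  · rw [pi_norm_le_iff_of_nonneg zero_le_one]
    intro i
    have := he.1 i
    rw [Finset.mem_Icc] at this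
    rw [Int.norm_eq_abs, abs_le]
    constructor
    · exact_mod_cast this.1
    · exact_mod_cast this.2
  · have := he.2
    rw [Finset.mem_Icc] at this
    rw [Int.norm_eq_abs, abs_le]
    constructor
    · exact_mod_cast this.1
    · exact_mod_cast this.2

/-- **L-FLB-LATW** (~120 l., paper free)  `1 + cw ‖flbLat (e - a)‖ ≤ 1 + cw √n (1 + ‖a‖) ≤ (1 + cw √n)(1 + ‖a‖)`;   the term is `≤ ofReal ((2^P (1 + cw √n)^M)^β (1 + ‖a‖)^{-(P - M) β})` (`ENNReal.ofReal_rpow_of_nonneg`, `← ENNReal.ofReal_mul`, `Real.mul_rpow`, `Real.rpow_natCast`, `← Real.rpow_mul`, `← Real.rpow_add`);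
`(P - M) β ≥ (n+1)² · 2/(n+1) = 2(n+1) > n + 1`: compare with `s = 2(n+1)` (`Real.rpow_le_rpow_of_exponent_le`, base `≥ 1`) or use `s = (P - M) β`; `ENNReal.tsum_mul_left`, `flb_lat_sum`. -/
theorem flb_lat_w (hn : 1 ≤ n) (M P : ℕ) (hP : M + (n + 1) ^ 2 ≤ P) (cw : ℝ) (hc : 0 ≤ cw) : ∃ C : ℝ, 0 ≤ C ∧ ∀ e ∈ flbBox n,
    ∑' a : MI n, ENNReal.ofReal (2 ^ P * (1 + ‖a‖) ^ (-(P : ℝ))) ^ bet n * ENNReal.ofReal (((1 + cw * ‖flbLat (e - a)‖) ^ M) ^ bet n) ≤ ENNReal.ofReal C := by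
  have hn0 : (0 : ℝ) < (n : ℝ) + 1 := by positivity
  obtain ⟨Cl, hCl, hlat⟩ := flb_lat_sum n (s := 2 * ((n : ℝ) + 1)) (by linarith)
  have hb0 : 0 ≤ bet n := by unfold bet; positivity
  obtain ⟨K, hK⟩ : ∃ K : ℝ, K = 2 ^ P * (1 + cw * Real.sqrt n) ^ M := ⟨_, rfl⟩
  have hK0 : 0 ≤ K := by rw [hK]; positivity
  refine ⟨K ^ bet n * Cl, by positivity, fun e he => ?_⟩
  have hexp : (-(P : ℝ) + M) * bet n ≤ -(2 * ((n : ℝ) + 1)) := by
    have h1 : (M : ℝ) + ((n : ℝ) + 1) ^ 2 ≤ P := by exact_mod_cast hP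
    unfold bet
    rw [mul_div_assoc', div_le_iff₀ hn0]
    nlinarith
  have hpt : ∀ a : MI n, ENNReal.ofReal (2 ^ P * (1 + ‖a‖) ^ (-(P : ℝ))) ^ bet n *
      ENNReal.ofReal (((1 + cw * ‖flbLat (e - a)‖) ^ M) ^ bet n) ≤
      ENNReal.ofReal (K ^ bet n) * ENNReal.ofReal ((1 + ‖a‖) ^ (-(2 * ((n : ℝ) + 1)))) := by
    intro a
    have hr : 0 ≤ ‖a‖ := norm_nonneg a
    have hD0 : 0 < 1 + ‖a‖ := by linarith
    rw [ENNReal.ofReal_rpow_of_nonneg (by positivity) hb0, ← ENNReal.ofReal_mul (by positivity),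
      ← ENNReal.ofReal_mul (by positivity)]
    apply ENNReal.ofReal_le_ofReal
    have h1 : ‖flbLat (e - a)‖ ≤ Real.sqrt n * (1 + ‖a‖) := by
      refine (flb_lat_norm hn _).trans ?_
      gcongr
      exact (norm_sub_le e a).trans (by linarith [flb_box_norm he])
    have h2 : 1 + cw * ‖flbLat (e - a)‖ ≤ (1 + cw * Real.sqrt n) * (1 + ‖a‖) := by
      have h3 : cw * ‖flbLat (e - a)‖ ≤ cw * (Real.sqrt n * (1 + ‖a‖)) := by gcongr
      nlinarith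
    have h4 : (1 + cw * ‖flbLat (e - a)‖) ^ M ≤ (1 + cw * Real.sqrt n) ^ M * (1 + ‖a‖) ^ M := by
      rw [← mul_pow]
      exact pow_le_pow_left₀ (by positivity) h2 M
    calc (2 ^ P * (1 + ‖a‖) ^ (-(P : ℝ))) ^ bet n * ((1 + cw * ‖flbLat (e - a)‖) ^ M) ^ bet n
        = (2 ^ P * (1 + ‖a‖) ^ (-(P : ℝ)) * (1 + cw * ‖flbLat (e - a)‖) ^ M) ^ bet n := by
          rw [← Real.mul_rpow (by positivity) (by positivity)]
      _ ≤ (2 ^ P * (1 + ‖a‖) ^ (-(P : ℝ)) * ((1 + cw * Real.sqrt n) ^ M * (1 + ‖a‖) ^ M)) ^ bet n := by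
          gcongr
      _ = (K * (1 + ‖a‖) ^ (-(P : ℝ) + M)) ^ bet n := by
          rw [Real.rpow_add hD0, Real.rpow_natCast, hK]
          congr 1
          ring
      _ = K ^ bet n * (1 + ‖a‖) ^ ((-(P : ℝ) + M) * bet n) := by
          rw [Real.mul_rpow hK0 (by positivity), ← Real.rpow_mul hD0.le]
      _ ≤ _ := by
          gcongr
          · linarith
  calc _ ≤ ∑' a : MI n, ENNReal.ofReal (K ^ bet n) * ENNReal.ofReal ((1 + ‖a‖) ^ (-(2 * ((n : ℝ) + 1)))) :=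
        ENNReal.tsum_le_tsum hpt
    _ = ENNReal.ofReal (K ^ bet n) * ∑' a : MI n, ENNReal.ofReal ((1 + ‖a‖) ^ (-(2 * ((n : ℝ) + 1)))) := ENNReal.tsum_mul_left
    _ ≤ ENNReal.ofReal (K ^ bet n) * ENNReal.ofReal Cl := by gcongr
    _ = _ := by rw [← ENNReal.ofReal_mul (by positivity)]

/-! ## 4. the weighted budget -/

/-- the centres of the occupied bins.  (`an_fbin_near`: `h ‖ω - bcen h θ‖ ≤ √n`, `1 ≤ h`.) -/
theorem flb_bcen_norm {A : Arr n ι} {s' : Finset ι} {K : Cls} (hA : A.In s' K) {h : ℝ} (hh : 1 ≤ h) {θ : BI n} (hθ : θ ∈ flbOcc A s' h) : ‖bcen h θ‖ ≤ K.Rω + Real.sqrt n := by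
  classical
  unfold flbOcc at hθ
  obtain ⟨α, hα, rfl⟩ := Finset.mem_image.1 hθ
  have h1 := an_fbin_near h (by linarith) (A.om α)
  have h2 := hA.freq α hα
  have h3 : ‖A.om α - bcen h (fbin h (A.om α))‖ ≤ Real.sqrt n := by
    have : 0 ≤ ‖A.om α - bcen h (fbin h (A.om α))‖ := norm_nonneg _
    nlinarith
  have h4 : ‖bcen h (fbin h (A.om α))‖ ≤ ‖A.om α‖ + ‖A.om α - bcen h (fbin h (A.om α))‖ := by
    have := norm_sub_le (A.om α) (A.om α - bcen h (fbin h (A.om α)))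
    simpa using this
  linarith

/-- **L-FLB-WBIN** (~250 l., glue)  **THE WEIGHTED BUDGET OF ONE BIN.**   `ν = μ.map (pmap h v)`, `v = bcen h θ`, `m' = 2 (1 + 2Rv)^n m h^{n+1}`:  `Grow ν m' n` (`inf_grow_push`, `a = n`), `TubeMom ν (flbA A h θ) (flbS …) m' D M` (`inf_tubeMom_push`, `flb_tubeMom_mono`), the same for `derL` (`flb_tubeMom_derL`).
`flb_mom_eq`, `flb_w_abs` with `𝔇 = FlbD n N`, `U d = dirD (flbL d) (flbV …)`, `x T = ofReal ‖flbCf (θ,T)‖²`, `N₁` of `flb_cf_sq` (`flb_child_bdd`);   `flb_child_dirD`, `flb_sparse_translate` for `(flbA A h θ).derL (flbL d)` (class: `flb_child_der_in` + `hK`; `flb_child_tc`; scale `inf_derL_L`, `(flbA A h θ).L = A.L / h` by `rfl`);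
`ofReal (Cs (F^M m')^β G) ≤ ofReal ((F^M)^β) · ofReal (|Cs| m'^β G)` (`Real.mul_rpow`), `ENNReal.tsum_mul_right`, `flb_lat_w` with `cw = 1 + 2 Ws.K.Rω`;   `C = κ₀² N₁² C_lat |Cs| (2 (1+2Rv)^n)^β`, `N₁ = card (FlbD n N) · 3^{n+1}`. -/
theorem flb_w_bin (hn : 1 ≤ n) {Ws : WCon} {cs τ Cs : ℝ} (hS : SparseWith n Ws cs τ Cs) (N P : ℕ) (hP : Ws.M + (n + 1) ^ 2 ≤ P) (κ₀ Rv : ℝ) : ∃ C : ℝ, 0 ≤ C ∧
    ∀ (ι : Type) (A : Arr n ι) (s' : Finset ι) (c : ι → ℂ) (μ : Measure (ST n)) (m D h : ℝ) (K : Cls) (θ : BI n) (Tb : Finset (MI n)) (pf : FI n → ST n → ℂ),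
    A.In s' K → (∀ α ∈ s', A.tc α = 0) → Real.sqrt n ≤ K.Rω → N ≤ K.J → Ws.K = { K with J := K.J - N, B := (1 + 3 * K.Rω + K.Rω ^ 2) ^ N * |K.B| } →
    0 ≤ m → 1 ≤ h → h ≤ A.L → K.R * (A.L / h) ^ 2 + 1 ≤ Ws.T₀ * (A.L / h) ^ 2 → Grow μ m n → TubeMom μ A s' m D Ws.M → ‖bcen h θ‖ ≤ Rv → (A.L / h) ^ τ ≤ D → D ≤ A.L / h →
    ∑ T ∈ Tb, flMom μ (flArr h pf) P (θ, T) ^ bet n * ENNReal.ofReal (‖flbCf A s' c h N κ₀ (θ, T)‖ ^ 2) ≤
      ENNReal.ofReal (C * (m * h ^ (n + 1)) ^ bet n * (A.L / h) ^ (2 * (n : ℝ) / ((n : ℝ) + 1)) * D ^ (-cs) * energy (flbS A s' h θ) c) := by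
  obtain ⟨Cl, hCl0, hCl⟩ := flb_lat_w hn Ws.M P hP (1 + 2 * |Ws.K.Rω|) (by positivity)
  set N₁ : ℕ := Fintype.card (FlbD n N) * 3 ^ (n + 1) with hN₁
  have hc2 : 0 ≤ (2 * (1 + 2 * |Rv|) ^ (n : ℝ)) ^ bet n := Real.rpow_nonneg (by positivity) _
  refine ⟨κ₀ ^ 2 * N₁ * (N₁ * (Cl * (|Cs| * (2 * (1 + 2 * |Rv|) ^ (n : ℝ)) ^ bet n))), by positivity, ?_⟩
  intro ι A s' c μ m D h K θ Tb pf hA h0 hR hN hK hm hh hhL hgeo hg hT hv hD1 hD2
  have hRω : Ws.K.Rω = K.Rω := by rw [hK]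
  have hRR : Ws.K.R = K.R := by rw [hK]
  have hRω0 : 0 ≤ Ws.K.Rω := by rw [hRω]; exact (Real.sqrt_nonneg _).trans hR
  have hRv0 : 0 ≤ Rv := (norm_nonneg _).trans hv
  have hh0 : 0 < h := by linarith
  have hL0 : 0 < A.L := by linarith
  have hb0 : 0 < A.L / h := div_pos hL0 hh0
  have hD0 : 0 < D := lt_of_lt_of_le (Real.rpow_pos_of_pos hb0 _) hD1
  rw [abs_of_nonneg hRω0] at hCl
  rw [abs_of_nonneg hRv0] at hc2 ⊢
  set ν : Measure (ST n) := μ.map (pmap h (bcen h θ)) with hν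
  set m' : ℝ := 2 * (1 + 2 * Rv) ^ (n : ℝ) * m * h ^ ((n : ℝ) + 1) with hm'
  have hhp : 0 ≤ h ^ ((n : ℝ) + 1) := Real.rpow_nonneg hh0.le _
  have hRvp : 1 ≤ (1 + 2 * Rv) ^ (n : ℝ) := Real.one_le_rpow (by linarith) (Nat.cast_nonneg n)
  have hm'0 : 0 ≤ m' := by positivity
  have hgν : Grow ν m' n := inf_grow_push hg hm (Nat.cast_nonneg n) hh hv
  have hsub : flbS A s' h θ ⊆ s' := fun α hα => ((flb_mem_S A s' h θ α).1 hα).1
  have hTν : TubeMom ν (flbA A h θ) (flbS A s' h θ) m' D Ws.M := by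
    refine flb_tubeMom_mono (inf_tubeMom_push hT hL0 hh0 (bcen h θ)) hsub ?_ hb0.le hD0.le
    have : 0 ≤ m * h ^ ((n : ℝ) + 1) := by positivity
    rw [hm']
    nlinarith
  set E : ℝ := energy (flbS A s' h θ) c with hE
  have hE0 : 0 ≤ E := Finset.sum_nonneg fun _ _ => by positivity
  set γ : ℝ := 2 * (n : ℝ) / ((n : ℝ) + 1) with hγ
  have hbγ : 0 ≤ (A.L / h) ^ γ := Real.rpow_nonneg hb0.le _
  have hDc : 0 ≤ D ^ (-cs) := Real.rpow_nonneg hD0.le _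
  have hm'β : 0 ≤ m' ^ bet n := Real.rpow_nonneg hm'0 _
  set G : ℝ := |Cs| * m' ^ bet n * (A.L / h) ^ γ * D ^ (-cs) * E with hG
  have hG0 : 0 ≤ G := by positivity
  -- the sparse estimate for every direction list and every translate
  have hsp : ∀ (d : FlbD n N) (w : ST n), supN (bet n) (ν.map fun z => z + w) (dirD (flbL d) (flbV A s' c h θ)) ≤
      ENNReal.ofReal (((1 + (1 + 2 * Ws.K.Rω) * ‖w‖) ^ Ws.M) ^ bet n) * ENNReal.ofReal G := by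
    intro d w
    rw [flb_child_dirD hA h0 hR hh hhL c θ (flbL d)]
    have hIn : ((flbA A h θ).derL (flbL d)).In (flbS A s' h θ) Ws.K := by
      rw [hK]; exact flb_child_der_in hA h0 hR hh hhL hN θ d
    have hLe : ((flbA A h θ).derL (flbL d)).L = A.L / h := by rw [inf_derL_L]; rfl
    have := flb_sparse_translate hS c w hIn (flb_child_tc h0 h θ (flbL d)) hRω0 hm'0 hgν (flb_tubeMom_derL hTν (flbL d))
      (by rw [hLe, hRR]; exact hgeo) (by rw [hLe]; exact hD1) (by rw [hLe]; exact hD2)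
    rw [hLe] at this
    refine this.trans ?_
    have hF0 : 0 ≤ (1 + (1 + 2 * Ws.K.Rω) * ‖w‖) ^ Ws.M := by positivity
    rw [← ENNReal.ofReal_mul (Real.rpow_nonneg hF0 _)]
    apply ENNReal.ofReal_le_ofReal
    rw [Real.mul_rpow hF0 hm'0]
    have hFβ : 0 ≤ ((1 + (1 + 2 * Ws.K.Rω) * ‖w‖) ^ Ws.M) ^ bet n := Real.rpow_nonneg hF0 _
    have hX : 0 ≤ ((1 + (1 + 2 * Ws.K.Rω) * ‖w‖) ^ Ws.M) ^ bet n * m' ^ bet n * (A.L / h) ^ γ * D ^ (-cs) * E := by positivity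
    calc Cs * (((1 + (1 + 2 * Ws.K.Rω) * ‖w‖) ^ Ws.M) ^ bet n * m' ^ bet n) * (A.L / h) ^ γ * D ^ (-cs) * E
        = Cs * (((1 + (1 + 2 * Ws.K.Rω) * ‖w‖) ^ Ws.M) ^ bet n * m' ^ bet n * (A.L / h) ^ γ * D ^ (-cs) * E) := by ring
      _ ≤ |Cs| * (((1 + (1 + 2 * Ws.K.Rω) * ‖w‖) ^ Ws.M) ^ bet n * m' ^ bet n * (A.L / h) ^ γ * D ^ (-cs) * E) := mul_le_mul_of_nonneg_right (le_abs_self _) hX
      _ = _ := by rw [hG]; ring
  have hbd : ∀ d : FlbD n N, ∃ B : ℝ, ∀ z, ‖dirD (flbL d) (flbV A s' c h θ) z‖ ≤ B := fun d => flb_child_bdd hA h0 hR hh hhL hN c θ d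
  calc ∑ T ∈ Tb, flMom μ (flArr h pf) P (θ, T) ^ bet n * ENNReal.ofReal (‖flbCf A s' c h N κ₀ (θ, T)‖ ^ 2)
      = ∑ T ∈ Tb, (∫⁻ w, ENNReal.ofReal ((1 + ‖w - flbLat T‖) ^ (-(P : ℤ))) ∂ν) ^ bet n * ENNReal.ofReal (‖flbCf A s' c h N κ₀ (θ, T)‖ ^ 2) := by
        refine Finset.sum_congr rfl fun T _ => ?_
        rw [flb_mom_eq μ hh0.ne' pf P (θ, T)]
    _ ≤ ENNReal.ofReal (κ₀ ^ 2 * N₁) * ∑ d : FlbD n N, ∑ e ∈ flbBox n, ∑' a : MI n, ENNReal.ofReal (2 ^ P * (1 + ‖a‖) ^ (-(P : ℝ))) ^ bet n *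
          supN (bet n) (ν.map fun z => z + flbLat (e - a)) (dirD (flbL d) (flbV A s' c h θ)) :=
        flb_w_abs ν P (flb_bet_pos n) (flb_bet_le_one hn) (fun d : FlbD n N => dirD (flbL d) (flbV A s' c h θ)) Tb _ _ (fun T => flb_cf_sq hbd κ₀ T)
    _ ≤ ENNReal.ofReal (κ₀ ^ 2 * N₁) * ∑ _d : FlbD n N, ∑ _e ∈ flbBox n, ENNReal.ofReal Cl * ENNReal.ofReal G := by
        gcongr with d _ e he
        calc ∑' a : MI n, ENNReal.ofReal (2 ^ P * (1 + ‖a‖) ^ (-(P : ℝ))) ^ bet n * supN (bet n) (ν.map fun z => z + flbLat (e - a)) (dirD (flbL d) (flbV A s' c h θ))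
            ≤ ∑' a : MI n, ENNReal.ofReal (2 ^ P * (1 + ‖a‖) ^ (-(P : ℝ))) ^ bet n * ENNReal.ofReal (((1 + (1 + 2 * Ws.K.Rω) * ‖flbLat (e - a)‖) ^ Ws.M) ^ bet n) * ENNReal.ofReal G := by
              refine ENNReal.tsum_le_tsum fun a => ?_
              rw [mul_assoc]
              gcongr
              exact hsp d _
          _ = (∑' a : MI n, ENNReal.ofReal (2 ^ P * (1 + ‖a‖) ^ (-(P : ℝ))) ^ bet n * ENNReal.ofReal (((1 + (1 + 2 * Ws.K.Rω) * ‖flbLat (e - a)‖) ^ Ws.M) ^ bet n)) * ENNReal.ofReal G := ENNReal.tsum_mul_right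
          _ ≤ ENNReal.ofReal Cl * ENNReal.ofReal G := by
              gcongr
              exact hCl e he
    _ = ENNReal.ofReal (κ₀ ^ 2 * N₁ * (N₁ * (Cl * G))) := by
        rw [Finset.sum_const, Finset.sum_const, flb_box_card, Finset.card_univ, smul_smul, nsmul_eq_mul, ← hN₁, ← ENNReal.ofReal_mul hCl0, ← ENNReal.ofReal_natCast,
          ← ENNReal.ofReal_mul (Nat.cast_nonneg _), ← ENNReal.ofReal_mul (by positivity)]
    _ = _ := by
        congr 1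
        have e1 : m' ^ bet n = (2 * (1 + 2 * Rv) ^ (n : ℝ)) ^ bet n * (m * h ^ (n + 1)) ^ bet n := by
          rw [← Real.mul_rpow (by positivity) (by positivity), hm', inf_A8_rpow]
          congr 1; ring
        rw [hG, e1]
        ring

/-- **L-FLB-WSUM** (~80 l., glue)  **THE WEIGHTED BUDGET** (field `weighted` of `FlatOut`).   `flbPk ⊆ flbOcc ×ˢ Tb` (`Finset.filter_subset`, `Finset.sum_le_sum_of_subset`), `Finset.sum_product`, `flb_w_bin` with `Rv = Ws.K.Rω + √n` (`flb_bcen_norm`; `Ws.K.Rω = K.Rω` from `hK`),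
`← ENNReal.ofReal_sum_of_nonneg`, `← Finset.mul_sum`, `flb_energy_bins`. -/
theorem flb_weighted (hn : 1 ≤ n) {Ws : WCon} {cs τ Cs : ℝ} (hS : SparseWith n Ws cs τ Cs) (N P : ℕ) (hP : Ws.M + (n + 1) ^ 2 ≤ P) (κ₀ : ℝ) : ∃ C : ℝ, 0 ≤ C ∧
    ∀ (ι : Type) (A : Arr n ι) (s' : Finset ι) (c : ι → ℂ) (μ : Measure (ST n)) (m D h : ℝ) (K : Cls) (Tb : Finset (MI n)) (pf : FI n → ST n → ℂ),
    A.In s' K → (∀ α ∈ s', A.tc α = 0) → Real.sqrt n ≤ K.Rω → N ≤ K.J → Ws.K = { K with J := K.J - N, B := (1 + 3 * K.Rω + K.Rω ^ 2) ^ N * |K.B| } →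
    0 ≤ m → 1 ≤ h → h ≤ A.L → K.R * (A.L / h) ^ 2 + 1 ≤ Ws.T₀ * (A.L / h) ^ 2 → Grow μ m n → TubeMom μ A s' m D Ws.M → (A.L / h) ^ τ ≤ D → D ≤ A.L / h →
    ∑ p ∈ flbPk A s' c h N Tb, flMom μ (flArr h pf) P p ^ bet n * ENNReal.ofReal (‖flbCf A s' c h N κ₀ p‖ ^ 2) ≤
      ENNReal.ofReal (C * (m * h ^ (n + 1)) ^ bet n * (A.L / h) ^ (2 * (n : ℝ) / ((n : ℝ) + 1)) * D ^ (-cs) * energy s' c) := by
  obtain ⟨C, hC0, hC⟩ := flb_w_bin hn hS N P hP κ₀ (Ws.K.Rω + Real.sqrt n)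
  refine ⟨C, hC0, ?_⟩
  intro ι A s' c μ m D h K Tb pf hA h0 hR hN hK hm hh hhL hgeo hg hT hD1 hD2
  have hRω : Ws.K.Rω = K.Rω := by rw [hK]
  have hh0 : 0 < h := by linarith
  have hb0 : 0 < A.L / h := div_pos (by linarith) hh0
  have hD0 : 0 < D := lt_of_lt_of_le (Real.rpow_pos_of_pos hb0 _) hD1
  calc ∑ p ∈ flbPk A s' c h N Tb, flMom μ (flArr h pf) P p ^ bet n * ENNReal.ofReal (‖flbCf A s' c h N κ₀ p‖ ^ 2)
      ≤ ∑ p ∈ flbOcc A s' h ×ˢ Tb, flMom μ (flArr h pf) P p ^ bet n * ENNReal.ofReal (‖flbCf A s' c h N κ₀ p‖ ^ 2) := by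
        apply Finset.sum_le_sum_of_subset
        unfold flbPk
        exact Finset.filter_subset _ _
    _ = ∑ θ ∈ flbOcc A s' h, ∑ T ∈ Tb, flMom μ (flArr h pf) P (θ, T) ^ bet n * ENNReal.ofReal (‖flbCf A s' c h N κ₀ (θ, T)‖ ^ 2) := Finset.sum_product _ _ _
    _ ≤ ∑ θ ∈ flbOcc A s' h, ENNReal.ofReal (C * (m * h ^ (n + 1)) ^ bet n * (A.L / h) ^ (2 * (n : ℝ) / ((n : ℝ) + 1)) * D ^ (-cs) * energy (flbS A s' h θ) c) := by
        refine Finset.sum_le_sum fun θ hθ => ?_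
        exact hC ι A s' c μ m D h K θ Tb pf hA h0 hR hN hK hm hh hhL hgeo hg hT (by rw [hRω]; exact flb_bcen_norm hA hh hθ) hD1 hD2
    _ = ENNReal.ofReal (C * (m * h ^ (n + 1)) ^ bet n * (A.L / h) ^ (2 * (n : ℝ) / ((n : ℝ) + 1)) * D ^ (-cs) * energy s' c) := by
        rw [← ENNReal.ofReal_sum_of_nonneg, ← Finset.mul_sum, flb_energy_bins]
        intro θ _
        have h1 : 0 ≤ (m * h ^ (n + 1)) ^ bet n := Real.rpow_nonneg (by positivity) _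
        have h2 : 0 ≤ (A.L / h) ^ (2 * (n : ℝ) / ((n : ℝ) + 1)) := Real.rpow_nonneg hb0.le _
        have h3 : 0 ≤ D ^ (-cs) := Real.rpow_nonneg hD0.le _
        have h4 : 0 ≤ energy (flbS A s' h θ) c := Finset.sum_nonneg fun _ _ => by positivity
        positivity

/-! ## 5. EXIT -/

/-- **EXIT OF FL-B** -/
theorem flb_main (hn : 1 ≤ n) {W : WCon} {cs : ℝ} (hW : FlW n W) : SparseStmt n W cs → FlattenStmt n W cs := by
  intro hSp
  refine ⟨W.M + (n + 1) ^ 2, fun N P b τ hP hb hτ => ?_⟩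
  obtain ⟨Js, hJs⟩ := hSp τ hτ
  refine ⟨Js + N, fun Bp => ?_⟩
  obtain ⟨Cs, hCs⟩ := hJs ((1 + 3 * W.K.Rω + W.K.Rω ^ 2) ^ N * |Bp|)
  obtain ⟨Cψ, hCψ1, hcls⟩ := flb_cls hn N
  have hκ : 0 < Cψ / b := div_pos (by linarith) hb
  have hRK : Real.sqrt n ≤ (W.wJB (Js + N) Bp).K.Rω := hW.Rω
  have hNK : N ≤ (W.wJB (Js + N) Bp).K.J := Nat.le_add_left N Js
  obtain ⟨Cc, hCc0, hcrude⟩ := flb_crude n N (W.wJB (Js + N) Bp).K (Cψ / b) hRK hNK
  have hP2 : n + 2 ≤ P := by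
    have : n + 2 ≤ (n + 1) ^ 2 := by nlinarith
    omega
  obtain ⟨Cd, hCd0, hdmax⟩ := flb_dmax n P hP2 (W.K.Rω + Real.sqrt n)
  obtain ⟨Cw, hCw0, hwt⟩ := flb_weighted hn hCs N P hP (Cψ / b)
  have hTR : 0 < W.T₀ - W.K.R := by linarith [hW.RT]
  set Cg : ℝ := max 1 (1 / (W.T₀ - W.K.R)) with hCg
  have hCg1 : 1 ≤ Cg := le_max_left _ _
  refine ⟨Cg + Cc + Cd + Cw, ?_⟩
  intro ι A s' c μ m D h hA h0 hm hD hh hCh hg _hsl hT
  have hh0 : 0 < h := by linarith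
  have hb1 : Cg ≤ A.L / h := by
    rw [le_div_iff₀ hh0]
    have : Cg * h ≤ (Cg + Cc + Cd + Cw) * h := by
      apply mul_le_mul_of_nonneg_right _ hh0.le
      linarith
    linarith
  have hb1' : 1 ≤ A.L / h := hCg1.trans hb1
  have hhL : h ≤ A.L := by
    rw [le_div_iff₀ hh0] at hb1'
    linarith
  have hgeo : (W.wJB (Js + N) Bp).K.R * (A.L / h) ^ 2 + 1 ≤ (W.wJB Js ((1 + 3 * W.K.Rω + W.K.Rω ^ 2) ^ N * |Bp|)).T₀ * (A.L / h) ^ 2 := by
    show W.K.R * (A.L / h) ^ 2 + 1 ≤ W.T₀ * (A.L / h) ^ 2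
    have h1 : 1 / (W.T₀ - W.K.R) ≤ A.L / h := (le_max_right _ _).trans hb1
    rw [div_le_iff₀ hTR] at h1
    have h2 : A.L / h ≤ (A.L / h) ^ 2 := by nlinarith
    nlinarith
  have hK : (W.wJB Js ((1 + 3 * W.K.Rω + W.K.Rω ^ 2) ^ N * |Bp|)).K =
      { (W.wJB (Js + N) Bp).K with J := (W.wJB (Js + N) Bp).K.J - N, B := (1 + 3 * (W.wJB (Js + N) Bp).K.Rω + (W.wJB (Js + N) Bp).K.Rω ^ 2) ^ N * |(W.wJB (Js + N) Bp).K.B| } := by
    show ({ W.K with J := Js, B := (1 + 3 * W.K.Rω + W.K.Rω ^ 2) ^ N * |Bp| } : Cls) = { W.K with J := Js + N - N, B := (1 + 3 * W.K.Rω + W.K.Rω ^ 2) ^ N * |Bp| }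
    rw [Nat.add_sub_cancel]
  obtain ⟨Tb, hTb⟩ := flb_Tb hA h0 hRK hh hhL hNK c
  have hE : 0 ≤ energy s' c := Finset.sum_nonneg fun _ _ => by positivity
  have hbn : 0 ≤ A.L / h := by linarith
  refine ⟨flbPF A s' c h N (Cψ / b), flbCf A s' c h N (Cψ / b), flbPk A s' c h N Tb, ?_⟩
  refine ⟨hcls ι A s' c (W.wJB (Js + N) Bp).K h b Tb hA h0 hRK hh hhL hNK hb, fun z => flb_fld hA h0 hRK hh hhL hNK c hκ hTb z, flb_occ A s' c h N Tb, ?_, ?_, ?_⟩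
  · intro j
    refine (hcrude ι A s' c h Tb hA h0 hh hhL j).trans ?_
    have : 0 ≤ (A.L / h) ^ n * energy s' c := by positivity
    nlinarith
  · intro p hp
    obtain ⟨α, hα, hαp⟩ := flb_occ A s' c h N Tb p hp
    have hθ : p.1 ∈ flbOcc A s' h := by
      classical
      rw [← hαp]
      exact Finset.mem_image_of_mem _ hα
    refine (hdmax μ m h _ p hg hm hh (flb_bcen_norm hA hh hθ)).trans ?_
    apply ENNReal.ofReal_le_ofReal
    have : 0 ≤ m * h ^ (n + 1) := by positivity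
    nlinarith
  · intro hD1 hD2
    refine (hwt ι A s' c μ m D h (W.wJB (Js + N) Bp).K Tb _ hA h0 hRK hNK hK hm hh hhL hgeo hg hT hD1 hD2).trans ?_
    apply ENNReal.ofReal_le_ofReal
    have h1 : 0 ≤ (m * h ^ (n + 1)) ^ bet n := Real.rpow_nonneg (by positivity) _
    have h2 : 0 ≤ (A.L / h) ^ (2 * (n : ℝ) / ((n : ℝ) + 1)) := Real.rpow_nonneg hbn _
    have h3 : 0 ≤ D ^ (-cs) := Real.rpow_nonneg (by linarith) _
    have h4 : 0 ≤ (m * h ^ (n + 1)) ^ bet n * (A.L / h) ^ (2 * (n : ℝ) / ((n : ℝ) + 1)) * D ^ (-cs) * energy s' c := by positivity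
    have h5 : Cw ≤ Cg + Cc + Cd + Cw := by linarith
    calc Cw * (m * h ^ (n + 1)) ^ bet n * (A.L / h) ^ (2 * (n : ℝ) / ((n : ℝ) + 1)) * D ^ (-cs) * energy s' c
        = Cw * ((m * h ^ (n + 1)) ^ bet n * (A.L / h) ^ (2 * (n : ℝ) / ((n : ℝ) + 1)) * D ^ (-cs) * energy s' c) := by ring
      _ ≤ (Cg + Cc + Cd + Cw) * ((m * h ^ (n + 1)) ^ bet n * (A.L / h) ^ (2 * (n : ℝ) / ((n : ℝ) + 1)) * D ^ (-cs) * energy s' c) := mul_le_mul_of_nonneg_right h5 h4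
      _ = _ := by ring

end Claimed.Agent.R257
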