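import Claimed.Agent.R257.Fl.Defs
import Claimed.Agent.R257.Infra.Alg
import Claimed.Agent.R257.Infra.ArrB

/-!
# R257 / Fl / C1 : FL-C (flat frame), part 1: ADAPTED FRAMES, SLICES, TRANSLATIONS            (helper185)            -- CONTRACT: every `sorry` is a registered leaf `L-FLC-*`

Goal of FL-C (`Fl/C3.lean`): `flc_main : FrameStmt k → FlatFrameStmt k`.      Everything in this file is PAPER FREE (Mathlib + `Infra/Defs`, `Infra/Alg`, `Infra/ArrB`, `Frame/Stmt`).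
RULE FOR PROVERS: prove IN PLACE, statement verbatim, helper lemmas with the prefix `flc_` directly above the theorem; report a false statement to helper185 at once.

Notation: `n = k + 1`, `e` unit vector of `E n`, `em : E k →ₗᵢ E n` isometric embedding onto `e^⊥`, `Pr : E n →ₗ E k` the coordinates of the projection to `e^⊥`:  `x = em (Pr x) + ⟪e,x⟫ e`.
A packet `(h, w, y, τ, φ)` of dimension `n` with `γ = h ⟪e,w⟫` bounded (`|γ| ≤ C₂`: FLAT), restricted to the hyperplane `{⟪e,x⟫ = a}`, is a packet of dimension `k`: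
frequency `Pr w`, intercept `Pr y`, centre `τ`, profile `flcPf γ c₀ φ (X',s) = e^{-iγ²s} φ(em X' + (c₀ - 2γs) e, s)`, `c₀ = flcOff = (a - ⟪e,y⟫)/h - 2γτ`, times `h^{-1/2} e^{i(a⟪e,w⟫ - γ²τ)}`.
-/

set_option autoImplicit false

namespace Claimed.Agent.R257

open MeasureTheory Metric Set
open scoped ENNReal InnerProductSpace

variable {k n : ℕ} {ι : Type}

/-! ## 1. adapted frames -/

/-- `(em, Pr)` is an adapted frame of the unit vector `e` -/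
structure FlcFr (e : E (k + 1)) (em : E k →ₗᵢ[ℝ] E (k + 1)) (Pr : E (k + 1) →ₗ[ℝ] E k) : Prop where
  unit : ‖e‖ = 1
  perp : ∀ x, ⟪e, em x⟫_ℝ = 0
  dec : ∀ x, em (Pr x) + ⟪e, x⟫_ℝ • e = x

/-- L-FLC-FR-EX (~80 l.).   PLAN: `S = (ℝ ∙ e)ᗮ`, `finrank S = k` (`Submodule.finrank_orthogonal_span_singleton` with `Fact (finrank ℝ (E (k+1)) = k + 1)`, `finrank_euclideanSpace_fin`);  `b = (stdOrthonormalBasis ℝ S).reindex (finCongr _)`;
`em = S.subtypeₗᵢ.comp b.repr.symm.toLinearIsometry`,  `Pr = b.repr.toLinearMap ∘ₗ (S.orthogonalProjection).toLinearMap`.   `perp`: `em x ∈ S` (`Submodule.mem_orthogonal_singleton_iff_inner_right`).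
`dec`: `x - ⟪e,x⟫ e ∈ S` and it is the projection (`Submodule.eq_orthogonalProjection_of_mem_of_inner_eq_zero` / `Submodule.starProjection_orthogonal...`, `Submodule.starProjection_unit_singleton`). -/
theorem flc_fr_exists (e : E (k + 1)) (he : ‖e‖ = 1) : ∃ (em : E k →ₗᵢ[ℝ] E (k + 1)) (Pr : E (k + 1) →ₗ[ℝ] E k), FlcFr e em Pr := by
  have he0 : e ≠ 0 := by
    intro h
    rw [h, norm_zero] at he
    exact zero_ne_one he
  have : Fact (Module.finrank ℝ (E (k + 1)) = k + 1) := ⟨finrank_euclideanSpace_fin⟩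
  have hfin : Module.finrank ℝ (ℝ ∙ e)ᗮ = k := Submodule.finrank_orthogonal_span_singleton he0
  let b : OrthonormalBasis (Fin k) ℝ (ℝ ∙ e)ᗮ := (stdOrthonormalBasis ℝ (ℝ ∙ e)ᗮ).reindex (finCongr hfin)
  refine ⟨(ℝ ∙ e)ᗮ.subtypeₗᵢ.comp b.repr.symm.toLinearIsometry,
    b.repr.toLinearEquiv.toLinearMap ∘ₗ ((ℝ ∙ e)ᗮ.orthogonalProjectionOnto).toLinearMap, he, fun x => ?_, fun x => ?_⟩
  · have : ((b.repr.symm x : (ℝ ∙ e)ᗮ) : E (k + 1)) ∈ (ℝ ∙ e)ᗮ := (b.repr.symm x).2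
    exact Submodule.mem_orthogonal_singleton_iff_inner_right.1 this
  · have h1 : ((ℝ ∙ e)ᗮ.subtypeₗᵢ.comp b.repr.symm.toLinearIsometry)
        ((b.repr.toLinearEquiv.toLinearMap ∘ₗ ((ℝ ∙ e)ᗮ.orthogonalProjectionOnto).toLinearMap) x)
        = (((ℝ ∙ e)ᗮ.orthogonalProjectionOnto x : (ℝ ∙ e)ᗮ) : E (k + 1)) := by
      simp
    rw [h1, Submodule.orthogonalProjectionOnto_orthogonal]
    simp only []
    rw [Submodule.starProjection_unit_singleton ℝ he]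
    abel

section frame
variable {e : E (k + 1)} {em : E k →ₗᵢ[ℝ] E (k + 1)} {Pr : E (k + 1) →ₗ[ℝ] E k}

/-- L-FLC-FR-API (the ten statements `flc_fr_*` below, ~150 l. together).   `⟪e, em x + a e⟫ = a` -/
theorem flc_fr_inner_e (hF : FlcFr e em Pr) (x : E k) (a : ℝ) : ⟪e, em x + a • e⟫_ℝ = a := by
  rw [inner_add_right, hF.perp, inner_smul_right, real_inner_self_eq_norm_sq, hF.unit]
  ring

/-- L-FLC-FR-API.   apply `dec` to `em x + a e`, use `flc_fr_inner_e` and the injectivity of `em` -/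
theorem flc_fr_pr_pt (hF : FlcFr e em Pr) (x : E k) (a : ℝ) : Pr (em x + a • e) = x := by
  have h := hF.dec (em x + a • e)
  rw [flc_fr_inner_e hF] at h
  exact em.injective (add_right_cancel h)

/-- L-FLC-FR-API -/
theorem flc_fr_pr_e (hF : FlcFr e em Pr) : Pr e = 0 := by
  have h := flc_fr_pr_pt hF 0 1
  simpa using h

/-- L-FLC-FR-API -/
theorem flc_fr_inner (hF : FlcFr e em Pr) (x x' : E k) (a a' : ℝ) : ⟪em x + a • e, em x' + a' • e⟫_ℝ = ⟪x, x'⟫_ℝ + a * a' := by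
  have h1 : ⟪em x, e⟫_ℝ = 0 := by
    rw [real_inner_comm]
    exact hF.perp x
  rw [inner_add_left, inner_add_right, inner_add_right, em.inner_map_map, inner_smul_left, inner_smul_right, inner_smul_right,
    inner_smul_left, hF.perp, h1, real_inner_self_eq_norm_sq, hF.unit]
  simp only [conj_trivial]
  ring

/-- L-FLC-FR-API -/
theorem flc_fr_norm_sq (hF : FlcFr e em Pr) (x : E k) (a : ℝ) : ‖em x + a • e‖ ^ 2 = ‖x‖ ^ 2 + a ^ 2 := by
  rw [← real_inner_self_eq_norm_sq, flc_fr_inner hF, real_inner_self_eq_norm_sq]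
  ring

/-- L-FLC-FR-API -/
theorem flc_fr_norm_le (hF : FlcFr e em Pr) (x : E k) (a : ℝ) : ‖em x + a • e‖ ≤ ‖x‖ + |a| := by
  refine (norm_add_le _ _).trans ?_
  rw [em.norm_map, norm_smul, hF.unit, mul_one, Real.norm_eq_abs]

/-- L-FLC-FR-API -/
theorem flc_fr_le_norm (hF : FlcFr e em Pr) (x : E k) (a : ℝ) : ‖x‖ ≤ ‖em x + a • e‖ ∧ |a| ≤ ‖em x + a • e‖ := by
  have h := flc_fr_norm_sq hF x a
  constructor
  · refine (le_abs_self _).trans (abs_le_of_sq_le_sq ?_ (norm_nonneg _))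
    nlinarith [sq_nonneg a]
  · refine abs_le_of_sq_le_sq ?_ (norm_nonneg _)
    nlinarith [sq_nonneg ‖x‖]

/-- L-FLC-FR-API -/
theorem flc_fr_pr_norm (hF : FlcFr e em Pr) (y : E (k + 1)) : ‖Pr y‖ ≤ ‖y‖ := by
  have h := (flc_fr_le_norm hF (Pr y) ⟪e, y⟫_ℝ).1
  rwa [hF.dec] at h

/-- L-FLC-FR-API -/
theorem flc_fr_flPr (hF : FlcFr e em Pr) (y : E (k + 1)) : em (Pr y) = flPr e y := by
  exact eq_sub_of_add_eq (hF.dec y)

/-- L-FLC-FR-API.   `TransvF` (projections to `e^⊥`, dimension `k+1`) gives `Transv` (coordinates, dimension `k`); a common shift `v ∈ ℝ e` of the frequencies is invisible.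
`‖∑ t_i Pr(ξ_i - b e)‖ = ‖Pr (∑ t_i ξ_i)‖ = ‖em (Pr …)‖ = ‖flPr e (∑ t_i ξ_i)‖ = ‖∑ t_i flPr e ξ_i‖` (`flPr e` is additive and homogeneous: unfold, `inner_sum`, `inner_smul_right`). -/
theorem flc_fr_transv (hF : FlcFr e em Pr) {Q : ℝ} {ξ : Fin (k + 1) → E (k + 1)} (h : TransvF Q e ξ) (b : ℝ) :
    Transv Q (fun i => Pr (ξ i - b • e)) := by
  intro t
  have h1 := h t
  have h2 : ‖∑ i, t i • Pr (ξ i - b • e)‖ = ‖∑ i, t i • flPr e (ξ i)‖ := by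
    rw [← em.norm_map, map_sum]
    congr 1
    refine Finset.sum_congr rfl fun i _ => ?_
    rw [map_smul, map_sub, map_smul, flc_fr_pr_e hF, smul_zero, sub_zero, flc_fr_flPr hF]
  rw [h2]
  exact h1

end frame

/-- the point with the adapted coordinates `(p; a)`:  `(em x' + a e, t)` -/
noncomputable def flcPt (em : E k →ₗᵢ[ℝ] E (k + 1)) (e : E (k + 1)) (p : ST k) (a : ℝ) : ST (k + 1) := (em p.1 + a • e, p.2)

/-! ## 2. slices -/

/-- the normalised normal frequency `γ = h ⟪e, w⟫` -/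
noncomputable def flcGa (e : E n) (G : Arr n ι) (α : ι) : ℝ := G.L * ⟪e, G.om α⟫_ℝ

/-- the normal offset `c₀ = (a - ⟪e,y⟫)/h - 2γτ` of the packet `α` relative to the level `a` -/
noncomputable def flcOff (e : E n) (G : Arr n ι) (a : ℝ) (α : ι) : ℝ := (a - ⟪e, G.y α⟫_ℝ) / G.L - 2 * flcGa e G α * G.tc α

/-- the sliced profile -/
noncomputable def flcPf (em : E k →ₗᵢ[ℝ] E (k + 1)) (e : E (k + 1)) (γ c₀ : ℝ) (φ : ST (k + 1) → ℂ) (X : ST k) : ℂ :=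
  Complex.exp (-(Complex.I * ((γ ^ 2 * X.2 : ℝ) : ℂ))) * φ (em X.1 + (c₀ - 2 * γ * X.2) • e, X.2)

/-- the slice of the array `G` at the level `a` -/
noncomputable def flcSl (em : E k →ₗᵢ[ℝ] E (k + 1)) (Pr : E (k + 1) →ₗ[ℝ] E k) (e : E (k + 1)) (G : Arr (k + 1) ι) (a : ℝ) : Arr k ι where
  L := G.L
  om α := Pr (G.om α)
  y α := Pr (G.y α)
  tc := G.tc
  pf α := flcPf em e (flcGa e G α) (flcOff e G a α) (G.pf α)

/-- the coefficients of the slice -/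
noncomputable def flcCf (e : E n) (G : Arr n ι) (cf : ι → ℂ) (a : ℝ) (α : ι) : ℂ :=
  cf α * (((G.L ^ (-(1 / 2 : ℝ)) : ℝ) : ℂ) * Complex.exp (Complex.I * ((a * ⟪e, G.om α⟫_ℝ - flcGa e G α ^ 2 * G.tc α : ℝ) : ℂ)))

open Classical in
/-- the labels which can meet the level `a` -/
noncomputable def flcLab (e : E n) (G : Arr n ι) (s : Finset ι) (r a : ℝ) : Finset ι := s.filter fun α => |flcOff e G a α| ≤ r

theorem flc_mem_lab (e : E n) (G : Arr n ι) (s : Finset ι) (r a : ℝ) (α : ι) : α ∈ flcLab e G s r a ↔ α ∈ s ∧ |flcOff e G a α| ≤ r := by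
  classical
  unfold flcLab
  rw [Finset.mem_filter]

section slice
variable {e : E (k + 1)} {em : E k →ₗᵢ[ℝ] E (k + 1)} {Pr : E (k + 1) →ₗ[ℝ] E k}

/-- L-FLC-SL-CHART (~60 l.).   Write `y = em (Pr y) + ⟪e,y⟫ e`, `w = em (Pr w) + ⟪e,w⟫ e` (`hF.dec`, rewrite from right to left ONLY in the left side), `map_sub`, `map_smul`; normal component:
`h⁻¹ (a - ⟪e,y⟫ - 2 t ⟪e,w⟫) = c₀ - 2γ (t/h² - τ)` (`field_simp; ring`). -/
theorem flc_sl_chart (hF : FlcFr e em Pr) (G : Arr (k + 1) ι) (hL : G.L ≠ 0) (a : ℝ) (α : ι) (p : ST k) :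
    chart G.L (G.om α) (G.y α) (G.tc α) (flcPt em e p a) =
      (em (chart G.L (Pr (G.om α)) (Pr (G.y α)) (G.tc α) p).1
        + (flcOff e G a α - 2 * flcGa e G α * (chart G.L (Pr (G.om α)) (Pr (G.y α)) (G.tc α) p).2) • e,
       (chart G.L (Pr (G.om α)) (Pr (G.y α)) (G.tc α) p).2) := by
  obtain ⟨ya, hya⟩ : ∃ ya, ya = ⟪e, G.y α⟫_ℝ := ⟨_, rfl⟩
  obtain ⟨wa, hwa⟩ : ∃ wa, wa = ⟪e, G.om α⟫_ℝ := ⟨_, rfl⟩
  have hy : G.y α = em (Pr (G.y α)) + ya • e := by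
    rw [hya]
    exact (hF.dec _).symm
  have hw : G.om α = em (Pr (G.om α)) + wa • e := by
    rw [hwa]
    exact (hF.dec _).symm
  unfold chart flcPt flcOff flcGa
  rw [← hya, ← hwa]
  refine Prod.ext ?_ rfl
  simp only []
  conv_lhs => rw [hy, hw]
  simp only [map_smul, map_sub]
  have h1 : (a - ya) / G.L - 2 * (G.L * wa) * G.tc α - 2 * (G.L * wa) * (p.2 / G.L ^ 2 - G.tc α) = G.L⁻¹ * (a - ya - 2 * p.2 * wa) := by
    field_simp
    ring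
  rw [h1]
  module

/-- L-FLC-SL-CAR (~40 l.).   `⟪em x' + a e, w⟫ = ⟪x', Pr w⟫ + a ⟪e,w⟫`, `‖w‖² = ‖Pr w‖² + ⟪e,w⟫²` (`flc_fr_inner`, `flc_fr_norm_sq` after `hF.dec w`), `Complex.exp_add`. -/
theorem flc_sl_car (hF : FlcFr e em Pr) (w : E (k + 1)) (a : ℝ) (p : ST k) :
    car w (flcPt em e p a) = car (Pr w) p * Complex.exp (Complex.I * ((a * ⟪e, w⟫_ℝ - p.2 * ⟪e, w⟫_ℝ ^ 2 : ℝ) : ℂ)) := by
  obtain ⟨wa, hwa⟩ : ∃ wa, wa = ⟪e, w⟫_ℝ := ⟨_, rfl⟩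
  have hw : w = em (Pr w) + wa • e := by
    rw [hwa]
    exact (hF.dec _).symm
  rw [← hwa]
  unfold car flcPt
  rw [← Complex.exp_add, ← mul_add, ← Complex.ofReal_add]
  congr 3
  simp only []
  conv_lhs => rw [hw]
  rw [flc_fr_inner hF, flc_fr_norm_sq hF]
  ring

/-- L-FLC-SL-ATOM (~80 l.).   **The slice identity.**   `flc_sl_chart`, `flc_sl_car`;   `h^{-(k+1)/2} = h^{-1/2} h^{-k/2}` (`Real.rpow_add`, `push_cast`);   with `s = t/h² - τ`:  `t ⟪e,w⟫² = γ² s + γ² τ` (`field_simp`), so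
`e^{i(a⟪e,w⟫ - t⟪e,w⟫²)} = e^{i(a⟪e,w⟫ - γ²τ)} e^{-iγ² s}` (`← Complex.exp_add`, `congr 1`, `push_cast`, `ring`). -/
theorem flc_sl_atom (hF : FlcFr e em Pr) (G : Arr (k + 1) ι) (hL : 0 < G.L) (a : ℝ) (α : ι) (p : ST k) :
    G.atom α (flcPt em e p a) =
      (((G.L ^ (-(1 / 2 : ℝ)) : ℝ) : ℂ) * Complex.exp (Complex.I * ((a * ⟪e, G.om α⟫_ℝ - flcGa e G α ^ 2 * G.tc α : ℝ) : ℂ)))
        * (flcSl em Pr e G a).atom α p := by
  unfold Arr.atom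
  rw [flc_sl_chart hF G hL.ne', flc_sl_car hF]
  show _ = _ * (((G.L ^ (-(k : ℝ) / 2) : ℝ) : ℂ) * car (Pr (G.om α)) p * flcPf em e (flcGa e G α) (flcOff e G a α) (G.pf α) (chart G.L (Pr (G.om α)) (Pr (G.y α)) (G.tc α) p))
  unfold flcPf
  have h1 : ((G.L ^ (-((k + 1 : ℕ) : ℝ) / 2) : ℝ) : ℂ) = ((G.L ^ (-(1 / 2 : ℝ)) : ℝ) : ℂ) * ((G.L ^ (-(k : ℝ) / 2) : ℝ) : ℂ) := by
    rw [← Complex.ofReal_mul, ← Real.rpow_add hL]
    congr 2
    push_cast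
    ring
  have h2 : Complex.exp (Complex.I * ((a * ⟪e, G.om α⟫_ℝ - p.2 * ⟪e, G.om α⟫_ℝ ^ 2 : ℝ) : ℂ))
      = Complex.exp (Complex.I * ((a * ⟪e, G.om α⟫_ℝ - flcGa e G α ^ 2 * G.tc α : ℝ) : ℂ))
        * Complex.exp (-(Complex.I * ((flcGa e G α ^ 2 * (chart G.L (Pr (G.om α)) (Pr (G.y α)) (G.tc α) p).2 : ℝ) : ℂ))) := by
    rw [← Complex.exp_add, ← mul_neg, ← mul_add, ← Complex.ofReal_neg, ← Complex.ofReal_add]
    congr 3
    unfold flcGa chart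
    simp only []
    field_simp
    ring
  rw [h1, h2]
  ring

/-- L-FLC-PF-ZERO (~40 l.).   If the value is not `0` then `‖(em X' + (c₀ - 2γs) e, s)‖ ≤ R`, so `|s| ≤ R` and `|c₀ - 2γs| ≤ R` (`flc_fr_le_norm`, `norm_fst_le`, `norm_snd_le`): `|c₀| ≤ R + 2 C₂ R`. -/
theorem flc_pf_zero (hF : FlcFr e em Pr) {φ : ST (k + 1) → ℂ} {R γ c₀ C₂ : ℝ} (hs : ∀ z, φ z ≠ 0 → ‖z‖ ≤ R) (hγ : |γ| ≤ C₂)
    (hc : R * (1 + 2 * C₂) < |c₀|) (X : ST k) : flcPf em e γ c₀ φ X = 0 := by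
  unfold flcPf
  by_contra hne
  have h1 : φ (em X.1 + (c₀ - 2 * γ * X.2) • e, X.2) ≠ 0 := fun h => hne (by rw [h, mul_zero])
  have h2 := hs _ h1
  have h3 : |X.2| ≤ R := (norm_snd_le (em X.1 + (c₀ - 2 * γ * X.2) • e, X.2)).trans h2
  have h4 : |c₀ - 2 * γ * X.2| ≤ R :=
    ((flc_fr_le_norm hF X.1 (c₀ - 2 * γ * X.2)).2.trans (norm_fst_le (em X.1 + (c₀ - 2 * γ * X.2) • e, X.2))).trans h2
  have h5 : |c₀| ≤ |c₀ - 2 * γ * X.2| + |2 * γ * X.2| := by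
    have := abs_add_le (c₀ - 2 * γ * X.2) (2 * γ * X.2)
    simpa using this
  have h6 : |2 * γ * X.2| ≤ 2 * C₂ * R := by
    rw [abs_mul, abs_mul, abs_two]
    have hR : 0 ≤ R := (abs_nonneg _).trans h3
    have hC : 0 ≤ C₂ := (abs_nonneg _).trans hγ
    gcongr
  nlinarith

/-- L-FLC-SL-FLD (~60 l.).   **The field on a hyperplane is the field of the slice.**   `flc_sl_atom` termwise; the labels of `s` outside `flcLab` have the atom `0` (`flc_pf_zero`; `Finset.sum_subset`). -/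
theorem flc_sl_fld (hF : FlcFr e em Pr) (G : Arr (k + 1) ι) (hL : 0 < G.L) (s : Finset ι) (cf : ι → ℂ) {R C₂ r : ℝ}
    (hs : ∀ α ∈ s, ∀ z, G.pf α z ≠ 0 → ‖z‖ ≤ R) (hfl : ∀ α ∈ s, |flcGa e G α| ≤ C₂) (hr : R * (1 + 2 * C₂) ≤ r) (a : ℝ) (p : ST k) :
    G.fld s cf (flcPt em e p a) = (flcSl em Pr e G a).fld (flcLab e G s r a) (flcCf e G cf a) p := by
  unfold Arr.fld
  have hsub : flcLab e G s r a ⊆ s := fun α hα => ((flc_mem_lab e G s r a α).1 hα).1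
  have key : ∀ α ∈ s, cf α * G.atom α (flcPt em e p a) = flcCf e G cf a α * (flcSl em Pr e G a).atom α p := by
    intro α _
    rw [flc_sl_atom hF G hL]
    unfold flcCf
    ring
  rw [Finset.sum_congr rfl key]
  symm
  refine Finset.sum_subset hsub fun α hα hn => ?_
  have h1 : r < |flcOff e G a α| := by
    by_contra h
    exact hn ((flc_mem_lab e G s r a α).2 ⟨hα, not_lt.1 h⟩)
  have h2 : (flcSl em Pr e G a).atom α p = 0 := by
    unfold Arr.atom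
    show _ * flcPf em e (flcGa e G α) (flcOff e G a α) (G.pf α) _ = 0
    rw [flc_pf_zero hF (hs α hα) (hfl α hα) (lt_of_le_of_lt hr h1), mul_zero]
  rw [h2, mul_zero]

/-- derivatives of `f ∘ (affine map)` -/
theorem flc_pf_comp_aff {V W F : Type*} [NormedAddCommGroup V] [NormedSpace ℝ V] [NormedAddCommGroup W] [NormedSpace ℝ W] [NormedAddCommGroup F] [NormedSpace ℝ F]
    (Λ : V →L[ℝ] W) (c : W) {f : W → F} (hf : ContDiff ℝ (⊤ : ℕ∞) f) (j : ℕ) (x : V) :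
    ContDiff ℝ (⊤ : ℕ∞) (fun x : V => f (Λ x + c)) ∧
    ‖iteratedFDeriv ℝ j (fun x : V => f (Λ x + c)) x‖ ≤ ‖Λ‖ ^ j * ‖iteratedFDeriv ℝ j f (Λ x + c)‖ := by
  have hfc : ContDiff ℝ (⊤ : ℕ∞) (fun z : W => f (z + c)) := hf.comp (contDiff_id.add contDiff_const)
  refine ⟨hfc.comp Λ.contDiff, ?_⟩
  have e : (fun x : V => f (Λ x + c)) = (fun z : W => f (z + c)) ∘ Λ := rfl
  rw [e, Λ.iteratedFDeriv_comp_right hfc x (i := j) (by exact_mod_cast le_top), iteratedFDeriv_comp_add_right]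
  refine (ContinuousMultilinearMap.norm_compContinuousLinearMap_le _ _).trans ?_
  rw [Finset.prod_const, Finset.card_univ, Fintype.card_fin, mul_comm]

/-- L-FLC-PF-EXP (~100 l.).   Derivatives of the factor `E(X) = e^{-iγ² X.2}`:   `E = g ∘ snd`, `g(s) = e^{cs}`, `c = -iγ²`.   `ContinuousLinearMap.iteratedFDeriv_comp_right` + `ContinuousMultilinearMap.norm_compContinuousLinearMap_le` (`‖snd‖ ≤ 1`),
`norm_iteratedFDeriv_eq_norm_iteratedDeriv`, `iteratedDeriv g j s = c^j e^{cs}` (induction, `iteratedDeriv_succ`), `‖e^{cs}‖ = 1` (`Complex.norm_exp_ofReal_mul_I` after commuting).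
ALTERNATIVE: induction on `j` with `fderiv E = (c E) • snd`. -/
theorem flc_pf_exp (γ : ℝ) (j : ℕ) (X : ST k) :
    ContDiff ℝ (⊤ : ℕ∞) (fun X : ST k => Complex.exp (-(Complex.I * ((γ ^ 2 * X.2 : ℝ) : ℂ)))) ∧
    ‖iteratedFDeriv ℝ j (fun X : ST k => Complex.exp (-(Complex.I * ((γ ^ 2 * X.2 : ℝ) : ℂ)))) X‖ ≤ (γ ^ 2) ^ j := by
  have hd : ∀ s : ℝ, HasDerivAt (fun s : ℝ => Complex.exp (-(Complex.I * ((γ ^ 2 * s : ℝ) : ℂ))))
      ((-(Complex.I * ((γ ^ 2 : ℝ) : ℂ))) * Complex.exp (-(Complex.I * ((γ ^ 2 * s : ℝ) : ℂ)))) s := by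
    intro s
    have h1 : HasDerivAt (fun s : ℝ => γ ^ 2 * s) (γ ^ 2) s := by simpa using (hasDerivAt_id s).const_mul (γ ^ 2)
    have h2 := ((h1.ofReal_comp.const_mul Complex.I).neg).cexp
    rw [mul_comm] at h2
    exact h2
  have hit : ∀ j : ℕ, iteratedDeriv j (fun s : ℝ => Complex.exp (-(Complex.I * ((γ ^ 2 * s : ℝ) : ℂ))))
      = fun s : ℝ => (-(Complex.I * ((γ ^ 2 : ℝ) : ℂ))) ^ j * Complex.exp (-(Complex.I * ((γ ^ 2 * s : ℝ) : ℂ))) := by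
    intro j
    induction j with
    | zero => simp
    | succ j ih =>
        rw [iteratedDeriv_succ, ih]
        funext s
        rw [((hd s).const_mul _).deriv]
        ring
  have hg : ContDiff ℝ (⊤ : ℕ∞) (fun s : ℝ => Complex.exp (-(Complex.I * ((γ ^ 2 * s : ℝ) : ℂ)))) := by
    refine ContDiff.cexp (ContDiff.neg (contDiff_const.mul ?_))
    exact Complex.ofRealCLM.contDiff.comp (contDiff_const.mul contDiff_id)
  have h := flc_pf_comp_aff (ContinuousLinearMap.snd ℝ (E k) ℝ) 0 hg j X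
  simp only [add_zero, ContinuousLinearMap.coe_snd'] at h
  refine ⟨h.1, h.2.trans ?_⟩
  rw [norm_iteratedFDeriv_eq_norm_iteratedDeriv, hit]
  have e1 : ‖Complex.exp (-(Complex.I * ((γ ^ 2 * X.2 : ℝ) : ℂ)))‖ = 1 := by
    have : -(Complex.I * ((γ ^ 2 * X.2 : ℝ) : ℂ)) = ((-(γ ^ 2 * X.2) : ℝ) : ℂ) * Complex.I := by
      push_cast
      ring
    rw [this, Complex.norm_exp_ofReal_mul_I]
  have e2 : ‖-(Complex.I * ((γ ^ 2 : ℝ) : ℂ))‖ = γ ^ 2 := by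
    rw [norm_neg, norm_mul, Complex.norm_I, one_mul, Complex.norm_real, Real.norm_eq_abs, abs_of_nonneg (by positivity)]
  rw [norm_mul, norm_pow, e1, e2, mul_one]
  have h3 : ‖ContinuousLinearMap.snd ℝ (E k) ℝ‖ ^ j ≤ 1 := pow_le_one₀ (norm_nonneg _) (ContinuousLinearMap.norm_snd_le _ _ _)
  calc _ ≤ 1 * (γ ^ 2) ^ j := mul_le_mul_of_nonneg_right h3 (by positivity)
    _ = _ := one_mul _

/-- L-FLC-PF-AFF (~120 l.).   Derivatives of `φ ∘ (affine map)`:   `Λ(X) = (em X.1 - (2γ X.2) e, X.2)` is a continuous linear map of norm `≤ 1 + 2|γ|` (sup norm of the products; `LinearMap.mkContinuous`), the map is `X ↦ Λ X + (c₀ e, 0)`.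
`iteratedFDeriv_comp_add_right` (translation), `ContinuousLinearMap.iteratedFDeriv_comp_right`, `ContinuousMultilinearMap.norm_compContinuousLinearMap_le`, `Finset.prod_const`. -/
theorem flc_pf_aff (hF : FlcFr e em Pr) {φ : ST (k + 1) → ℂ} (hφ : ContDiff ℝ (⊤ : ℕ∞) φ) (γ c₀ : ℝ) (j : ℕ) {B : ℝ} (hB : ∀ z, ‖iteratedFDeriv ℝ j φ z‖ ≤ B) (X : ST k) :
    ContDiff ℝ (⊤ : ℕ∞) (fun X : ST k => φ (em X.1 + (c₀ - 2 * γ * X.2) • e, X.2)) ∧
    ‖iteratedFDeriv ℝ j (fun X : ST k => φ (em X.1 + (c₀ - 2 * γ * X.2) • e, X.2)) X‖ ≤ (1 + 2 * |γ|) ^ j * B := by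
  obtain ⟨Λ, hΛ⟩ : ∃ Λ : ST k →L[ℝ] ST (k + 1), ∀ X : ST k, Λ X = (em X.1 - (2 * γ * X.2) • e, X.2) :=
    ⟨((em.toContinuousLinearMap.comp (ContinuousLinearMap.fst ℝ (E k) ℝ)) - (2 * γ) • ((ContinuousLinearMap.snd ℝ (E k) ℝ).smulRight e)).prod
      (ContinuousLinearMap.snd ℝ (E k) ℝ), fun X => by
        ext1
        · simp [mul_smul]
        · simp⟩
  have hn : ‖Λ‖ ≤ 1 + 2 * |γ| := by
    refine ContinuousLinearMap.opNorm_le_bound _ (by positivity) fun X => ?_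
    have h1 : ‖X.1‖ ≤ ‖X‖ := norm_fst_le X
    have h2 : |X.2| ≤ ‖X‖ := by
      rw [← Real.norm_eq_abs]
      exact norm_snd_le X
    have hg : 0 ≤ |γ| := abs_nonneg γ
    rw [hΛ, Prod.norm_def]
    refine max_le ?_ ?_
    · show ‖em X.1 - (2 * γ * X.2) • e‖ ≤ _
      calc ‖em X.1 - (2 * γ * X.2) • e‖ ≤ ‖em X.1‖ + ‖(2 * γ * X.2) • e‖ := norm_sub_le _ _
        _ = ‖X.1‖ + 2 * |γ| * |X.2| := by
            rw [em.norm_map, norm_smul, hF.unit, mul_one, Real.norm_eq_abs, abs_mul, abs_mul, abs_of_pos (by norm_num : (0 : ℝ) < 2)]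
        _ ≤ ‖X‖ + 2 * |γ| * ‖X‖ := add_le_add h1 (mul_le_mul_of_nonneg_left h2 (by positivity))
        _ = _ := by ring
    · show ‖X.2‖ ≤ _
      rw [Real.norm_eq_abs]
      nlinarith [norm_nonneg X]
  have e1 : (fun X : ST k => φ (em X.1 + (c₀ - 2 * γ * X.2) • e, X.2)) = fun X : ST k => φ (Λ X + ((c₀ • e, (0 : ℝ)) : ST (k + 1))) := by
    funext X
    congr 1
    rw [hΛ]
    ext1
    · show em X.1 + (c₀ - 2 * γ * X.2) • e = em X.1 - (2 * γ * X.2) • e + c₀ • e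
      rw [sub_smul]
      abel
    · simp
  have h := flc_pf_comp_aff Λ ((c₀ • e, (0 : ℝ)) : ST (k + 1)) hφ j X
  rw [e1]
  refine ⟨h.1, h.2.trans ?_⟩
  exact mul_le_mul (pow_le_pow_left₀ (norm_nonneg _) hn j) (hB _) (norm_nonneg _) (by positivity)

/-- L-FLC-PF-PROF (~120 l.).   **The class of the sliced profile.**   smooth: product of `flc_pf_exp`, `flc_pf_aff`.   support: `‖X.1‖ ≤ ‖em X.1 + … e‖` (`flc_fr_le_norm`), sup norm.
bound: `norm_iteratedFDeriv_mul_le`:  `‖D^j(E ψ)‖ ≤ ∑_{i ≤ j} C(j,i) (γ²)^i (1+2|γ|)^{j-i} B = (γ² + 1 + 2|γ|)^j B = (1+|γ|)^{2j} B ≤ (1+C₂)^{2J} B` (`add_pow`, `Finset.sum_range_succ`-free: `(add_pow _ _ j).symm`; `pow_le_pow_right₀`). -/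
theorem flc_pf_prof (hF : FlcFr e em Pr) {φ : ST (k + 1) → ℂ} {J : ℕ} {R B γ C₂ : ℝ} (hφ : Prof J R B φ) (hγ : |γ| ≤ C₂) (c₀ : ℝ) :
    Prof J R ((1 + C₂) ^ (2 * J) * B) (flcPf em e γ c₀ φ) := by
  have hB0 : 0 ≤ B := (norm_nonneg _).trans (hφ.bound 0 (Nat.zero_le _) 0)
  have hg0 : 0 ≤ |γ| := abs_nonneg γ
  have sE := (flc_pf_exp (k := k) γ 0 0).1
  have sA := (flc_pf_aff hF hφ.smooth γ c₀ 0 (hφ.bound 0 (Nat.zero_le _)) 0).1
  refine ⟨sE.mul sA, fun X hX => ?_, fun j hj X => ?_⟩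
  · have h1 : φ (em X.1 + (c₀ - 2 * γ * X.2) • e, X.2) ≠ 0 := right_ne_zero_of_mul hX
    have h2 := hφ.supp _ h1
    have h3 : ‖em X.1 + (c₀ - 2 * γ * X.2) • e‖ ≤ R := (norm_fst_le ((em X.1 + (c₀ - 2 * γ * X.2) • e, X.2) : ST (k + 1))).trans h2
    have h4 : ‖X.2‖ ≤ R := (norm_snd_le ((em X.1 + (c₀ - 2 * γ * X.2) • e, X.2) : ST (k + 1))).trans h2
    rw [Prod.norm_def]
    exact max_le ((flc_fr_le_norm hF _ _).1.trans h3) h4
  · have h := norm_iteratedFDeriv_mul_le sE sA X (n := j) (by exact_mod_cast le_top)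
    unfold flcPf
    refine h.trans ?_
    have h1 : ∀ i ∈ Finset.range (j + 1), (j.choose i : ℝ) * ‖iteratedFDeriv ℝ i (fun X : ST k => Complex.exp (-(Complex.I * ((γ ^ 2 * X.2 : ℝ) : ℂ)))) X‖
        * ‖iteratedFDeriv ℝ (j - i) (fun X : ST k => φ (em X.1 + (c₀ - 2 * γ * X.2) • e, X.2)) X‖
        ≤ ((γ ^ 2) ^ i * (1 + 2 * |γ|) ^ (j - i) * (j.choose i : ℝ)) * B := by
      intro i _
      have a1 := (flc_pf_exp (k := k) γ i X).2
      have a2 := (flc_pf_aff hF hφ.smooth γ c₀ (j - i) (hφ.bound (j - i) ((Nat.sub_le _ _).trans hj)) X).2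
      calc _ ≤ (j.choose i : ℝ) * (γ ^ 2) ^ i * ((1 + 2 * |γ|) ^ (j - i) * B) :=
            mul_le_mul (mul_le_mul_of_nonneg_left a1 (Nat.cast_nonneg _)) a2 (norm_nonneg _) (by positivity)
        _ = _ := by ring
    refine (Finset.sum_le_sum h1).trans ?_
    rw [← Finset.sum_mul, ← add_pow]
    refine mul_le_mul_of_nonneg_right ?_ hB0
    have e2 : γ ^ 2 + (1 + 2 * |γ|) = (1 + |γ|) ^ 2 := by
      rw [← sq_abs γ]
      ring
    rw [e2, ← pow_mul]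
    calc (1 + |γ|) ^ (2 * j) ≤ (1 + C₂) ^ (2 * j) := pow_le_pow_left₀ (by positivity) (by linarith) _
      _ ≤ (1 + C₂) ^ (2 * J) := pow_le_pow_right₀ (by linarith) (by omega)

end slice

/-- the multiplicity of the slices -/
noncomputable def flcM (n : ℕ) (r : ℝ) (m₀ : ℕ) : ℕ := ⌈(r * Real.sqrt n + 2) ^ n⌉₊ ^ 2 * m₀

/-- L-FLC-MULT (~120 l.).   **Multiplicity at the radius `r`** (same time slot).   `inf_A6_ball_cover n r` for `closedBall ξ r` and for `closedBall y r`: finite sets `F₁, F₂` of centres of unit balls; every `α ∈ t` has `(p₁,p₂) ∈ F₁ ×ˢ F₂` with the three unit conditions;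
`inf_B3_count` with `J = F₁ ×ˢ F₂`, `b = m₀` (`hA.mult p₁ p₂ τ`);   `F.card ≤ ⌈(r√n+2)^n⌉₊` (`Nat.le_ceil`, casts). -/
theorem flc_mult_big {A : Arr n ι} {s : Finset ι} {K : Cls} (hA : A.In s K) {r : ℝ} (hr : 0 ≤ r) (ξ y : E n) (τ : ℝ) (t : Finset ι) (ht : t ⊆ s)
    (h : ∀ α ∈ t, ‖A.L • A.om α - ξ‖ ≤ r ∧ |A.tc α - τ| ≤ 1 ∧ ‖A.L⁻¹ • A.y α + (2 * τ * A.L) • A.om α - y‖ ≤ r) :
    t.card ≤ flcM n r K.m₀ := by
  classical
  obtain ⟨F₁, hF₁c, hF₁⟩ := inf_A6_ball_cover n r hr ξ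
  obtain ⟨F₂, hF₂c, hF₂⟩ := inf_A6_ball_cover n r hr y
  have hcount := inf_B3_count t (F₁ ×ˢ F₂)
    (fun α p => ‖A.L • A.om α - p.1‖ ≤ 1 ∧ |A.tc α - τ| ≤ 1 ∧ ‖A.L⁻¹ • A.y α + (2 * τ * A.L) • A.om α - p.2‖ ≤ 1) (K.m₀ : ℝ)
    (fun α hα => by
      obtain ⟨h1, h2, h3⟩ := h α hα
      have m1 : A.L • A.om α ∈ closedBall ξ r := by rwa [mem_closedBall, dist_eq_norm]
      have m2 : A.L⁻¹ • A.y α + (2 * τ * A.L) • A.om α ∈ closedBall y r := by rwa [mem_closedBall, dist_eq_norm]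
      obtain ⟨p₁, hp₁, hq₁⟩ := mem_iUnion₂.1 (hF₁ m1)
      obtain ⟨p₂, hp₂, hq₂⟩ := mem_iUnion₂.1 (hF₂ m2)
      rw [mem_closedBall, dist_eq_norm] at hq₁ hq₂
      exact ⟨(p₁, p₂), Finset.mem_product.2 ⟨hp₁, hp₂⟩, hq₁, h2, hq₂⟩)
    (fun p _ u hu hP => by
      exact_mod_cast hA.mult p.1 p.2 τ u (hu.trans ht) hP)
  have hN : ∀ F : Finset (E n), (F.card : ℝ) ≤ (r * Real.sqrt n + 2) ^ n → F.card ≤ ⌈(r * Real.sqrt n + 2) ^ n⌉₊ := by
    intro F hF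
    exact_mod_cast hF.trans (Nat.le_ceil _)
  have h1 : t.card ≤ (F₁ ×ˢ F₂).card * K.m₀ := by exact_mod_cast hcount
  unfold flcM
  refine h1.trans (Nat.mul_le_mul_right _ ?_)
  rw [Finset.card_product, sq]
  exact Nat.mul_le_mul (hN F₁ hF₁c) (hN F₂ hF₂c)

/-- helper of L-FLC-SL-ENV, L-FLC-SL-ENERGY: `‖flcCf‖² = ‖cf‖² / h` -/
theorem flc_cf_norm_sq (e : E n) (G : Arr n ι) (hL : 0 < G.L) (cf : ι → ℂ) (a : ℝ) (α : ι) :
    ‖flcCf e G cf a α‖ ^ 2 = ‖cf α‖ ^ 2 * G.L⁻¹ := by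
  unfold flcCf
  rw [norm_mul, norm_mul, mul_comm Complex.I, Complex.norm_exp_ofReal_mul_I, mul_one, Complex.norm_real, Real.norm_eq_abs,
    abs_of_pos (Real.rpow_pos_of_pos hL _), mul_pow]
  congr 1
  rw [← Real.rpow_natCast, ← Real.rpow_mul hL.le, ← Real.rpow_neg_one]
  congr 1
  norm_num

section slice2
variable {e : E (k + 1)} {em : E k →ₗᵢ[ℝ] E (k + 1)} {Pr : E (k + 1) →ₗ[ℝ] E k}

/-- L-FLC-SL-IN (~150 l.).   **The class of a slice.**   `prof`: `flc_pf_prof`.   `freq`: `flc_fr_pr_norm`.   `mult`: `t ⊆ flcLab`, unit conditions at `(ξ', y', τ₁)` in dimension `k`.   Apply `flc_mult_big hG` with the radius `1 + r + 2C₂`, `ξ = em ξ'`, `y = em y' + (a/h) e`, `τ = τ₁`: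
`h w - em ξ' = em (h Pr w - ξ') + γ e` (norm `≤ 1 + C₂`, `flc_fr_norm_le`),
`h⁻¹ y + 2τ₁h w - (em y' + (a/h) e) = em (h⁻¹ Pr y + 2τ₁h Pr w - y') + (-c₀ + 2γ(τ₁ - τ_α)) e` (norm `≤ 1 + r + 2C₂`; `c₀ = flcOff`). -/
theorem flc_sl_in (hF : FlcFr e em Pr) {G : Arr (k + 1) ι} {s : Finset ι} {K : Cls} (hG : G.In s K) {C₂ r : ℝ} (hC₂ : 0 ≤ C₂) (hr : 0 ≤ r)
    (hfl : ∀ α ∈ s, |flcGa e G α| ≤ C₂) (a : ℝ) :
    (flcSl em Pr e G a).In (flcLab e G s r a) ⟨K.J, K.R, (1 + C₂) ^ (2 * K.J) * K.B, K.Rω, flcM (k + 1) (1 + r + 2 * C₂) K.m₀⟩ := by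
  have hL1 : 1 ≤ G.L := hG.one_le
  have hL0 : 0 < G.L := by linarith
  refine ⟨hG.one_le, ?_, ?_, ?_⟩
  · intro α hα
    have hαs := ((flc_mem_lab e G s r a α).mp hα).1
    exact flc_pf_prof hF (hG.prof α hαs) (hfl α hαs) _
  · intro α hα
    have hαs := ((flc_mem_lab e G s r a α).mp hα).1
    exact (flc_fr_pr_norm hF _).trans (hG.freq α hαs)
  · intro ξ' y' τ₁ t ht h
    have hts : t ⊆ s := fun α hα => ((flc_mem_lab e G s r a α).mp (ht hα)).1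
    refine flc_mult_big hG (r := 1 + r + 2 * C₂) (by positivity) (em ξ') (em y' + (a / G.L) • e) τ₁ t hts ?_
    intro α hα
    have hαs := hts hα
    have hoff := ((flc_mem_lab e G s r a α).mp (ht hα)).2
    have hγ := hfl α hαs
    obtain ⟨h1, h2, h3⟩ := h α hα
    have h1' : ‖G.L • Pr (G.om α) - ξ'‖ ≤ 1 := h1
    have h2' : |G.tc α - τ₁| ≤ 1 := h2
    have h3' : ‖G.L⁻¹ • Pr (G.y α) + (2 * τ₁ * G.L) • Pr (G.om α) - y'‖ ≤ 1 := h3
    refine ⟨?_, h2', ?_⟩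
    · have e1 : G.L • G.om α - em ξ' = em (G.L • Pr (G.om α) - ξ') + flcGa e G α • e := by
        conv_lhs => rw [← hF.dec (G.om α)]
        rw [map_sub, map_smul]
        unfold flcGa
        module
      rw [e1]
      refine (flc_fr_norm_le hF _ _).trans ?_
      linarith
    · have e1 : G.L⁻¹ • G.y α + (2 * τ₁ * G.L) • G.om α - (em y' + (a / G.L) • e)
          = em (G.L⁻¹ • Pr (G.y α) + (2 * τ₁ * G.L) • Pr (G.om α) - y') + (- flcOff e G a α + 2 * flcGa e G α * (τ₁ - G.tc α)) • e := by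
        conv_lhs => rw [← hF.dec (G.om α), ← hF.dec (G.y α)]
        rw [map_sub, map_add, map_smul, map_smul]
        have e2 : - flcOff e G a α + 2 * flcGa e G α * (τ₁ - G.tc α) = G.L⁻¹ * ⟪e, G.y α⟫_ℝ + (2 * τ₁ * G.L) * ⟪e, G.om α⟫_ℝ - a / G.L := by
          unfold flcOff flcGa
          field_simp
          ring
        rw [e2]
        module
      rw [e1]
      refine (flc_fr_norm_le hF _ _).trans ?_
      have h4 : |- flcOff e G a α + 2 * flcGa e G α * (τ₁ - G.tc α)| ≤ r + 2 * C₂ := by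
        refine (abs_add_le _ _).trans ?_
        rw [abs_neg, abs_mul, abs_mul, abs_two, abs_sub_comm τ₁]
        have : 2 * |flcGa e G α| * |G.tc α - τ₁| ≤ 2 * C₂ * 1 := by
          refine mul_le_mul (by linarith) h2' (abs_nonneg _) (by positivity)
        linarith
      linarith

/-- L-FLC-SL-ENV (~120 l.).   **The envelope of a slice.**   `‖flcCf‖² = ‖cf‖² h⁻¹`, `h^{-k} h⁻¹ = h^{-(k+1)}` (rpow, `push_cast`).   For `α ∈ flcLab`, `X` = chart of dimension `k`: by `flc_sl_chart`, `flc_fr_norm_le`: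
`‖chart_n‖ ≤ ‖X.1‖ + r + 2C₂|X.2| ≤ r + (1+2C₂)‖X‖`, so `1 + ‖chart_n‖ ≤ (1+r+2C₂)(1+‖X‖)` and `wt_k ≤ (1+r+2C₂)^P wt_n` (`zpow_neg`, `inv_le…`, `mul_pow`).   Then enlarge `flcLab ⊆ s` (non negative terms). -/
theorem flc_sl_env (hF : FlcFr e em Pr) (G : Arr (k + 1) ι) (hL : 1 ≤ G.L) (s : Finset ι) (cf : ι → ℂ) {C₂ r : ℝ} (hC₂ : 0 ≤ C₂) (hr : 0 ≤ r)
    (hfl : ∀ α ∈ s, |flcGa e G α| ≤ C₂) (P : ℕ) (a : ℝ) (p : ST k) :
    (flcSl em Pr e G a).env (flcLab e G s r a) (flcCf e G cf a) P p ≤ (1 + r + 2 * C₂) ^ P * G.env s cf P (flcPt em e p a) := by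
  have hL0 : 0 < G.L := by linarith
  have hsub : flcLab e G s r a ⊆ s := fun α hα => ((flc_mem_lab e G s r a α).mp hα).1
  have hwt : ∀ α ∈ flcLab e G s r a, (flcSl em Pr e G a).wt P α p ≤ (1 + r + 2 * C₂) ^ P * G.wt P α (flcPt em e p a) := by
    intro α hα
    have hαs := hsub hα
    have hoff := ((flc_mem_lab e G s r a α).mp hα).2
    have hγ := hfl α hαs
    unfold Arr.wt
    rw [flc_sl_chart hF G hL0.ne' a α p]
    show (1 + ‖chart G.L (Pr (G.om α)) (Pr (G.y α)) (G.tc α) p‖) ^ (-(P : ℤ)) ≤ _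
    obtain ⟨X, hX⟩ : ∃ X, X = chart G.L (Pr (G.om α)) (Pr (G.y α)) (G.tc α) p := ⟨_, rfl⟩
    rw [← hX]
    have hX1 : ‖X.1‖ ≤ ‖X‖ := norm_fst_le X
    have hX2 : |X.2| ≤ ‖X‖ := norm_snd_le X
    have hX0 : 0 ≤ ‖X‖ := norm_nonneg _
    have h1 : ‖(em X.1 + (flcOff e G a α - 2 * flcGa e G α * X.2) • e, X.2)‖ ≤ r + (1 + 2 * C₂) * ‖X‖ := by
      rw [Prod.norm_def]
      refine max_le ?_ ?_
      · refine (flc_fr_norm_le hF _ _).trans ?_
        have h2 : |flcOff e G a α - 2 * flcGa e G α * X.2| ≤ r + 2 * C₂ * ‖X‖ := by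
          refine (abs_sub _ _).trans ?_
          rw [abs_mul, abs_mul, abs_two]
          have : 2 * |flcGa e G α| * |X.2| ≤ 2 * C₂ * ‖X‖ := mul_le_mul (by linarith) hX2 (abs_nonneg _) (by positivity)
          linarith
        linarith
      · rw [Real.norm_eq_abs]
        nlinarith
    have h2 : 1 + ‖(em X.1 + (flcOff e G a α - 2 * flcGa e G α * X.2) • e, X.2)‖ ≤ (1 + r + 2 * C₂) * (1 + ‖X‖) := by
      nlinarith
    obtain ⟨N, hN⟩ : ∃ N, N = ‖(em X.1 + (flcOff e G a α - 2 * flcGa e G α * X.2) • e, X.2)‖ := ⟨_, rfl⟩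
    rw [← hN] at h2 ⊢
    have hN0 : 0 ≤ N := by rw [hN]; exact norm_nonneg _
    rw [zpow_neg, zpow_neg, zpow_natCast, zpow_natCast]
    have h3 : (1 + N) ^ P ≤ (1 + r + 2 * C₂) ^ P * (1 + ‖X‖) ^ P := by
      rw [← mul_pow]
      exact pow_le_pow_left₀ (by positivity) h2 P
    have hp1 : 0 < (1 + N) ^ P := by positivity
    have hp2 : 0 < (1 + ‖X‖) ^ P := by positivity
    rw [inv_le_iff_one_le_mul₀ hp2, ← div_eq_mul_inv, mul_comm, ← mul_div_assoc, one_le_div hp1]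
    linarith
  unfold Arr.env
  show G.L ^ (-(k : ℝ)) * _ ≤ _
  have e1 : G.L ^ (-(((k + 1 : ℕ) : ℝ))) = G.L ^ (-(k : ℝ)) * G.L⁻¹ := by
    rw [← Real.rpow_neg_one, ← Real.rpow_add hL0]
    congr 1
    push_cast
    ring
  rw [e1]
  have hk0 : 0 ≤ G.L ^ (-(k : ℝ)) := (Real.rpow_pos_of_pos hL0 _).le
  have h5 : ∑ α ∈ flcLab e G s r a, ‖flcCf e G cf a α‖ ^ 2 * (flcSl em Pr e G a).wt P α p
      ≤ ∑ α ∈ s, G.L⁻¹ * ((1 + r + 2 * C₂) ^ P * (‖cf α‖ ^ 2 * G.wt P α (flcPt em e p a))) := by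
    refine (Finset.sum_le_sum fun α hα => ?_).trans (Finset.sum_le_sum_of_subset_of_nonneg hsub fun α _ _ => ?_)
    · rw [flc_cf_norm_sq e G hL0]
      have := mul_le_mul_of_nonneg_left (hwt α hα) (show 0 ≤ ‖cf α‖ ^ 2 * G.L⁻¹ by positivity)
      refine this.trans (le_of_eq ?_)
      ring
    · have : 0 ≤ G.wt P α (flcPt em e p a) := by
        unfold Arr.wt
        positivity
      positivity
  rw [← Finset.mul_sum, ← Finset.mul_sum] at h5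
  calc G.L ^ (-(k : ℝ)) * ∑ α ∈ flcLab e G s r a, ‖flcCf e G cf a α‖ ^ 2 * (flcSl em Pr e G a).wt P α p
      ≤ G.L ^ (-(k : ℝ)) * (G.L⁻¹ * ((1 + r + 2 * C₂) ^ P * ∑ α ∈ s, ‖cf α‖ ^ 2 * G.wt P α (flcPt em e p a))) := mul_le_mul_of_nonneg_left h5 hk0
    _ = _ := by ring

end slice2

/-- L-FLC-INT-COUNT (~60 l.).   at most `2ρ + 1` integers in an interval of length `2ρ`:   the set is contained in `Finset.Icc ⌈c - ρ⌉ ⌊c + ρ⌋` (`Int.card_Icc`, `Int.toNat`, `Int.floor_le`, `Int.le_ceil`, `Int.ceil_lt_add_one`). -/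
theorem flc_int_count (S : Finset ℤ) (c ρ : ℝ) (hρ : 0 ≤ ρ) (h : ∀ a ∈ S, |(a : ℝ) - c| ≤ ρ) : (S.card : ℝ) ≤ 2 * ρ + 1 := by
  have hsub : S ⊆ Finset.Icc ⌈c - ρ⌉ ⌊c + ρ⌋ := by
    intro a ha
    have h1 := abs_le.mp (h a ha)
    rw [Finset.mem_Icc]
    exact ⟨Int.ceil_le.mpr (by linarith [h1.1]), Int.le_floor.mpr (by linarith [h1.2])⟩
  have h1 : S.card ≤ (⌊c + ρ⌋ + 1 - ⌈c - ρ⌉).toNat := by
    have := Finset.card_le_card hsub
    rwa [Int.card_Icc] at this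
  have h2 : ((S.card : ℕ) : ℝ) ≤ (((⌊c + ρ⌋ + 1 - ⌈c - ρ⌉).toNat : ℕ) : ℝ) := by exact_mod_cast h1
  refine h2.trans ?_
  have h3 : (((⌊c + ρ⌋ + 1 - ⌈c - ρ⌉).toNat : ℕ) : ℤ) = max (⌊c + ρ⌋ + 1 - ⌈c - ρ⌉) 0 := Int.ofNat_toNat _
  have h4 : (((⌊c + ρ⌋ + 1 - ⌈c - ρ⌉).toNat : ℕ) : ℝ) = ((max (⌊c + ρ⌋ + 1 - ⌈c - ρ⌉) 0 : ℤ) : ℝ) := by
    rw [← h3]
    exact (Int.cast_natCast _).symm
  rw [h4, Int.cast_max]
  refine max_le ?_ (by push_cast; linarith)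
  push_cast
  have := Int.floor_le (c + ρ)
  have := Int.le_ceil (c - ρ)
  linarith

/-- L-FLC-SL-ENERGY (~120 l.).   **The slices at the integer levels share the energy.**   `‖flcCf e G cf a α‖² = ‖cf α‖² / h` (`Real.rpow` : `(h^{-1/2})² = h⁻¹`; the exponential has norm one: `Complex.norm_exp_ofReal_mul_I` after `mul_comm`).
Exchange the sums (`Finset.sum_comm'` or `Finset.sum_filter` + `Finset.sum_comm`): `= ∑_{α ∈ s} ‖cf α‖²/h · #{a ∈ 𝒜 : |flcOff (a+ν)| ≤ r}`;   `|flcOff (a+ν)| ≤ r ⟺ |a - (⟪e,y⟫ + 2hγτ - ν)| ≤ r h`: `flc_int_count`: `≤ 2rh + 1 ≤ (2r+1) h`. -/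
theorem flc_sl_energy (e : E n) (G : Arr n ι) (hL : 1 ≤ G.L) (s : Finset ι) (cf : ι → ℂ) {r : ℝ} (hr : 0 ≤ r) (𝒜 : Finset ℤ) (ν : ℤ) :
    ∑ a ∈ 𝒜, energy (flcLab e G s r ((a + ν : ℤ) : ℝ)) (flcCf e G cf ((a + ν : ℤ) : ℝ)) ≤ (2 * r + 1) * energy s cf := by
  classical
  have hL0 : 0 < G.L := by linarith
  have e1 : ∀ a ∈ 𝒜, energy (flcLab e G s r ((a + ν : ℤ) : ℝ)) (flcCf e G cf ((a + ν : ℤ) : ℝ))
      = ∑ α ∈ s, if |flcOff e G ((a + ν : ℤ) : ℝ) α| ≤ r then ‖cf α‖ ^ 2 * G.L⁻¹ else 0 := by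
    intro a _
    unfold energy flcLab
    rw [Finset.sum_filter]
    refine Finset.sum_congr rfl fun α _ => ?_
    rw [flc_cf_norm_sq e G hL0]
  rw [Finset.sum_congr rfl e1, Finset.sum_comm]
  unfold energy
  rw [Finset.mul_sum]
  refine Finset.sum_le_sum fun α _ => ?_
  rw [← Finset.sum_filter, Finset.sum_const, nsmul_eq_mul]
  have hc : (((𝒜.filter fun a : ℤ => |flcOff e G ((a + ν : ℤ) : ℝ) α| ≤ r).card : ℕ) : ℝ) ≤ 2 * (r * G.L) + 1 := by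
    refine flc_int_count _ (⟪e, G.y α⟫_ℝ + 2 * G.L * flcGa e G α * G.tc α - ν) (r * G.L) (by positivity) ?_
    intro a ha
    have h1 := (Finset.mem_filter.mp ha).2
    have e2 : (a : ℝ) - (⟪e, G.y α⟫_ℝ + 2 * G.L * flcGa e G α * G.tc α - ν) = flcOff e G ((a + ν : ℤ) : ℝ) α * G.L := by
      unfold flcOff
      push_cast
      field_simp
      ring
    rw [e2, abs_mul, abs_of_pos hL0]
    exact mul_le_mul_of_nonneg_right h1 hL0.le
  have h2 : 2 * (r * G.L) + 1 ≤ (2 * r + 1) * G.L := by nlinarith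
  have h3 : 0 ≤ ‖cf α‖ ^ 2 * G.L⁻¹ := by positivity
  calc (((𝒜.filter fun a : ℤ => |flcOff e G ((a + ν : ℤ) : ℝ) α| ≤ r).card : ℕ) : ℝ) * (‖cf α‖ ^ 2 * G.L⁻¹)
      ≤ ((2 * r + 1) * G.L) * (‖cf α‖ ^ 2 * G.L⁻¹) := mul_le_mul_of_nonneg_right (hc.trans h2) h3
    _ = (2 * r + 1) * ‖cf α‖ ^ 2 := by field_simp

/-! ## 3. translations (any dimension) -/

/-- the array translated by `o`:  `(flcTr S o).atom α p = (unimodular) · S.atom α (p + o)` -/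
noncomputable def flcTr (S : Arr n ι) (o : ST n) : Arr n ι where
  L := S.L
  om := S.om
  y α := S.y α - o.1 + (2 * o.2) • S.om α
  tc α := S.tc α - o.2 / S.L ^ 2
  pf := S.pf

/-- the coefficients of the translated array -/
noncomputable def flcTc (S : Arr n ι) (cf : ι → ℂ) (o : ST n) (α : ι) : ℂ := cf α * car (S.om α) o

/-- L-FLC-TR (the six statements `flc_tr_*`, ~200 l. together).   unfold `chart`, `Prod.ext`, `module` / `ring` (`add_div`). -/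
theorem flc_tr_chart (S : Arr n ι) (o : ST n) (α : ι) (p : ST n) :
    chart (flcTr S o).L ((flcTr S o).om α) ((flcTr S o).y α) ((flcTr S o).tc α) p = chart S.L (S.om α) (S.y α) (S.tc α) (p + o) := by
  unfold chart flcTr
  refine Prod.ext ?_ ?_
  · simp only [Prod.fst_add, Prod.snd_add]
    module
  · simp only [Prod.snd_add]
    ring

/-- L-FLC-TR.   `inf_car_add`, `flc_tr_chart` -/
theorem flc_tr_atom (S : Arr n ι) (o : ST n) (α : ι) (p : ST n) : car (S.om α) o * (flcTr S o).atom α p = S.atom α (p + o) := by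
  unfold Arr.atom
  rw [flc_tr_chart, inf_car_add]
  show car (S.om α) o * (((S.L ^ (-(n : ℝ) / 2) : ℝ) : ℂ) * car (S.om α) p * S.pf α _) = _
  ring

/-- L-FLC-TR -/
theorem flc_tr_fld (S : Arr n ι) (o : ST n) (s : Finset ι) (cf : ι → ℂ) (p : ST n) : (flcTr S o).fld s (flcTc S cf o) p = S.fld s cf (p + o) := by
  unfold Arr.fld flcTc
  refine Finset.sum_congr rfl fun α _ => ?_
  rw [← flc_tr_atom]
  ring

/-- L-FLC-TR.   `inf_car_norm` -/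
theorem flc_tr_env (S : Arr n ι) (o : ST n) (s : Finset ι) (cf : ι → ℂ) (P : ℕ) (p : ST n) : (flcTr S o).env s (flcTc S cf o) P p = S.env s cf P (p + o) := by
  unfold Arr.env Arr.wt flcTc
  simp only [flc_tr_chart, norm_mul, inf_car_norm, mul_one]
  rfl

/-- L-FLC-TR -/
theorem flc_tr_energy (S : Arr n ι) (o : ST n) (s : Finset ι) (cf : ι → ℂ) : energy s (flcTc S cf o) = energy s cf := by
  unfold energy flcTc
  simp only [norm_mul, inf_car_norm, mul_one]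

/-- L-FLC-TR.   `mult` at `(ξ, y₀, τ₁)` for the translated array = `mult` at `(ξ, y₀ + h⁻¹ o.1, τ₁ + o.2/h²)` for `S`:   `h⁻¹(y - o.1 + 2 o.2 w) + 2τ₁h w - y₀ = h⁻¹ y + 2(τ₁ + o.2/h²) h w - (y₀ + h⁻¹ o.1)` (`h ≠ 0`; `smul_smul`, `field_simp`, `module`). -/
theorem flc_tr_in {S : Arr n ι} {s : Finset ι} {K : Cls} (hS : S.In s K) (o : ST n) : (flcTr S o).In s K := by
  have h0 : S.L ≠ 0 := by linarith [hS.one_le]
  refine ⟨hS.one_le, hS.prof, hS.freq, fun ξ y₀ τ₁ t ht h => ?_⟩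
  refine hS.mult ξ (y₀ + S.L⁻¹ • o.1) (τ₁ + o.2 / S.L ^ 2) t ht fun α hα => ?_
  obtain ⟨h1, h2, h3⟩ := h α hα
  refine ⟨h1, ?_, ?_⟩
  · have e1 : S.tc α - (τ₁ + o.2 / S.L ^ 2) = (flcTr S o).tc α - τ₁ := by
      show _ = S.tc α - o.2 / S.L ^ 2 - τ₁
      ring
    rw [e1]
    exact h2
  · have e1 : S.L⁻¹ • S.y α + (2 * (τ₁ + o.2 / S.L ^ 2) * S.L) • S.om α - (y₀ + S.L⁻¹ • o.1)
        = (flcTr S o).L⁻¹ • (flcTr S o).y α + (2 * τ₁ * (flcTr S o).L) • (flcTr S o).om α - y₀ := by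
      show _ = S.L⁻¹ • (S.y α - o.1 + (2 * o.2) • S.om α) + (2 * τ₁ * S.L) • S.om α - y₀
      have e2 : 2 * (τ₁ + o.2 / S.L ^ 2) * S.L = 2 * τ₁ * S.L + S.L⁻¹ * (2 * o.2) := by
        field_simp
      rw [e2]
      module
    rw [e1]
    exact h3

/-! ## 4. scalar multiples of the coefficients -/

/-- L-FLC-SMUL (three statements, ~50 l. together) -/
theorem flc_smul_fld (S : Arr n ι) (s : Finset ι) (cf : ι → ℂ) (κ : ℝ) (p : ST n) : S.fld s (fun α => (κ : ℂ) * cf α) p = (κ : ℂ) * S.fld s cf p := by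
  unfold Arr.fld
  rw [Finset.mul_sum]
  refine Finset.sum_congr rfl fun α _ => ?_
  ring

/-- L-FLC-SMUL -/
theorem flc_smul_env (S : Arr n ι) (s : Finset ι) (cf : ι → ℂ) (κ : ℝ) (P : ℕ) (p : ST n) : S.env s (fun α => (κ : ℂ) * cf α) P p = κ ^ 2 * S.env s cf P p := by
  unfold Arr.env
  simp only [norm_mul, Complex.norm_real, Real.norm_eq_abs, mul_pow, sq_abs]
  have h : ∑ α ∈ s, κ ^ 2 * ‖cf α‖ ^ 2 * S.wt P α p = κ ^ 2 * ∑ α ∈ s, ‖cf α‖ ^ 2 * S.wt P α p := by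
    rw [Finset.mul_sum]
    exact Finset.sum_congr rfl fun α _ => by ring
  rw [h]
  ring

/-- L-FLC-SMUL -/
theorem flc_smul_energy (s : Finset ι) (cf : ι → ℂ) (κ : ℝ) : energy s (fun α => (κ : ℂ) * cf α) = κ ^ 2 * energy s cf := by
  unfold energy
  simp only [norm_mul, Complex.norm_real, Real.norm_eq_abs, mul_pow, sq_abs]
  rw [Finset.mul_sum]

end Claimed.Agent.R257
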