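import Claimed.Agent.R257.Fl.C1

/-!
# R257 / Fl / C2 : FL-C (flat frame), part 2: BOOST, NORMAL DERIVATIVES, REDUCTION TO INTEGER LEVELS            (helper185)            -- CONTRACT: every `sorry` is a registered leaf `L-FLC-*`

PAPER FREE.   RULE FOR PROVERS: prove IN PLACE, statement verbatim, helper lemmas with the prefix `flc_` directly above the theorem; report a false statement to helper185 at once.

`flcD e G j` = the array of the `j`-th derivative of the field in the direction `(e,0)` (`Arr.derL` of `Infra/ArrB`).   For a FLAT array (`|h⟪e,w⟫| ≤ C₂`) every derivative gains `(1+C₂)/h`.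
Chain of mean value inequalities on a unit segment: `|U₀(z)| ≤ ∑_{j<N} |U_j(z₀)| + sup |U_N|`, `N = n`; the last term is `≤ C h^{-n/2} √env ≤ 1/2`.   So a witness at a real level gives a witness at the integer level below it, for one of the `N` arrays `flcD e G j`.
-/

set_option autoImplicit false

namespace Claimed.Agent.R257

open MeasureTheory Metric Set
open scoped ENNReal InnerProductSpace

variable {k n : ℕ} {ι : Type}

/-! ## 1. the arrays of the normal derivatives -/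

/-- the array of the `j`-th derivative in the direction `(e, 0)` -/
noncomputable def flcD (e : E n) (G : Arr n ι) (j : ℕ) : Arr n ι := G.derL (List.replicate j ((e, (0 : ℝ)) : ST n))

theorem flc_d_L (e : E n) (G : Arr n ι) (j : ℕ) : (flcD e G j).L = G.L := inf_derL_L _ _
theorem flc_d_om (e : E n) (G : Arr n ι) (j : ℕ) : (flcD e G j).om = G.om := inf_derL_om _ _
theorem flc_d_y (e : E n) (G : Arr n ι) (j : ℕ) : (flcD e G j).y = G.y := inf_derL_y _ _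
theorem flc_d_tc (e : E n) (G : Arr n ι) (j : ℕ) : (flcD e G j).tc = G.tc := inf_derL_tc _ _
theorem flc_d_zero (e : E n) (G : Arr n ι) : flcD e G 0 = G := rfl
theorem flc_d_succ (e : E n) (G : Arr n ι) (j : ℕ) : flcD e G (j + 1) = (flcD e G j).der ((e, (0 : ℝ)) : ST n) := rfl

theorem flc_d_ga (e e' : E n) (G : Arr n ι) (j : ℕ) (α : ι) : flcGa e' (flcD e G j) α = flcGa e' G α := by
  unfold flcGa
  rw [flc_d_L, flc_d_om]

theorem flc_d_off (e e' : E n) (G : Arr n ι) (j : ℕ) (a : ℝ) (α : ι) : flcOff e' (flcD e G j) a α = flcOff e' G a α := by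
  unfold flcOff
  rw [flc_d_ga, flc_d_L, flc_d_y, flc_d_tc]

theorem flc_d_lab (e e' : E n) (G : Arr n ι) (j : ℕ) (s : Finset ι) (r a : ℝ) : flcLab e' (flcD e G j) s r a = flcLab e' G s r a := by
  ext α
  rw [flc_mem_lab, flc_mem_lab, flc_d_off]

theorem flc_d_cf (e e' : E n) (G : Arr n ι) (j : ℕ) (cf : ι → ℂ) (a : ℝ) : flcCf e' (flcD e G j) cf a = flcCf e' G cf a := by
  funext α
  unfold flcCf
  rw [flc_d_ga, flc_d_L, flc_d_om, flc_d_tc]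

theorem flc_d_env (e : E n) (G : Arr n ι) (j : ℕ) (s : Finset ι) (cf : ι → ℂ) (P : ℕ) (z : ST n) : (flcD e G j).env s cf P z = G.env s cf P z := by
  unfold Arr.env Arr.wt
  rw [flc_d_L, flc_d_om, flc_d_y, flc_d_tc]

/-- L-FLC-D-IN (~100 l.).   **Every normal derivative of a flat array gains `(1 + C₂)/h`.**   Induction on `j` (`flc_d_succ`); step: `one_le`, `freq`, `mult` are unchanged (`Arr.der` keeps `L om y tc`); `prof`: `inf_B2_derPf_contDiff`, `inf_B2_derPf_supp`,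
`inf_B2_derPf_bound` with `a = C₂/h` (`|⟪e,w⟫ - 0·‖w‖²| = |γ|/h`) and `b = 1/h` (`‖(h⁻¹ • (e - (2·0) • w), 0/h²)‖ = h⁻¹‖e‖ ≤ 1/h`): factor `a + b = (1+C₂)/h`.   (model: the proofs of `inf_in_der`, `inf_in_derL`.) -/
theorem flc_d_in {G : Arr n ι} {s : Finset ι} {K : Cls} (hG : G.In s K) {e : E n} (he : ‖e‖ ≤ 1) {C₂ : ℝ} (hfl : ∀ α ∈ s, |flcGa e G α| ≤ C₂) (j : ℕ) (hj : j ≤ K.J) :
    (flcD e G j).In s { K with J := K.J - j, B := ((1 + C₂) / G.L) ^ j * K.B } := by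
  have hL := hG.one_le
  have hL0 : 0 < G.L := by linarith
  induction j with
  | zero => simpa [flc_d_zero] using hG
  | succ j ih =>
    have ih := ih (by omega)
    rw [flc_d_succ]
    refine ⟨ih.one_le, fun α hα => ?_, ih.freq, ih.mult⟩
    obtain ⟨hs, hsu, hb⟩ := ih.prof α hα
    refine ⟨inf_B2_derPf_contDiff _ _ _ hs, inf_B2_derPf_supp _ _ _ hsu, fun i hi z => ?_⟩
    have ha : |⟪((e, (0 : ℝ)) : ST n).1, (flcD e G j).om α⟫_ℝ - ((e, (0 : ℝ)) : ST n).2 * ‖(flcD e G j).om α‖ ^ 2| ≤ C₂ / G.L := by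
      simp only [zero_mul, sub_zero]
      rw [flc_d_om, le_div_iff₀ hL0]
      have := hfl α hα
      unfold flcGa at this
      rw [abs_mul, abs_of_pos hL0] at this
      linarith
    have hu : ‖(((flcD e G j).L⁻¹ • (((e, (0 : ℝ)) : ST n).1 - (2 * ((e, (0 : ℝ)) : ST n).2) • (flcD e G j).om α),
        ((e, (0 : ℝ)) : ST n).2 / (flcD e G j).L ^ 2) : ST n)‖ ≤ 1 / G.L := by
      simp only [mul_zero, zero_smul, sub_zero, zero_div]
      rw [flc_d_L, Prod.norm_def]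
      refine max_le ?_ ?_
      · simp only []
        rw [norm_smul, norm_inv, Real.norm_of_nonneg hL0.le, one_div]
        have : 0 ≤ G.L⁻¹ := by positivity
        nlinarith
      · simp only [norm_zero]
        positivity
    have h1 := inf_B2_derPf_bound (flcD e G j).L ((flcD e G j).om α) ((e, (0 : ℝ)) : ST n) hs hb
      (by simp only []; omega) ha hu i (by simp only [] at hi ⊢; omega) z
    refine h1.trans (le_of_eq ?_)
    simp only []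
    rw [pow_succ]
    ring

/-- L-FLC-D-FDERIV (~40 l.).   `inf_B1_fld_fderiv` for `flcD e G j` (smooth profiles: `inf_B2_derL_smooth`), `flc_d_succ`; differentiability: `inf_B1_fld_contDiff`; chain rule along the line `θ ↦ z + θ (e,0)`. -/
theorem flc_d_hasDerivAt {G : Arr n ι} {s : Finset ι} {K : Cls} (hG : G.In s K) (e : E n) (cf : ι → ℂ) (j : ℕ) (z : ST n) (θ : ℝ) :
    HasDerivAt (fun θ : ℝ => (flcD e G j).fld s cf (z + θ • ((e, (0 : ℝ)) : ST n))) ((flcD e G (j + 1)).fld s cf (z + θ • ((e, (0 : ℝ)) : ST n))) θ := by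
  have hsm :=
    inf_B2_derL_smooth G s (fun α hα => (hG.prof α hα).smooth) (List.replicate j ((e, (0 : ℝ)) : ST n))
  have hc := inf_B1_fld_contDiff (flcD e G j) s hsm cf
  have hd : HasFDerivAt ((flcD e G j).fld s cf) (fderiv ℝ ((flcD e G j).fld s cf) (z + θ • ((e, (0 : ℝ)) : ST n)))
      (z + θ • ((e, (0 : ℝ)) : ST n)) := ((hc.differentiable (by simp)).differentiableAt).hasFDerivAt
  have hl : HasDerivAt (fun θ : ℝ => z + θ • ((e, (0 : ℝ)) : ST n)) ((e, (0 : ℝ)) : ST n) θ := by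
    have := ((hasDerivAt_id θ).smul_const ((e, (0 : ℝ)) : ST n)).const_add z
    simpa using this
  have h1 := hd.comp_hasDerivAt θ hl
  rw [inf_B1_fld_fderiv (flcD e G j) s hsm cf, ← flc_d_succ] at h1
  exact h1

/-! ## 2. the chain of mean value inequalities -/

theorem flc_chain_aux : ∀ (N : ℕ) (u : ℕ → ℝ → ℂ), (∀ j θ, HasDerivAt (u j) (u (j + 1) θ) θ) → ∀ (M : ℝ), (∀ θ ∈ Icc (0 : ℝ) 1, ‖u N θ‖ ≤ M) →
    ∀ θ ∈ Icc (0 : ℝ) 1, ‖u 0 θ‖ ≤ ∑ j ∈ Finset.range N, ‖u j 0‖ + M := by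
  intro N
  induction N with
  | zero =>
    intro u _ M hM θ hθ
    simpa using hM θ hθ
  | succ N ih =>
    intro u hu M hM θ hθ
    have h1 := ih (fun j => u (j + 1)) (fun j θ => hu (j + 1) θ) M hM
    obtain ⟨B, hB⟩ : ∃ B, B = ∑ j ∈ Finset.range N, ‖u (j + 1) 0‖ + M := ⟨_, rfl⟩
    rw [← hB] at h1
    have h2 : ‖u 0 θ - u 0 0‖ ≤ B * ‖θ - 0‖ :=
      Convex.norm_image_sub_le_of_norm_hasDerivWithin_le (f := u 0) (f' := u 1) (s := Icc (0 : ℝ) 1)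
        (fun x _ => (hu 0 x).hasDerivWithinAt) (fun x hx => h1 x hx) (convex_Icc 0 1) (left_mem_Icc.2 zero_le_one) hθ
    have hB0 : 0 ≤ B := (norm_nonneg _).trans (h1 0 (left_mem_Icc.2 zero_le_one))
    rw [Finset.sum_range_succ', add_right_comm, ← hB]
    rw [sub_zero, Real.norm_eq_abs, abs_of_nonneg hθ.1] at h2
    have h3 : ‖u 0 θ‖ ≤ ‖u 0 θ - u 0 0‖ + ‖u 0 0‖ := by
      have := norm_add_le (u 0 θ - u 0 0) (u 0 0)
      rwa [sub_add_cancel] at this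
    have h4 : B * θ ≤ B := by nlinarith [hθ.2]
    linarith

/-- L-FLC-CHAIN (~70 l.).   Mathlib only.   Claim by induction on `m ≤ N`: `∀ θ ∈ [0,1], ‖u (N - m) θ‖ ≤ ∑_{j ∈ [N-m, N)} ‖u j 0‖ + M`;  step: `‖u j θ - u j 0‖ ≤ sup_{[0,1]} ‖u (j+1)‖ · θ` (`Convex.norm_image_sub_le_of_norm_hasDerivWithin_le` on `Icc 0 1`, or `norm_image_sub_le_of_norm_deriv_le_segment_01'`).
(easier: generalise over the sequence: prove `∀ N, ∀ u, …` by induction on `N`, applying the induction hypothesis to the shifted sequence `fun j => u (j+1)`; `Finset.sum_range_succ'`.) -/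
theorem flc_chain (u : ℕ → ℝ → ℂ) (hu : ∀ j θ, HasDerivAt (u j) (u (j + 1) θ) θ) (N : ℕ) (M : ℝ) (hM : ∀ θ ∈ Icc (0 : ℝ) 1, ‖u N θ‖ ≤ M)
    (θ : ℝ) (hθ : θ ∈ Icc (0 : ℝ) 1) : ‖u 0 θ‖ ≤ ∑ j ∈ Finset.range N, ‖u j 0‖ + M := by
  exact flc_chain_aux N u hu M hM θ hθ

/-! ## 3. envelopes -/

/-- L-FLC-ENV-SHIFT (~70 l.).   Peetre.   `chart (z + (d,0)) = chart z + (h⁻¹ d, 0)`, `‖(h⁻¹ d, 0)‖ ≤ 1`:  `1 + ‖chart z‖ ≤ 2 (1 + ‖chart (z + (d,0))‖)`, so `wt (z + (d,0)) ≤ 2^P wt z` (`zpow_neg`, `zpow_natCast`, `inv_le…`, `mul_pow`); sum. -/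
theorem flc_env_shift (G : Arr n ι) (hL : 1 ≤ G.L) (s : Finset ι) (cf : ι → ℂ) (P : ℕ) (z : ST n) (d : E n) (hd : ‖d‖ ≤ 1) :
    G.env s cf P (z + (d, (0 : ℝ))) ≤ 2 ^ P * G.env s cf P z := by
  have hL0 : 0 < G.L := by linarith
  unfold Arr.env
  rw [mul_left_comm ((2 : ℝ) ^ P)]
  refine mul_le_mul_of_nonneg_left ?_ (Real.rpow_nonneg hL0.le _)
  rw [Finset.mul_sum]
  refine Finset.sum_le_sum fun α _ => ?_
  rw [mul_left_comm]
  refine mul_le_mul_of_nonneg_left ?_ (sq_nonneg _)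
  unfold Arr.wt
  have e1 : chart G.L (G.om α) (G.y α) (G.tc α) (z + (d, (0 : ℝ))) = chart G.L (G.om α) (G.y α) (G.tc α) z + (G.L⁻¹ • d, (0 : ℝ)) := by
    unfold chart
    ext1
    · simp only [Prod.fst_add, Prod.snd_add, add_zero]
      rw [← smul_add]
      congr 1
      abel
    · simp
  have h1 : ‖((G.L⁻¹ • d, (0 : ℝ)) : ST n)‖ ≤ 1 := by
    rw [Prod.norm_def]
    refine max_le ?_ (by simp)
    simp only []
    rw [norm_smul, norm_inv, Real.norm_of_nonneg hL0.le]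
    have h2 : G.L⁻¹ ≤ 1 := inv_le_one_of_one_le₀ hL
    have h3 : 0 ≤ G.L⁻¹ := by positivity
    nlinarith [norm_nonneg d]
  obtain ⟨a, ha⟩ : ∃ a, a = ‖chart G.L (G.om α) (G.y α) (G.tc α) z‖ := ⟨_, rfl⟩
  obtain ⟨a', ha'⟩ : ∃ a', a' = ‖chart G.L (G.om α) (G.y α) (G.tc α) (z + (d, (0 : ℝ)))‖ := ⟨_, rfl⟩
  have h4 : a ≤ a' + 1 := by
    rw [ha, ha', e1]
    have := norm_sub_le (chart G.L (G.om α) (G.y α) (G.tc α) z + (G.L⁻¹ • d, (0 : ℝ))) ((G.L⁻¹ • d, (0 : ℝ)) : ST n)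
    rw [add_sub_cancel_right] at this
    linarith
  have ha0 : 0 ≤ a := by rw [ha]; exact norm_nonneg _
  have ha'0 : 0 ≤ a' := by rw [ha']; exact norm_nonneg _
  rw [← ha, ← ha', zpow_neg, zpow_natCast, zpow_neg, zpow_natCast, ← div_eq_mul_inv, le_div_iff₀ (by positivity),
    inv_mul_le_iff₀ (by positivity), ← mul_pow]
  exact pow_le_pow_left₀ (by positivity) (by linarith) P

/-- L-FLC-ENV-ACT (~70 l.).   The active coefficients are controlled by the envelope: for `α` active `‖chart‖ ≤ R` (`Prof.supp`), so `wt ≥ (1+R)^{-P}`;   `env = h^{-n} ∑_s ‖c‖² wt ≥ h^{-n} (1+R)^{-P} ∑_{act} ‖c‖²` (`inf_b4_mem_act`; `Real.rpow_neg`, `Real.rpow_natCast`). -/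
theorem flc_env_act {G : Arr n ι} {s : Finset ι} {K : Cls} (hG : G.In s K) (hR : 0 ≤ K.R) (cf : ι → ℂ) (P : ℕ) (z : ST n) :
    ∑ α ∈ G.act s z, ‖cf α‖ ^ 2 ≤ (1 + K.R) ^ P * G.L ^ n * G.env s cf P z := by
  have hL0 : 0 < G.L := lt_of_lt_of_le one_pos hG.one_le
  unfold Arr.env
  have e1 : (1 + K.R) ^ P * G.L ^ n * (G.L ^ (-(n : ℝ)) * ∑ α ∈ s, ‖cf α‖ ^ 2 * G.wt P α z)
      = (1 + K.R) ^ P * ∑ α ∈ s, ‖cf α‖ ^ 2 * G.wt P α z := by
    rw [Real.rpow_neg hL0.le, Real.rpow_natCast]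
    field_simp
  rw [e1, Finset.mul_sum]
  have hwt : ∀ α, 0 ≤ G.wt P α z := fun α => by
    unfold Arr.wt
    positivity
  refine le_trans ?_ (Finset.sum_le_sum_of_subset_of_nonneg (fun α hα => ((inf_b4_mem_act G s z α).1 hα).1)
    fun α _ _ => mul_nonneg (by positivity) (mul_nonneg (sq_nonneg _) (hwt α)))
  refine Finset.sum_le_sum fun α hα => ?_
  obtain ⟨hs, hne⟩ := (inf_b4_mem_act G s z α).1 hα
  have h := (hG.prof α hs).supp _ hne
  have h1 : 1 ≤ (1 + K.R) ^ P * G.wt P α z := by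
    unfold Arr.wt
    rw [zpow_neg, zpow_natCast, ← div_eq_mul_inv, one_le_div (by positivity)]
    exact pow_le_pow_left₀ (by positivity) (by linarith) P
  calc ‖cf α‖ ^ 2 = ‖cf α‖ ^ 2 * 1 := (mul_one _).symm
    _ ≤ ‖cf α‖ ^ 2 * ((1 + K.R) ^ P * G.wt P α z) := mul_le_mul_of_nonneg_left h1 (sq_nonneg _)
    _ = _ := by ring

/-- L-FLC-REM (~150 l.).   **Crude bound of the `j`-th normal derivative.**   `D = flcD e G j`.   `D ∈` the class `K_s` of `flc_d_in` (bound `B_s = ((1+C₂)/h)^j B`) and, because `h ≥ 1`, `D ∈ K_w = { K with J := K.J - j, B := (1+C₂)^j * K.B }` (`inf_in_mono`).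
`C_a` from `inf_arr_active n K_w` (a constant independent of `h`).   As in the proof of `inf_arr_sup_loc`: `‖D.fld z‖² ≤ (∑_{act} ‖c‖²)(∑_{act} ‖atom‖²)`, `‖atom‖² ≤ (h^n)⁻¹ B_s²` (`inf_b4_atom_sq` in the class `K_s`), `#act ≤ C_a h^n`.
`∑_{D.act} ‖c‖² ≤ (1+R)^P h^n D.env = (1+R)^P h^n G.env` (`flc_env_act` for `D`, `flc_d_env`, `flc_d_L`).   `C = C_a (1+C₂)^{2j} B² (1+R)^P`. -/
theorem flc_rem (n : ℕ) (K : Cls) (hR : 0 ≤ K.R) (hB : 0 ≤ K.B) (C₂ : ℝ) (hC₂ : 0 ≤ C₂) (P j : ℕ) (hj : j ≤ K.J) : ∃ C : ℝ, 0 ≤ C ∧ ∀ (ι : Type) (G : Arr n ι) (s : Finset ι) (cf : ι → ℂ) (e : E n) (z : ST n),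
    ‖e‖ ≤ 1 → G.In s K → (∀ α ∈ s, ∃ m : ℤ, G.tc α = m) → (∀ α ∈ s, |flcGa e G α| ≤ C₂) →
    ‖(flcD e G j).fld s cf z‖ ^ 2 ≤ C * G.L ^ n / G.L ^ (2 * j) * G.env s cf P z := by
  obtain ⟨Ca, hCa, hact⟩ := inf_arr_active n { K with J := K.J - j, B := (1 + C₂) ^ j * K.B }
  refine ⟨Ca * (1 + C₂) ^ (2 * j) * K.B ^ 2 * (1 + K.R) ^ P, by positivity, ?_⟩
  intro ι G s cf e z he hG htc hfl
  have hL := hG.one_le
  have hL0 : 0 < G.L := by linarith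
  have hLn : 0 < G.L ^ n := by positivity
  have hDs := flc_d_in hG he hfl j hj
  have hDw : (flcD e G j).In s { K with J := K.J - j, B := (1 + C₂) ^ j * K.B } := by
    refine inf_in_mono hDs subset_rfl le_rfl le_rfl ?_ le_rfl le_rfl
    simp only []
    refine mul_le_mul_of_nonneg_right ?_ hB
    refine pow_le_pow_left₀ (by positivity) ?_ j
    rw [div_le_iff₀ hL0]
    nlinarith
  have hcard := hact ι (flcD e G j) s z hDw (fun α hα => by rw [flc_d_tc]; exact htc α hα)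
  rw [flc_d_L] at hcard
  have hcf := flc_env_act hDs hR cf P z
  rw [flc_d_L, flc_d_env] at hcf
  simp only [] at hcf
  obtain ⟨D, hD⟩ : ∃ D, D = flcD e G j := ⟨_, rfl⟩
  rw [← hD] at hDs hcard hcf ⊢
  have hDL : D.L = G.L := by rw [hD, flc_d_L]
  have henv : 0 ≤ G.env s cf P z := by
    unfold Arr.env Arr.wt
    positivity
  rw [inf_b4_fld_eq_act D s cf z]
  unfold Arr.fld
  have h1 : ‖∑ α ∈ D.act s z, cf α * D.atom α z‖ ≤ ∑ α ∈ D.act s z, ‖cf α‖ * ‖D.atom α z‖ :=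
    (norm_sum_le _ _).trans (le_of_eq (Finset.sum_congr rfl fun α _ => norm_mul _ _))
  have h2 : (∑ α ∈ D.act s z, ‖cf α‖ * ‖D.atom α z‖) ^ 2
      ≤ (∑ α ∈ D.act s z, ‖cf α‖ ^ 2) * ∑ α ∈ D.act s z, ‖D.atom α z‖ ^ 2 :=
    Finset.sum_mul_sq_le_sq_mul_sq _ _ _
  have h3 : ∑ α ∈ D.act s z, ‖D.atom α z‖ ^ 2 ≤ Ca * (((1 + C₂) / G.L) ^ j * K.B) ^ 2 := by
    calc ∑ α ∈ D.act s z, ‖D.atom α z‖ ^ 2 ≤ ∑ _α ∈ D.act s z, (G.L ^ n)⁻¹ * (((1 + C₂) / G.L) ^ j * K.B) ^ 2 :=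
          Finset.sum_le_sum fun α hα => by
            have := inf_b4_atom_sq hDs ((inf_b4_mem_act D s z α).1 hα).1 z
            rw [hDL] at this
            exact this
      _ = ((D.act s z).card : ℝ) * ((G.L ^ n)⁻¹ * (((1 + C₂) / G.L) ^ j * K.B) ^ 2) := by rw [Finset.sum_const, nsmul_eq_mul]
      _ ≤ (Ca * G.L ^ n) * ((G.L ^ n)⁻¹ * (((1 + C₂) / G.L) ^ j * K.B) ^ 2) :=
          mul_le_mul_of_nonneg_right hcard (by positivity)
      _ = _ := by field_simp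
  calc ‖∑ α ∈ D.act s z, cf α * D.atom α z‖ ^ 2 ≤ (∑ α ∈ D.act s z, ‖cf α‖ * ‖D.atom α z‖) ^ 2 :=
        pow_le_pow_left₀ (norm_nonneg _) h1 2
    _ ≤ (∑ α ∈ D.act s z, ‖cf α‖ ^ 2) * ∑ α ∈ D.act s z, ‖D.atom α z‖ ^ 2 := h2
    _ ≤ ((1 + K.R) ^ P * G.L ^ n * G.env s cf P z) * (Ca * (((1 + C₂) / G.L) ^ j * K.B) ^ 2) :=
        mul_le_mul hcf h3 (Finset.sum_nonneg fun _ _ => by positivity) (by positivity)
    _ = _ := by
        rw [div_pow, mul_pow, div_pow, ← pow_mul, ← pow_mul, mul_comm j 2]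
        field_simp

/-! ## 4. reduction to the integer levels -/

/-- L-FLC-LEVEL (~150 l.).   **A witness at `z` gives a witness at `z - θ (e,0)` for one of the derivative arrays.**   `C` from `flc_rem n K C₂ P n`;  `C₀ = max 1 (4 C 2^P)`.   `z₀ = z - θ(e,0)`, `u j θ' = (flcD e G j).fld s cf (z₀ + θ'(e,0))` (`flc_d_hasDerivAt`), `u 0 θ = G.fld s cf z`.
For `θ' ∈ [0,1]`: `z₀ + θ'(e,0) = z + ((θ'-θ) e, 0)`, `‖(θ'-θ) e‖ ≤ 1`: `env ≤ 2^P` (`flc_env_shift`), so `‖u n θ'‖² ≤ C h^n/h^{2n} 2^P = C 2^P / h^n ≤ C 2^P/h ≤ 1/4` (`n ≥ 1`, `h ≥ 1`).   `flc_chain` with `N = n`, `M = 1/2`: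
`a ≤ ∑_{j<n} ‖u j 0‖ + 1/2 ≤ ∑ + a/2`; if all the terms were `< a/(2n)` the sum would be `< a/2` (`Finset.sum_lt_sum_of_nonempty` / `Finset.exists_le_of_sum_le`). -/
theorem flc_level (n : ℕ) (hn : 1 ≤ n) (K : Cls) (hR : 0 ≤ K.R) (hB : 0 ≤ K.B) (C₂ : ℝ) (hC₂ : 0 ≤ C₂) (P : ℕ) (hJ : n ≤ K.J) : ∃ C₀ : ℝ, ∀ (ι : Type) (G : Arr n ι) (s : Finset ι) (cf : ι → ℂ) (e : E n) (z : ST n) (θ a : ℝ),
    ‖e‖ ≤ 1 → G.In s K → (∀ α ∈ s, ∃ m : ℤ, G.tc α = m) → (∀ α ∈ s, |flcGa e G α| ≤ C₂) → C₀ ≤ G.L → 1 ≤ a →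
    a ≤ ‖G.fld s cf z‖ → G.env s cf P z ≤ 1 → 0 ≤ θ → θ ≤ 1 →
    ∃ j < n, a / (2 * n) ≤ ‖(flcD e G j).fld s cf (z - θ • ((e, (0 : ℝ)) : ST n))‖ ∧ G.env s cf P (z - θ • ((e, (0 : ℝ)) : ST n)) ≤ 2 ^ P := by
  obtain ⟨C, hC, hrem⟩ := flc_rem n K hR hB C₂ hC₂ P n hJ
  refine ⟨max 1 (4 * C * 2 ^ P), ?_⟩
  intro ι G s cf e z θ a he hG htc hfl hC₀ ha haz henv hθ0 hθ1
  have hL : 1 ≤ G.L := hG.one_le
  have hL0 : 0 < G.L := by linarith
  have hCL : 4 * C * 2 ^ P ≤ G.L := (le_max_right _ _).trans hC₀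
  obtain ⟨z₀, hz₀⟩ : ∃ z₀, z₀ = z - θ • ((e, (0 : ℝ)) : ST n) := ⟨_, rfl⟩
  rw [← hz₀]
  have hshift : ∀ θ' ∈ Icc (0 : ℝ) 1, G.env s cf P (z₀ + θ' • ((e, (0 : ℝ)) : ST n)) ≤ 2 ^ P := by
    intro θ' hθ'
    have e1 : z₀ + θ' • ((e, (0 : ℝ)) : ST n) = z + ((θ' - θ) • e, (0 : ℝ)) := by
      rw [hz₀]
      ext1
      · simp only [Prod.fst_add, Prod.fst_sub, Prod.smul_fst]
        rw [sub_smul]
        abel
      · simp
    rw [e1]
    have hd : ‖(θ' - θ) • e‖ ≤ 1 := by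
      rw [norm_smul, Real.norm_eq_abs]
      have h1 : |θ' - θ| ≤ 1 := by
        rw [abs_le]
        constructor <;> linarith [hθ'.1, hθ'.2]
      nlinarith [norm_nonneg e, abs_nonneg (θ' - θ)]
    refine (flc_env_shift G hL s cf P z _ hd).trans ?_
    have : (0 : ℝ) ≤ 2 ^ P := by positivity
    nlinarith
  have henv0 : G.env s cf P z₀ ≤ 2 ^ P := by
    have := hshift 0 (left_mem_Icc.2 zero_le_one)
    simpa using this
  have hM : ∀ θ' ∈ Icc (0 : ℝ) 1, ‖(flcD e G n).fld s cf (z₀ + θ' • ((e, (0 : ℝ)) : ST n))‖ ≤ 1 / 2 := by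
    intro θ' hθ'
    have h1 := hrem ι G s cf e (z₀ + θ' • ((e, (0 : ℝ)) : ST n)) he hG htc hfl
    have h2 := hshift θ' hθ'
    have hLn : G.L ≤ G.L ^ n := by
      calc G.L = G.L ^ 1 := (pow_one _).symm
        _ ≤ G.L ^ n := pow_le_pow_right₀ hL hn
    have e2 : C * G.L ^ n / G.L ^ (2 * n) = C / G.L ^ n := by
      rw [two_mul, pow_add]
      field_simp
    rw [e2] at h1
    have h3 : C / G.L ^ n * G.env s cf P (z₀ + θ' • ((e, (0 : ℝ)) : ST n)) ≤ 1 / 4 := by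
      calc C / G.L ^ n * G.env s cf P (z₀ + θ' • ((e, (0 : ℝ)) : ST n)) ≤ C / G.L ^ n * 2 ^ P :=
            mul_le_mul_of_nonneg_left h2 (by positivity)
        _ = C * 2 ^ P / G.L ^ n := by ring
        _ ≤ 1 / 4 := by
            rw [div_le_iff₀ (by positivity)]
            linarith
    have h4 : ‖(flcD e G n).fld s cf (z₀ + θ' • ((e, (0 : ℝ)) : ST n))‖ ^ 2 ≤ (1 / 2) ^ 2 := by
      refine h1.trans (h3.trans (le_of_eq ?_))
      norm_num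
    exact (pow_le_pow_iff_left₀ (norm_nonneg _) (by norm_num) two_ne_zero).1 h4
  have hch := flc_chain (fun j θ' => (flcD e G j).fld s cf (z₀ + θ' • ((e, (0 : ℝ)) : ST n)))
    (fun j θ' => flc_d_hasDerivAt hG e cf j z₀ θ') n (1 / 2) hM θ ⟨hθ0, hθ1⟩
  simp only [zero_smul, add_zero] at hch
  have e3 : z₀ + θ • ((e, (0 : ℝ)) : ST n) = z := by rw [hz₀, sub_add_cancel]
  rw [e3, flc_d_zero] at hch
  have hn0 : (0 : ℝ) < n := by exact_mod_cast hn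
  by_contra hcon
  push Not at hcon
  have hlt : ∀ j ∈ Finset.range n, ‖(flcD e G j).fld s cf z₀‖ < a / (2 * n) := by
    intro j hj
    by_contra h5
    push Not at h5
    exact absurd henv0 (not_le.2 (hcon j (Finset.mem_range.1 hj) h5))
  have hsum : ∑ j ∈ Finset.range n, ‖(flcD e G j).fld s cf z₀‖ < ∑ _j ∈ Finset.range n, a / (2 * n) :=
    Finset.sum_lt_sum_of_nonempty (Finset.nonempty_range_iff.2 (by omega)) hlt
  rw [Finset.sum_const, Finset.card_range, nsmul_eq_mul] at hsum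
  have e4 : (n : ℝ) * (a / (2 * n)) = a / 2 := by field_simp
  rw [e4] at hsum
  linarith

/-! ## 5. the boost -/

/-- the boosted point -/
noncomputable def flcBz (e : E n) (β₀ : ℝ) (z : ST n) : ST n := pmap 1 (β₀ • e) z

/-- the boosted array: frequencies `ω - β₀ e` -/
noncomputable def flcBo (e : E n) (β₀ : ℝ) (A : Arr n ι) : Arr n ι := A.resc 1 (β₀ • e)

/-- L-FLC-BOOST (the statements `flc_bo_*`, ~200 l. together).   `Arr.resc`, `div_one`. -/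
theorem flc_bo_L (e : E n) (β₀ : ℝ) (A : Arr n ι) : (flcBo e β₀ A).L = A.L := by
  unfold flcBo Arr.resc
  simp only [div_one]

/-- L-FLC-BOOST -/
theorem flc_bo_om (e : E n) (β₀ : ℝ) (A : Arr n ι) (α : ι) : (flcBo e β₀ A).om α = A.om α - β₀ • e := by
  unfold flcBo Arr.resc
  simp only [one_smul]

/-- L-FLC-BOOST -/
theorem flc_bo_tc (e : E n) (β₀ : ℝ) (A : Arr n ι) : (flcBo e β₀ A).tc = A.tc := rfl

/-- L-FLC-BOOST.   `inf_fld_resc_norm` with `H = 1` (`Real.one_rpow`) -/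
theorem flc_bo_fld (e : E n) (β₀ : ℝ) (A : Arr n ι) (hL : 0 < A.L) (s : Finset ι) (cf : ι → ℂ) (z : ST n) :
    ‖(flcBo e β₀ A).fld s cf (flcBz e β₀ z)‖ = ‖A.fld s cf z‖ := by
  rw [inf_fld_resc_norm A hL one_pos (β₀ • e) s cf z, Real.one_rpow, one_mul]
  rfl

/-- L-FLC-BOOST.   `inf_chart_resc` with `H = 1` -/
theorem flc_bo_env (e : E n) (β₀ : ℝ) (A : Arr n ι) (hL : 0 < A.L) (s : Finset ι) (cf : ι → ℂ) (P : ℕ) (z : ST n) :
    (flcBo e β₀ A).env s cf P (flcBz e β₀ z) = A.env s cf P z := by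
  have hc : ∀ α, chart (flcBo e β₀ A).L ((flcBo e β₀ A).om α) ((flcBo e β₀ A).y α) ((flcBo e β₀ A).tc α) (flcBz e β₀ z)
      = chart A.L (A.om α) (A.y α) (A.tc α) z := fun α =>
    inf_chart_resc hL.ne' one_ne_zero (A.om α) (A.y α) (β₀ • e) (A.tc α) z
  unfold Arr.env Arr.wt
  simp only [hc]
  rw [flc_bo_L]

/-- L-FLC-BOOST.   `inf_in_resc_int` with `H = 1`, `ρ = Rω + C₂` (`‖ω - β₀ e‖ ≤ ‖ω‖ + |β₀|`) -/
theorem flc_bo_in {A : Arr n ι} {s : Finset ι} {K : Cls} (hA : A.In s K) (hint : ∀ α ∈ s, ∃ m : ℤ, A.tc α = m) {e : E n} (he : ‖e‖ = 1) {β₀ C₂ : ℝ} (hβ : |β₀| ≤ C₂) :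
    (flcBo e β₀ A).In s { K with Rω := K.Rω + C₂, m₀ := 3 * K.m₀ } := by
  refine inf_in_resc_int hA hint one_pos hA.one_le (β₀ • e) fun α hα => ?_
  rw [div_one]
  calc ‖A.om α - β₀ • e‖ ≤ ‖A.om α‖ + ‖β₀ • e‖ := norm_sub_le _ _
    _ ≤ K.Rω + C₂ := by
        rw [norm_smul, he, mul_one, Real.norm_eq_abs]
        exact add_le_add (hA.freq α hα) hβ

/-- L-FLC-BOOST.   `⟪e, ω - β₀ e⟫ = ⟪e,ω⟫ - β₀` (`‖e‖ = 1`), multiply by `h > 0` -/
theorem flc_bo_flat (A : Arr n ι) (hL : 0 < A.L) {e : E n} (he : ‖e‖ = 1) {β₀ C₂ : ℝ} {α : ι} (h : |⟪e, A.om α⟫_ℝ - β₀| ≤ C₂ / A.L) :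
    |flcGa e (flcBo e β₀ A) α| ≤ C₂ := by
  unfold flcGa
  rw [flc_bo_L, flc_bo_om, inner_sub_right, inner_smul_right, real_inner_self_eq_norm_sq, he, one_pow, mul_one, abs_mul,
    abs_of_pos hL]
  rw [le_div_iff₀ hL] at h
  linarith

end Claimed.Agent.R257
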