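import Claimed.Agent.R257.Fl.C2

/-!
# R257 / Fl / C3 : FL-C (flat frame), part 3: CELLS, PATTERNS, COUNTING, EXIT            (helper185)            -- CONTRACT: every `sorry` is a registered leaf `L-FLC-*`

EXIT:  `flc_main : FrameStmt k → FlatFrameStmt k`.      PAPER FREE.   RULE FOR PROVERS: prove IN PLACE, statement verbatim, helper lemmas with the prefix `flc_` directly above the theorem; report a false statement to helper185 at once.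

Adapted coordinates of `z ∈ ST (k+1)`: boosted point `flcBz e β₀ z`, tangential part `flcTg = (Pr x̃, t - t₀) ∈ ST k` (`t₀ = τ₀h²`), normal part `flcNo = ⟪e, x̃⟫`.
A cube `q ∈ Y` has, for every family `i`, the cell `flcCell (flcTg (wz i q)) ∈ MI k`, the level `⌊flcNo (wz i q)⌋ ∈ ℤ` and the order `jj i q < k + 1` of the derivative array (`flc_wit`).
PATTERN of `q` = (cell_i - cell_0, level_i - level_0, order_i)_i: polynomially many in `ρ`.   For a fixed pattern and a fixed level of the family `0`: `FrameWith k` for the translated slices (`flc_pat`).   The sum over the levels costs `2r + 1` (`flc_sl_energy`).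
-/

set_option autoImplicit false

namespace Claimed.Agent.R257

open MeasureTheory Metric Set
open scoped ENNReal InnerProductSpace

variable {k n : ℕ} {ι : Type}

/-! ## 1. cells -/

/-- the unit cell of a point -/
noncomputable def flcCell (p : ST n) : MI n := (fun i => ⌊p.1 i⌋, ⌊p.2⌋)

/-- integer vector as a point of space-time -/
noncomputable def flcVec (o : MI n) : ST n := (flLat o.1, (o.2 : ℝ))

/-- the box `{|o|_∞ ≤ M}` -/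
noncomputable def flcBx (n : ℕ) (M : ℤ) : Finset (MI n) := Fintype.piFinset (fun _ => Finset.Icc (-M) M) ×ˢ Finset.Icc (-M) M

/-- L-FLC-CELL (the six statements `flc_cell_*`, `flc_bx_card`, ~200 l. together).   `Int.floor_le`, `Int.lt_floor_add_one` -/
theorem flc_cell_mem (p : ST n) : p ∈ cube (flcCell p) := by
  exact ⟨fun i => ⟨Int.floor_le _, Int.lt_floor_add_one _⟩, Int.floor_le _, Int.lt_floor_add_one _⟩

/-- L-FLC-CELL.   `Int.floor_eq_iff` -/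
theorem flc_cell_eq {p : ST n} {q : MI n} (h : p ∈ cube q) : flcCell p = q := by
  exact Prod.ext (funext fun i => Int.floor_eq_iff.2 (h.1 i)) (Int.floor_eq_iff.2 h.2)

/-- L-FLC-CELL.   `Int.floor_sub_intCast`; `flLat o i = o i` -/
theorem flc_cell_sub (p : ST n) (o : MI n) : p - flcVec o ∈ cube (flcCell p - o) := by
  refine ⟨fun i => ?_, ?_⟩
  · have e1 : (p - flcVec o).1 i = p.1 i - (o.1 i : ℝ) := rfl
    have e2 : (((flcCell p - o).1 i : ℤ) : ℝ) = (⌊p.1 i⌋ : ℝ) - (o.1 i : ℝ) := by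
      have : (flcCell p - o).1 i = ⌊p.1 i⌋ - o.1 i := rfl
      rw [this]
      push_cast
      rfl
    rw [e1, e2]
    constructor
    · linarith [Int.floor_le (p.1 i)]
    · linarith [Int.lt_floor_add_one (p.1 i)]
  · have e1 : (p - flcVec o).2 = p.2 - (o.2 : ℝ) := rfl
    have e2 : (((flcCell p - o).2 : ℤ) : ℝ) = (⌊p.2⌋ : ℝ) - (o.2 : ℝ) := by
      have : (flcCell p - o).2 = ⌊p.2⌋ - o.2 := rfl
      rw [this]
      push_cast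
      rfl
    rw [e1, e2]
    constructor
    · linarith [Int.floor_le p.2]
    · linarith [Int.lt_floor_add_one p.2]

theorem flc_floor_near {x y D : ℝ} {M : ℤ} (h : |x - y| ≤ D) (hM : D + 1 ≤ M) : ⌊x⌋ - ⌊y⌋ ∈ Finset.Icc (-M) M := by
  obtain ⟨h1, h2⟩ := abs_le.1 h
  have a1 := Int.floor_le x
  have a2 := Int.lt_floor_add_one x
  have a3 := Int.floor_le y
  have a4 := Int.lt_floor_add_one y
  rw [Finset.mem_Icc]
  constructor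
  · have : ((-M : ℤ) : ℝ) ≤ ((⌊x⌋ - ⌊y⌋ : ℤ) : ℝ) := by
      push_cast
      linarith
    exact_mod_cast this
  · have : ((⌊x⌋ - ⌊y⌋ : ℤ) : ℝ) ≤ (M : ℝ) := by
      push_cast
      linarith
    exact_mod_cast this

/-- L-FLC-CELL.   `|p.1 i - p'.1 i| ≤ ‖p.1 - p'.1‖ ≤ ‖p - p'‖` (`PiLp.norm_apply_le`, `norm_fst_le`), `|⌊x⌋ - ⌊y⌋| ≤ |x - y| + 1` as reals, then `Int.cast_le`; `Fintype.mem_piFinset`, `Finset.mem_product`, `Finset.mem_Icc`. -/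
theorem flc_cell_near {p p' : ST n} {D : ℝ} {M : ℤ} (h : ‖p - p'‖ ≤ D) (hM : D + 1 ≤ M) : flcCell p - flcCell p' ∈ flcBx n M := by
  unfold flcBx
  rw [Finset.mem_product, Fintype.mem_piFinset]
  refine ⟨fun i => ?_, ?_⟩
  · refine flc_floor_near (x := p.1 i) (y := p'.1 i) ?_ hM
    have h1 := PiLp.norm_apply_le (p.1 - p'.1) i
    rw [Real.norm_eq_abs] at h1
    exact h1.trans ((norm_fst_le (p - p')).trans h)
  · refine flc_floor_near (x := p.2) (y := p'.2) ?_ hM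
    have h1 := norm_snd_le (p - p')
    rw [Real.norm_eq_abs] at h1
    exact h1.trans h

/-- L-FLC-CELL.   `inf_cube_subset_ball` -/
theorem flc_cell_diam {p p' : ST n} (h : flcCell p = flcCell p') : ‖p - p'‖ ≤ Real.sqrt n + 1 := by
  have h1 := flc_cell_mem p
  have h2 := flc_cell_mem p'
  rw [h] at h1
  have h3 := inf_cube_subset_ball _ h2 h1
  rwa [mem_closedBall, dist_eq_norm] at h3

theorem flc_icc_card (M : ℤ) (hM : 0 ≤ M) : ((Finset.Icc (-M) M).card : ℝ) = 2 * (M : ℝ) + 1 := by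
  rw [Int.card_Icc]
  have h1 : (0 : ℤ) ≤ M + 1 - -M := by omega
  have h2 : (((M + 1 - -M).toNat : ℕ) : ℝ) = ((M + 1 - -M : ℤ) : ℝ) := by
    rw [← Int.cast_natCast, Int.toNat_of_nonneg h1]
  rw [h2]
  push_cast
  ring

/-- L-FLC-CELL.   `Finset.card_product`, `Fintype.card_piFinset`, `Int.card_Icc`, `Int.toNat_of_nonneg` -/
theorem flc_bx_card (n : ℕ) (M : ℤ) (hM : 0 ≤ M) : ((flcBx n M).card : ℝ) = (2 * (M : ℝ) + 1) ^ (n + 1) := by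
  unfold flcBx
  rw [Finset.card_product, Fintype.card_piFinset, Finset.prod_const, Finset.card_univ, Fintype.card_fin]
  push_cast
  rw [flc_icc_card M hM, pow_succ]

/-! ## 2. adapted coordinates -/

/-- tangential adapted coordinates (time recentred at `t₀`) -/
noncomputable def flcTg (Pr : E (k + 1) →ₗ[ℝ] E k) (e : E (k + 1)) (β₀ t₀ : ℝ) (z : ST (k + 1)) : ST k := (Pr (flcBz e β₀ z).1, (flcBz e β₀ z).2 - t₀)

/-- normal adapted coordinate -/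
noncomputable def flcNo (e : E n) (β₀ : ℝ) (z : ST n) : ℝ := ⟪e, (flcBz e β₀ z).1⟫_ℝ

section adapted
variable {e : E (k + 1)} {em : E k →ₗᵢ[ℝ] E (k + 1)} {Pr : E (k + 1) →ₗ[ℝ] E k}

theorem flc_bz_fst (e : E n) (β₀ : ℝ) (z : ST n) : (flcBz e β₀ z).1 = z.1 - (2 * z.2 * β₀) • e := by
  unfold flcBz pmap
  simp only [inv_one, one_smul]
  rw [smul_smul]

theorem flc_bz_snd (e : E n) (β₀ : ℝ) (z : ST n) : (flcBz e β₀ z).2 = z.2 := by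
  unfold flcBz pmap
  simp

theorem flc_bz_sub (e : E n) (β₀ : ℝ) (z z' : ST n) :
    (flcBz e β₀ z).1 - (flcBz e β₀ z').1 = (z.1 - z'.1) - (2 * (z.2 - z'.2) * β₀) • e := by
  rw [flc_bz_fst, flc_bz_fst]
  module

theorem flc_bz_sub_norm {e : E n} (he : ‖e‖ = 1) {β₀ C₂ : ℝ} (hβ : |β₀| ≤ C₂) (z z' : ST n) :
    ‖(flcBz e β₀ z).1 - (flcBz e β₀ z').1‖ ≤ (1 + 2 * C₂) * ‖z - z'‖ := by
  rw [flc_bz_sub]
  refine (norm_sub_le _ _).trans ?_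
  rw [norm_smul, he, mul_one, Real.norm_eq_abs, abs_mul, abs_mul, abs_two]
  have h1 : ‖z.1 - z'.1‖ ≤ ‖z - z'‖ := norm_fst_le (z - z')
  have h2 : |z.2 - z'.2| ≤ ‖z - z'‖ := by
    have := norm_snd_le (z - z')
    rwa [Real.norm_eq_abs] at this
  have h3 : 2 * |z.2 - z'.2| * |β₀| ≤ 2 * ‖z - z'‖ * C₂ :=
    mul_le_mul (by linarith) hβ (abs_nonneg _) (by positivity)
  linarith

/-- L-FLC-AD (three statements `flc_ad_*`, ~150 l. together).   `hF.dec` -/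
theorem flc_ad_pt (hF : FlcFr e em Pr) (β₀ t₀ : ℝ) (z : ST (k + 1)) :
    flcPt em e (flcTg Pr e β₀ t₀ z + ((0 : E k), t₀)) (flcNo e β₀ z) = flcBz e β₀ z := by
  unfold flcPt flcTg flcNo
  ext1
  · simp only [Prod.fst_add, add_zero]
    exact hF.dec _
  · simp

/-- L-FLC-AD.   `flcBz z - flcBz z' = ((x - x') - 2(t - t')β₀ e, t - t')` (unfold `pmap`, `inv_one`, `one_smul`, `one_pow`, `div_one`); `flc_fr_pr_norm`, `abs_real_inner_le_norm`, `norm_fst_le`, `norm_snd_le`. -/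
theorem flc_ad_lip (hF : FlcFr e em Pr) {β₀ C₂ : ℝ} (hβ : |β₀| ≤ C₂) (t₀ : ℝ) (z z' : ST (k + 1)) :
    ‖flcTg Pr e β₀ t₀ z - flcTg Pr e β₀ t₀ z'‖ ≤ (1 + 2 * C₂) * ‖z - z'‖ ∧ |flcNo e β₀ z - flcNo e β₀ z'| ≤ (1 + 2 * C₂) * ‖z - z'‖ := by
  have hC : 0 ≤ C₂ := (abs_nonneg _).trans hβ
  have h0 := flc_bz_sub_norm hF.unit hβ z z'
  constructor
  · unfold flcTg
    rw [Prod.norm_def]
    refine max_le ?_ ?_
    · simp only [Prod.fst_sub]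
      rw [← map_sub]
      exact (flc_fr_pr_norm hF _).trans h0
    · simp only [Prod.snd_sub]
      rw [flc_bz_snd, flc_bz_snd, Real.norm_eq_abs]
      have h2 : |z.2 - z'.2| ≤ ‖z - z'‖ := by
        have := norm_snd_le (z - z')
        rwa [Real.norm_eq_abs] at this
      have e1 : z.2 - t₀ - (z'.2 - t₀) = z.2 - z'.2 := by ring
      rw [e1]
      nlinarith [norm_nonneg (z - z')]
  · unfold flcNo
    rw [← inner_sub_right]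
    refine (abs_real_inner_le_norm _ _).trans ?_
    rw [hF.unit, one_mul]
    exact h0

/-- L-FLC-AD.   `x - x' = (x̃ - x̃') + 2(t - t')β₀ e`, `‖x̃ - x̃'‖ ≤ ‖Pr(x̃ - x̃')‖ + |⟪e, x̃ - x̃'⟫|` (`hF.dec`, `flc_fr_norm_le`). -/
theorem flc_ad_inv (hF : FlcFr e em Pr) {β₀ C₂ : ℝ} (hβ : |β₀| ≤ C₂) (t₀ : ℝ) (z z' : ST (k + 1)) :
    ‖z - z'‖ ≤ (1 + 2 * C₂) * ‖flcTg Pr e β₀ t₀ z - flcTg Pr e β₀ t₀ z'‖ + |flcNo e β₀ z - flcNo e β₀ z'| := by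
  have hC : 0 ≤ C₂ := (abs_nonneg _).trans hβ
  obtain ⟨Δ, hΔ⟩ : ∃ Δ, Δ = (flcBz e β₀ z).1 - (flcBz e β₀ z').1 := ⟨_, rfl⟩
  obtain ⟨N, hN⟩ : ∃ N, N = ‖flcTg Pr e β₀ t₀ z - flcTg Pr e β₀ t₀ z'‖ := ⟨_, rfl⟩
  have hN0 : 0 ≤ N := by rw [hN]; exact norm_nonneg _
  have h1 : ‖Pr Δ‖ ≤ N := by
    rw [hN, hΔ, map_sub]
    exact norm_fst_le (flcTg Pr e β₀ t₀ z - flcTg Pr e β₀ t₀ z')
  have h2 : |z.2 - z'.2| ≤ N := by
    have e0 : (flcTg Pr e β₀ t₀ z - flcTg Pr e β₀ t₀ z').2 = z.2 - z'.2 := by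
      unfold flcTg
      simp only [Prod.snd_sub]
      rw [flc_bz_snd, flc_bz_snd]
      ring
    have := norm_snd_le (flcTg Pr e β₀ t₀ z - flcTg Pr e β₀ t₀ z')
    rw [Real.norm_eq_abs, e0] at this
    rw [hN]
    exact this
  have h3 : flcNo e β₀ z - flcNo e β₀ z' = ⟪e, Δ⟫_ℝ := by
    unfold flcNo
    rw [← inner_sub_right, hΔ]
  have h4 : ‖Δ‖ ≤ ‖Pr Δ‖ + |⟪e, Δ⟫_ℝ| := by
    have := flc_fr_norm_le hF (Pr Δ) ⟪e, Δ⟫_ℝ
    rwa [hF.dec] at this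
  have h5 : z.1 - z'.1 = Δ + (2 * (z.2 - z'.2) * β₀) • e := by
    rw [hΔ, flc_bz_sub]
    abel
  rw [← hN, h3, Prod.norm_def]
  have habs := abs_nonneg ⟪e, Δ⟫_ℝ
  refine max_le ?_ ?_
  · simp only [Prod.fst_sub]
    rw [h5]
    refine (norm_add_le _ _).trans ?_
    rw [norm_smul, hF.unit, mul_one, Real.norm_eq_abs, abs_mul, abs_mul, abs_two]
    have h6 : 2 * |z.2 - z'.2| * |β₀| ≤ 2 * N * C₂ := mul_le_mul (by linarith) hβ (abs_nonneg _) (by positivity)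
    linarith
  · simp only [Prod.snd_sub]
    rw [Real.norm_eq_abs]
    nlinarith

end adapted

/-! ## 3. counting -/

/-- L-FLC-COUNT (~120 l.).   Abstract double counting.   `𝒜 = Y.image lev`.   `Y.card = ∑_{π ∈ Pi} ∑_{a ∈ 𝒜} #{q ∈ Y : pat q = π ∧ lev q = a}` (`Finset.card_eq_sum_card_fiberwise` twice, or once for `q ↦ (pat q, lev q)` into `Pi ×ˢ 𝒜`);
`#Y_{π,a} ≤ M₁ · #(image cell)` (`Finset.card_le_mul_card_image`; a fibre of `cell` in `Y_{π,a}` is contained in the set of `hfib`). -/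
theorem flc_count {Yt Pt Ct : Type} [DecidableEq Yt] [DecidableEq Pt] [DecidableEq Ct] (Y : Finset Yt) (Pi : Finset Pt) (pat : Yt → Pt) (lev : Yt → ℤ) (cell : Yt → Ct)
    (M₁ : ℕ) (F : Pt → ℤ → ℝ) (Etot : ℝ) (hpat : ∀ q ∈ Y, pat q ∈ Pi)
    (hfib : ∀ q₀ ∈ Y, (Y.filter fun q => cell q = cell q₀ ∧ lev q = lev q₀).card ≤ M₁)
    (hF : ∀ π ∈ Pi, ∀ a : ℤ, (((Y.filter fun q => pat q = π ∧ lev q = a).image cell).card : ℝ) ≤ F π a)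
    (hsum : ∀ π ∈ Pi, ∀ 𝒜 : Finset ℤ, ∑ a ∈ 𝒜, F π a ≤ Etot) :
    (Y.card : ℝ) ≤ Pi.card * M₁ * Etot := by
  have h1 : Y.card = ∑ x ∈ Pi ×ˢ Y.image lev, (Y.filter fun q => (pat q, lev q) = x).card :=
    Finset.card_eq_sum_card_fiberwise (f := fun q => (pat q, lev q)) fun q hq =>
      Finset.mem_coe.2 (Finset.mem_product.2 ⟨hpat q hq, Finset.mem_image_of_mem _ hq⟩)
  have h2 : ∀ x ∈ Pi ×ˢ Y.image lev, ((Y.filter fun q => (pat q, lev q) = x).card : ℝ) ≤ M₁ * F x.1 x.2 := by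
    intro x hx
    have e1 : (Y.filter fun q => (pat q, lev q) = x) = Y.filter fun q => pat q = x.1 ∧ lev q = x.2 := by
      refine Finset.filter_congr fun q _ => ?_
      rw [Prod.ext_iff]
    rw [e1]
    have h3 : (Y.filter fun q => pat q = x.1 ∧ lev q = x.2).card
        ≤ M₁ * ((Y.filter fun q => pat q = x.1 ∧ lev q = x.2).image cell).card := by
      refine Finset.card_le_mul_card_image _ _ ?_
      intro c hc
      obtain ⟨q₀, hq₀, rfl⟩ := Finset.mem_image.1 hc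
      obtain ⟨hq₀Y, _, hl₀⟩ := Finset.mem_filter.1 hq₀
      refine le_trans (Finset.card_le_card ?_) (hfib q₀ hq₀Y)
      intro q hq
      obtain ⟨hq1, hq2⟩ := Finset.mem_filter.1 hq
      obtain ⟨hqY, _, hl⟩ := Finset.mem_filter.1 hq1
      exact Finset.mem_filter.2 ⟨hqY, hq2, hl.trans hl₀.symm⟩
    have h4 := hF x.1 (Finset.mem_product.1 hx).1 x.2
    calc ((Y.filter fun q => pat q = x.1 ∧ lev q = x.2).card : ℝ)
        ≤ (M₁ : ℝ) * (((Y.filter fun q => pat q = x.1 ∧ lev q = x.2).image cell).card : ℝ) := by exact_mod_cast h3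
      _ ≤ _ := mul_le_mul_of_nonneg_left h4 (Nat.cast_nonneg _)
  calc (Y.card : ℝ) = ∑ x ∈ Pi ×ˢ Y.image lev, ((Y.filter fun q => (pat q, lev q) = x).card : ℝ) := by
        rw [h1]
        push_cast
        rfl
    _ ≤ ∑ x ∈ Pi ×ˢ Y.image lev, (M₁ : ℝ) * F x.1 x.2 := Finset.sum_le_sum h2
    _ = ∑ π ∈ Pi, (M₁ : ℝ) * ∑ a ∈ Y.image lev, F π a := by
        rw [Finset.sum_product]
        refine Finset.sum_congr rfl fun π _ => ?_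
        rw [Finset.mul_sum]
    _ ≤ ∑ _π ∈ Pi, (M₁ : ℝ) * Etot :=
        Finset.sum_le_sum fun π hπ => mul_le_mul_of_nonneg_left (hsum π hπ _) (Nat.cast_nonneg _)
    _ = _ := by
        rw [Finset.sum_const, nsmul_eq_mul]
        ring

/-- patterns: for every family (offset of the cell, offset of the level, order of the derivative) -/
abbrev FlcPat (k : ℕ) : Type := Fin (k + 1) → MI k × ℤ × ℕ

/-- the finite set of the possible patterns -/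
noncomputable def flcPats (k : ℕ) (M : ℤ) : Finset (FlcPat k) := Fintype.piFinset fun _ => flcBx k M ×ˢ Finset.Icc (-M) M ×ˢ Finset.range (k + 1)

/-- L-FLC-PATS (~50 l.).   `Fintype.card_piFinset`, `Finset.prod_const`, `Finset.card_product`, `flc_bx_card`, `Int.card_Icc`, `Finset.card_range` -/
theorem flc_pats_card (k : ℕ) (M : ℤ) (hM : 0 ≤ M) : ((flcPats k M).card : ℝ) = ((2 * (M : ℝ) + 1) ^ (k + 2) * ((k : ℝ) + 1)) ^ (k + 1) := by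
  unfold flcPats
  rw [Fintype.card_piFinset, Finset.prod_const, Finset.card_univ, Fintype.card_fin, Finset.card_product, Finset.card_product,
    Finset.card_range]
  push_cast
  rw [flc_bx_card k M hM, flc_icc_card M hM]
  congr 1
  ring

section geo
variable {e : E (k + 1)} {em : E k →ₗᵢ[ℝ] E (k + 1)} {Pr : E (k + 1) →ₗ[ℝ] E k}

theorem flc_count_geo_pts {ρ : ℝ} {q : MI n} {w w' : ST n} (h : ∃ z ∈ cube q, ‖w - z‖ ≤ ρ) (h' : ∃ z ∈ cube q, ‖w' - z‖ ≤ ρ) :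
    ‖w - w'‖ ≤ 2 * ρ + Real.sqrt n + 1 := by
  obtain ⟨z, hz, hwz⟩ := h
  obtain ⟨z', hz', hwz'⟩ := h'
  have h3 := inf_cube_subset_ball _ hz' hz
  rw [mem_closedBall, dist_eq_norm] at h3
  have e1 : w - w' = (w - z) + (z - z') - (w' - z') := by abel
  rw [e1]
  refine (norm_sub_le _ _).trans ?_
  have := norm_add_le (w - z) (z - z')
  linarith

/-- L-FLC-GEO (~300 l.).   **Geometric counting.**   `flc_count` with `Pi = flcPats k M`, `M₁ = (flcBx (k+1) M).card`, `cell q = flcCell (flcTg (wz 0 q))`, `lev q = ⌊flcNo (wz 0 q)⌋`,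
`pat q i = (flcCell (flcTg (wz i q)) - cell q, ⌊flcNo (wz i q)⌋ - lev q, jj i q)`.
`hpat`: `‖wz i q - wz 0 q‖ ≤ D₁ = 2ρ + √(k+1) + 1` (two points of `cube q`: `inf_cube_subset_ball`), `flc_ad_lip`, `flc_cell_near` (`(1+2C₂)D₁ + 1 ≤ M`), `|⌊x⌋ - ⌊y⌋| ≤ |x-y| + 1`.
`hfib`: same cell and level: `‖flcTg - flcTg'‖ ≤ √k + 1` (`flc_cell_diam`), `|flcNo - flcNo'| ≤ 1`; `flc_ad_inv`: `‖wz 0 q - wz 0 q₀‖ ≤ D₂ = (1+2C₂)(√k+1) + 1`; points `z ∈ cube q`, `z₀ ∈ cube q₀` with `‖z - z₀‖ ≤ 2ρ + D₂`; `flc_cell_eq`, `flc_cell_near`: `q - q₀ ∈ flcBx (k+1) M`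
 (`2ρ + D₂ + 1 ≤ M`); the map `q ↦ q - q₀` is injective (`Finset.card_le_card_of_injOn`).
`hF`: apply `hFb` to the image; for `q' = cell q`: `flc_cell_sub (flcTg (wz i q)) (π i).1` and `flcCell (flcTg (wz i q)) - (π i).1 = cell q`.      Cardinalities: `flc_pats_card`, `flc_bx_card`. -/
theorem flc_count_geo (hF : FlcFr e em Pr) {β₀ C₂ t₀ ρ : ℝ} (hβ : |β₀| ≤ C₂) (hρ : 0 ≤ ρ) {M : ℤ} (hM : (1 + 2 * C₂) * (2 * ρ + Real.sqrt ((k : ℝ) + 1) + 2) + 2 ≤ M)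
    (Y : Finset (MI (k + 1))) (wz : Fin (k + 1) → MI (k + 1) → ST (k + 1)) (hwz : ∀ q ∈ Y, ∀ i, ∃ z ∈ cube q, ‖wz i q - z‖ ≤ ρ)
    (jj : Fin (k + 1) → MI (k + 1) → ℕ) (hjj : ∀ q ∈ Y, ∀ i, jj i q < k + 1) (F : FlcPat k → ℤ → ℝ) (Etot : ℝ)
    (hFb : ∀ π ∈ flcPats k M, ∀ a : ℤ, ∀ Y' : Finset (MI k),
      (∀ q' ∈ Y', ∃ q ∈ Y, ∀ i, jj i q = (π i).2.2 ∧ ⌊flcNo e β₀ (wz i q)⌋ = a + (π i).2.1 ∧ flcTg Pr e β₀ t₀ (wz i q) - flcVec (π i).1 ∈ cube q') → (Y'.card : ℝ) ≤ F π a)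
    (hsum : ∀ π ∈ flcPats k M, ∀ 𝒜 : Finset ℤ, ∑ a ∈ 𝒜, F π a ≤ Etot) :
    (Y.card : ℝ) ≤ ((2 * (M : ℝ) + 1) ^ (k + 2) * ((k : ℝ) + 1)) ^ (k + 1) * (2 * (M : ℝ) + 1) ^ (k + 2) * Etot := by
  classical
  have hC : 0 ≤ C₂ := (abs_nonneg _).trans hβ
  obtain ⟨S, hS⟩ : ∃ S, S = Real.sqrt ((k : ℝ) + 1) := ⟨_, rfl⟩
  have hS0 : 0 ≤ S := by rw [hS]; exact Real.sqrt_nonneg _
  have hSk : Real.sqrt (k : ℝ) ≤ S := by rw [hS]; exact Real.sqrt_le_sqrt (by linarith)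
  have hSn : Real.sqrt (((k + 1 : ℕ) : ℝ)) = S := by rw [hS]; push_cast; rfl
  rw [← hS] at hM
  have hM0 : 0 ≤ M := by
    have : (0 : ℝ) ≤ (M : ℝ) := by
      have : 0 ≤ (1 + 2 * C₂) * (2 * ρ + S + 2) := by positivity
      linarith
    exact_mod_cast this
  obtain ⟨cell, hcell⟩ : ∃ cell : MI (k + 1) → MI k, cell = fun q => flcCell (flcTg Pr e β₀ t₀ (wz 0 q)) := ⟨_, rfl⟩
  obtain ⟨lev, hlev⟩ : ∃ lev : MI (k + 1) → ℤ, lev = fun q => ⌊flcNo e β₀ (wz 0 q)⌋ := ⟨_, rfl⟩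
  obtain ⟨pat, hpatd⟩ : ∃ pat : MI (k + 1) → FlcPat k, pat = fun q i =>
    (flcCell (flcTg Pr e β₀ t₀ (wz i q)) - cell q, ⌊flcNo e β₀ (wz i q)⌋ - lev q, jj i q) := ⟨_, rfl⟩
  have key := flc_count Y (flcPats k M) pat lev cell (flcBx (k + 1) M).card F Etot ?_ ?_ ?_ hsum
  · rw [flc_pats_card k M hM0, flc_bx_card (k + 1) M hM0] at key
    exact key
  · -- patterns
    intro q hq
    unfold flcPats
    rw [Fintype.mem_piFinset]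
    intro i
    have h1 := flc_count_geo_pts (hwz q hq i) (hwz q hq 0)
    rw [hSn] at h1
    obtain ⟨h2, h3⟩ := flc_ad_lip hF hβ t₀ (wz i q) (wz 0 q)
    have h4 : (1 + 2 * C₂) * ‖wz i q - wz 0 q‖ ≤ (1 + 2 * C₂) * (2 * ρ + S + 1) :=
      mul_le_mul_of_nonneg_left h1 (by positivity)
    have h5 : (1 + 2 * C₂) * (2 * ρ + S + 1) + 1 ≤ (M : ℝ) := by nlinarith
    rw [hpatd, Finset.mem_product, Finset.mem_product]
    refine ⟨?_, ?_, Finset.mem_range.2 (hjj q hq i)⟩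
    · simp only [hcell]
      exact flc_cell_near (h2.trans h4) h5
    · simp only [hlev]
      exact flc_floor_near (h3.trans h4) h5
  · -- fibres
    intro q₀ hq₀
    refine Finset.card_le_card_of_injOn (fun q => q - q₀) ?_ ?_
    · intro q hq
      obtain ⟨hqY, hc, hl⟩ := Finset.mem_filter.1 (Finset.mem_coe.1 hq)
      rw [hcell] at hc
      rw [hlev] at hl
      have h1 := flc_cell_diam hc
      have h2 : |flcNo e β₀ (wz 0 q) - flcNo e β₀ (wz 0 q₀)| ≤ 1 := by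
        have a1 := Int.floor_le (flcNo e β₀ (wz 0 q))
        have a2 := Int.lt_floor_add_one (flcNo e β₀ (wz 0 q))
        have a3 := Int.floor_le (flcNo e β₀ (wz 0 q₀))
        have a4 := Int.lt_floor_add_one (flcNo e β₀ (wz 0 q₀))
        simp only [] at hl
        rw [hl] at a1 a2
        rw [abs_le]
        constructor <;> linarith
      have h3 := flc_ad_inv hF hβ t₀ (wz 0 q) (wz 0 q₀)
      have h4 : ‖wz 0 q - wz 0 q₀‖ ≤ (1 + 2 * C₂) * (S + 1) + 1 := by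
        have : (1 + 2 * C₂) * ‖flcTg Pr e β₀ t₀ (wz 0 q) - flcTg Pr e β₀ t₀ (wz 0 q₀)‖ ≤ (1 + 2 * C₂) * (S + 1) :=
          mul_le_mul_of_nonneg_left (by linarith) (by positivity)
        linarith
      obtain ⟨z, hz, hwz1⟩ := hwz q hqY 0
      obtain ⟨z₀, hz₀, hwz2⟩ := hwz q₀ hq₀ 0
      have h5 : ‖z - z₀‖ ≤ 2 * ρ + ((1 + 2 * C₂) * (S + 1) + 1) := by
        have e1 : z - z₀ = (wz 0 q - wz 0 q₀) - (wz 0 q - z) + (wz 0 q₀ - z₀) := by abel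
        rw [e1]
        refine (norm_add_le _ _).trans ?_
        have := norm_sub_le (wz 0 q - wz 0 q₀) (wz 0 q - z)
        linarith
      have h6 : 2 * ρ + ((1 + 2 * C₂) * (S + 1) + 1) + 1 ≤ (M : ℝ) := by nlinarith
      have h7 := flc_cell_near h5 h6
      rw [flc_cell_eq hz, flc_cell_eq hz₀] at h7
      exact Finset.mem_coe.2 h7
    · intro q _ q' _ hqq
      exact sub_left_injective hqq
  · -- images
    intro π hπ a
    refine hFb π hπ a _ ?_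
    intro q' hq'
    obtain ⟨q, hq, rfl⟩ := Finset.mem_image.1 hq'
    obtain ⟨hqY, hp, hl⟩ := Finset.mem_filter.1 hq
    refine ⟨q, hqY, fun i => ?_⟩
    have hpi : pat q i = π i := by rw [hp]
    rw [hpatd] at hpi
    simp only [] at hpi
    refine ⟨?_, ?_, ?_⟩
    · rw [← hpi]
    · rw [← hpi, ← hl]
      simp
    · have h1 := flc_cell_sub (flcTg Pr e β₀ t₀ (wz i q)) (π i).1
      have e2 : flcCell (flcTg Pr e β₀ t₀ (wz i q)) - (π i).1 = cell q := by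
        rw [← hpi]
        simp
      rwa [e2] at h1

end geo

/-! ## 4. `FrameWith`: two reformulations -/

/-- L-FLC-FRAME (two statements, ~120 l. together).   `C Q^C ≤ C' Q^{C'}` (`C ≤ 0`: sign; `C > 0`: `Real.rpow_le_rpow_of_exponent_le`); the other factors are `≥ 0` (`a i ≥ h^c > 0`). -/
theorem flc_frame_mono {c T₀ C C' : ℝ} {K : Cls} {P : ℕ} (h : FrameWith k c K T₀ P C) (hC : C ≤ C') (h0 : 0 ≤ C') : FrameWith k c K T₀ P C' := by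
  intro ι A s cf hh Q a Y wz h2 hL hA htc hQ htr ha hw
  refine (h ι A s cf hh Q a Y wz h2 hL hA htc hQ htr ha hw).trans ?_
  have hh0 : 0 < hh := by linarith
  have ha0 : ∀ i, 0 < a i := fun i => lt_of_lt_of_le (Real.rpow_pos_of_pos hh0 c) (ha i)
  have hQ0 : 0 < Q := by linarith
  have h3 : 0 ≤ (∏ i, a i) ^ (-(4 / ((k : ℝ) * ((k : ℝ) + 1)))) :=
    Real.rpow_nonneg (Finset.prod_nonneg fun i _ => (ha0 i).le) _
  have h4 : 0 ≤ ∑ i, hh ^ 2 * energy (s i) (cf i) / a i ^ 2 := by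
    refine Finset.sum_nonneg fun i _ => ?_
    have : 0 ≤ energy (s i) (cf i) := Finset.sum_nonneg fun α _ => sq_nonneg _
    have := ha0 i
    positivity
  refine mul_le_mul_of_nonneg_right (mul_le_mul_of_nonneg_right ?_ h3) h4
  rcases le_or_gt C 0 with hC0 | hC0
  · have a1 : C * Q ^ C ≤ 0 := mul_nonpos_of_nonpos_of_nonneg hC0 (Real.rpow_nonneg hQ0.le _)
    have a2 : 0 ≤ C' * Q ^ C' := mul_nonneg h0 (Real.rpow_nonneg hQ0.le _)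
    linarith
  · exact mul_le_mul hC (Real.rpow_le_rpow_of_exponent_le hQ hC) (Real.rpow_nonneg hQ0.le _) h0

/-- L-FLC-FRAME.   the witnesses are chosen (`Classical.choose`; outside `Y` any value) -/
theorem flc_frame_ex {c T₀ C : ℝ} {K : Cls} {P : ℕ} (hFW : FrameWith k c K T₀ P C) (A : Fin (k + 1) → Arr k ι) (s : Fin (k + 1) → Finset ι) (cf : Fin (k + 1) → ι → ℂ) (h Q : ℝ)
    (a : Fin (k + 1) → ℝ) (Y : Finset (MI k)) (h2 : 2 ≤ h) (hL : ∀ i, (A i).L = h) (hA : ∀ i, (A i).In (s i) K) (htc : ∀ i, ∀ α ∈ s i, |(A i).tc α| ≤ T₀)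
    (hQ : 1 ≤ Q) (htr : ∀ lb : Fin (k + 1) → ι, (∀ i, lb i ∈ s i) → Transv Q (fun i => (A i).om (lb i))) (ha : ∀ i, h ^ c ≤ a i)
    (hw : ∀ q ∈ Y, ∀ i, ∃ z ∈ cube q, a i ≤ ‖(A i).fld (s i) (cf i) z‖ ∧ (A i).env (s i) (cf i) P z ≤ 1) :
    (Y.card : ℝ) ≤ C * Q ^ C * (∏ i, a i) ^ (-(4 / ((k : ℝ) * ((k : ℝ) + 1)))) * ∑ i, h ^ 2 * energy (s i) (cf i) / a i ^ 2 := by
  classical
  refine hFW ι A s cf h Q a Y (fun i q => if hq : q ∈ Y then Classical.choose (hw q hq i) else 0) h2 hL hA htc hQ htr ha ?_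
  intro q hq i
  simp only [dif_pos hq]
  obtain ⟨h1, h3, h4⟩ := Classical.choose_spec (hw q hq i)
  exact ⟨h1, h3, h4⟩

/-! ## 5. a fixed pattern -/

/-- the bound of the profiles in `FlatFrameStmt` -/
noncomputable def flcB (k J₀ : ℕ) (C₂ : ℝ) : ℝ := ((1 + C₂) ^ (2 * (J₀ + (k + 1)) + (k + 1)))⁻¹

section pat
variable {e : E (k + 1)} {em : E k →ₗᵢ[ℝ] E (k + 1)} {Pr : E (k + 1) →ₗ[ℝ] E k}

/-- L-FLC-W-IN (~120 l.).   **The class of the translated slice of a derivative array.**   `flc_d_in` (`j ≤ k+1 ≤ K.J`, bound `((1+C₂)/h)^j b ≤ (1+C₂)^j b`), `flc_sl_in` (with `flc_d_ga`, `flc_d_lab`), `flc_tr_in`, `inf_in_mono`: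
derivative order `J₀ + (k+1) - j ≥ J₀`; bound `(1+C₂)^{2(J₀+k+1-j)} (1+C₂)^j flcB ≤ (1+C₂)^{2(J₀+k+1)+(k+1)} flcB = 1`. -/
theorem flc_w_in (hF : FlcFr e em Pr) {G : Arr (k + 1) ι} {s : Finset ι} {J₀ m₀ : ℕ} {R Rw C₂ r : ℝ} (hC₂ : 0 ≤ C₂) (hr : 0 ≤ r)
    (hG : G.In s ⟨J₀ + (k + 1), R, flcB k J₀ C₂, Rw, m₀⟩) (hfl : ∀ α ∈ s, |flcGa e G α| ≤ C₂) (j : ℕ) (hj : j ≤ k + 1) (a : ℝ) (o : ST k) :
    (flcTr (flcSl em Pr e (flcD e G j) a) o).In (flcLab e G s r a) ⟨J₀, R, 1, Rw, flcM (k + 1) (1 + r + 2 * C₂) m₀⟩ := by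
  have hu : 1 ≤ 1 + C₂ := by linarith
  have hL := hG.one_le
  have hB : (1 + C₂) ^ (2 * (J₀ + (k + 1) - j)) * (((1 + C₂) / G.L) ^ j * flcB k J₀ C₂) ≤ 1 := by
    have h1 : ((1 + C₂) / G.L) ^ j ≤ (1 + C₂) ^ j :=
      pow_le_pow_left₀ (by positivity) (div_le_self (by linarith) hL) j
    have hN : 0 < (1 + C₂) ^ (2 * (J₀ + (k + 1)) + (k + 1)) := by positivity
    have h2 : (1 + C₂) ^ (2 * (J₀ + (k + 1) - j)) * (1 + C₂) ^ j ≤ (1 + C₂) ^ (2 * (J₀ + (k + 1)) + (k + 1)) := by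
      rw [← pow_add]
      exact pow_le_pow_right₀ hu (by omega)
    unfold flcB
    calc (1 + C₂) ^ (2 * (J₀ + (k + 1) - j)) * (((1 + C₂) / G.L) ^ j * ((1 + C₂) ^ (2 * (J₀ + (k + 1)) + (k + 1)))⁻¹)
        ≤ (1 + C₂) ^ (2 * (J₀ + (k + 1) - j)) * ((1 + C₂) ^ j * ((1 + C₂) ^ (2 * (J₀ + (k + 1)) + (k + 1)))⁻¹) := by
          gcongr
      _ = ((1 + C₂) ^ (2 * (J₀ + (k + 1) - j)) * (1 + C₂) ^ j) * ((1 + C₂) ^ (2 * (J₀ + (k + 1)) + (k + 1)))⁻¹ := by ring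
      _ ≤ (1 + C₂) ^ (2 * (J₀ + (k + 1)) + (k + 1)) * ((1 + C₂) ^ (2 * (J₀ + (k + 1)) + (k + 1)))⁻¹ := by
          gcongr
      _ = 1 := mul_inv_cancel₀ hN.ne'
  have h1 := flc_d_in hG hF.unit.le hfl j (show j ≤ J₀ + (k + 1) by omega)
  have h2 := flc_sl_in hF h1 hC₂ hr (fun α hα => by rw [flc_d_ga]; exact hfl α hα) a
  rw [flc_d_lab] at h2
  have h3 := flc_tr_in h2 o
  exact inf_in_mono h3 (Finset.Subset.refl _) (show J₀ ≤ J₀ + (k + 1) - j by omega) le_rfl hB le_rfl le_rfl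

/-- L-FLC-PAT (~250 l.).   **`FrameWith k` for a fixed pattern.**   `r = R(1+2C₂)`.   `flc_frame_ex hFW` with   `A i = flcTr (flcSl em Pr e (flcD e (G i) (jj i)) (lv i)) (o i)`,   labels `flcLab e (G i) (s i) r (lv i)`,
coefficients `fun α => (κ : ℂ) * flcTc (flcSl …) (flcCf e (G i) (cf i) (lv i)) (o i) α`,   levels `κ * a' i`.
* class: `flc_w_in`;   `L = h`: `rfl` + `flc_d_L`;   `tc α = (G i).tc α - (o i).2/h²` (`flc_d_tc`): `|tc| ≤ |tc_G - τ₀| + |τ₀h² - (o i).2|/h² ≤ T₁ + 1`;   `om α = Pr ((G i).om α)` (`flc_d_om`): `htr` (labels `⊆ s i`: `flc_mem_lab`);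
* field at `p`: `flc_smul_fld`, `flc_tr_fld`, `flc_sl_fld` for `flcD e (G i) (jj i)` (supports `≤ R` from `flc_d_in`; `flc_d_ga`, `flc_d_lab`, `flc_d_cf`): `= κ · (flcD e (G i) (jj i)).fld (s i) (cf i) (flcPt em e (p + o i) (lv i))`;
* envelope at `p`: `flc_smul_env`, `flc_tr_env`, `flc_sl_env`, `flc_d_env`: `≤ κ² (1+r+2C₂)^P 2^P ≤ 1`;
* energy: `flc_smul_energy`, `flc_tr_energy`. -/
theorem flc_pat (hF : FlcFr e em Pr) {c' R Rw T₁ C₂ CF : ℝ} {m₀ P J₀ : ℕ} (hR : 0 ≤ R) (hC₂ : 0 ≤ C₂)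
    (hFW : FrameWith k c' ⟨J₀, R, 1, Rw, flcM (k + 1) (1 + R * (1 + 2 * C₂) + 2 * C₂) m₀⟩ (T₁ + 1) P CF)
    (G : Fin (k + 1) → Arr (k + 1) ι) (s : Fin (k + 1) → Finset ι) (cf : Fin (k + 1) → ι → ℂ) (h Q τ₀ : ℝ) (a' : Fin (k + 1) → ℝ)
    (h2 : 2 ≤ h) (hL : ∀ i, (G i).L = h) (hG : ∀ i, (G i).In (s i) ⟨J₀ + (k + 1), R, flcB k J₀ C₂, Rw, m₀⟩)
    (htc : ∀ i, ∀ α ∈ s i, |(G i).tc α - τ₀| ≤ T₁) (hfl : ∀ i, ∀ α ∈ s i, |flcGa e (G i) α| ≤ C₂)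
    (hQ : 1 ≤ Q) (htr : ∀ lb : Fin (k + 1) → ι, (∀ i, lb i ∈ s i) → Transv Q (fun i => Pr ((G i).om (lb i))))
    (jj : Fin (k + 1) → ℕ) (hjj : ∀ i, jj i ≤ k + 1) (lv : Fin (k + 1) → ℝ) (o : Fin (k + 1) → ST k) (ho : ∀ i, |(o i).2 - τ₀ * h ^ 2| ≤ h ^ 2)
    (κ : ℝ) (hκ : 0 < κ) (hκ' : κ ^ 2 * ((1 + R * (1 + 2 * C₂) + 2 * C₂) ^ P * 2 ^ P) ≤ 1) (ha : ∀ i, h ^ c' ≤ κ * a' i) (Y' : Finset (MI k))
    (hw : ∀ q' ∈ Y', ∀ i, ∃ p ∈ cube q', a' i ≤ ‖(flcD e (G i) (jj i)).fld (s i) (cf i) (flcPt em e (p + o i) (lv i))‖ ∧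
      (G i).env (s i) (cf i) P (flcPt em e (p + o i) (lv i)) ≤ 2 ^ P) :
    (Y'.card : ℝ) ≤ CF * Q ^ CF * (∏ i, κ * a' i) ^ (-(4 / ((k : ℝ) * ((k : ℝ) + 1)))) *
      ∑ i, h ^ 2 * (κ ^ 2 * energy (flcLab e (G i) (s i) (R * (1 + 2 * C₂)) (lv i)) (flcCf e (G i) (cf i) (lv i))) / (κ * a' i) ^ 2 := by
  have hr : 0 ≤ R * (1 + 2 * C₂) := by positivity
  have hh0 : 0 < h := by linarith
  have hsub : ∀ i α, α ∈ flcLab e (G i) (s i) (R * (1 + 2 * C₂)) (lv i) → α ∈ s i := fun i α hα =>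
    ((flc_mem_lab e (G i) (s i) (R * (1 + 2 * C₂)) (lv i) α).1 hα).1
  have key := flc_frame_ex hFW
    (fun i => flcTr (flcSl em Pr e (flcD e (G i) (jj i)) (lv i)) (o i))
    (fun i => flcLab e (G i) (s i) (R * (1 + 2 * C₂)) (lv i))
    (fun i => fun α => (κ : ℂ) * flcTc (flcSl em Pr e (flcD e (G i) (jj i)) (lv i)) (flcCf e (G i) (cf i) (lv i)) (o i) α)
    h Q (fun i => κ * a' i) Y' h2 ?_ ?_ ?_ hQ ?_ ha ?_
  · refine key.trans (le_of_eq ?_)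
    congr 1
    refine Finset.sum_congr rfl fun i _ => ?_
    rw [flc_smul_energy, flc_tr_energy]
  · intro i
    show (flcD e (G i) (jj i)).L = h
    rw [flc_d_L, hL]
  · intro i
    exact flc_w_in hF hC₂ hr (hG i) (hfl i) (jj i) (hjj i) (lv i) (o i)
  · intro i α hα
    show |(flcD e (G i) (jj i)).tc α - (o i).2 / (flcD e (G i) (jj i)).L ^ 2| ≤ T₁ + 1
    rw [flc_d_tc, flc_d_L, hL]
    have h1 := htc i α (hsub i α hα)
    have h3 : |τ₀ - (o i).2 / h ^ 2| ≤ 1 := by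
      have e1 : τ₀ - (o i).2 / h ^ 2 = -((o i).2 - τ₀ * h ^ 2) / h ^ 2 := by
        field_simp
        ring
      rw [e1, abs_div, abs_neg, abs_of_pos (by positivity : (0 : ℝ) < h ^ 2), div_le_one (by positivity)]
      exact ho i
    have e2 : (G i).tc α - (o i).2 / h ^ 2 = ((G i).tc α - τ₀) + (τ₀ - (o i).2 / h ^ 2) := by ring
    rw [e2]
    exact (abs_add_le _ _).trans (add_le_add h1 h3)
  · intro lb hlb
    have h1 := htr lb (fun i => hsub i _ (hlb i))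
    have e1 : (fun i => (flcTr (flcSl em Pr e (flcD e (G i) (jj i)) (lv i)) (o i)).om (lb i)) = fun i => Pr ((G i).om (lb i)) := by
      funext i
      show Pr ((flcD e (G i) (jj i)).om (lb i)) = _
      rw [flc_d_om]
    rw [e1]
    exact h1
  · intro q' hq' i
    obtain ⟨p, hp, hp1, hp2⟩ := hw q' hq' i
    refine ⟨p, hp, ?_, ?_⟩
    · rw [flc_smul_fld, flc_tr_fld]
      have hDin := flc_d_in (hG i) (le_of_eq hF.unit) (hfl i) (jj i) (by show jj i ≤ J₀ + (k + 1); have := hjj i; omega)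
      have hDL : 0 < (flcD e (G i) (jj i)).L := by rw [flc_d_L, hL]; exact hh0
      have h1 := flc_sl_fld hF (flcD e (G i) (jj i)) hDL (s i) (cf i) (R := R) (C₂ := C₂) (r := R * (1 + 2 * C₂))
        (fun α hα => (hDin.prof α hα).supp) (fun α hα => by rw [flc_d_ga]; exact hfl i α hα) le_rfl (lv i) (p + o i)
      rw [flc_d_lab, flc_d_cf] at h1
      rw [← h1, norm_mul, Complex.norm_real, Real.norm_eq_abs, abs_of_pos hκ]
      exact mul_le_mul_of_nonneg_left hp1 hκ.le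
    · rw [flc_smul_env, flc_tr_env]
      have hDL : 1 ≤ (flcD e (G i) (jj i)).L := by rw [flc_d_L, hL]; linarith
      have h1 := flc_sl_env hF (flcD e (G i) (jj i)) hDL (s i) (cf i) (C₂ := C₂) (r := R * (1 + 2 * C₂)) hC₂ hr
        (fun α hα => by rw [flc_d_ga]; exact hfl i α hα) P (lv i) (p + o i)
      rw [flc_d_lab, flc_d_cf, flc_d_env] at h1
      have h3 : (1 + R * (1 + 2 * C₂) + 2 * C₂) ^ P * (G i).env (s i) (cf i) P (flcPt em e (p + o i) (lv i))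
          ≤ (1 + R * (1 + 2 * C₂) + 2 * C₂) ^ P * 2 ^ P :=
        mul_le_mul_of_nonneg_left hp2 (by positivity)
      refine le_trans ?_ hκ'
      exact mul_le_mul_of_nonneg_left (h1.trans h3) (by positivity)

end pat

/-! ## 6. one witness -/

/-- L-FLC-WIT (~120 l.).   **One witness, in adapted coordinates.**   `C₀` from `flc_level (k+1)` for the class `{ K with Rω := K.Rω + C₂, m₀ := 3 * K.m₀ }`.   `G = flcBo e β₀ A` (`flc_bo_in`, `flc_bo_tc`, `flc_bo_flat`, `flc_bo_L`, `flc_bo_fld`, `flc_bo_env`), `z̃ = flcBz e β₀ z`,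
`θ = Int.fract (flcNo e β₀ z)`;   `z̃ - θ (e,0) = flcPt em e (flcTg … z + (0,t₀)) ⌊flcNo e β₀ z⌋` (`flc_ad_pt`; `flcPt p a - θ(e,0) = flcPt p (a - θ)`; `Int.self_sub_fract`). -/
theorem flc_wit (k : ℕ) (K : Cls) (hR : 0 ≤ K.R) (hB : 0 ≤ K.B) (C₂ : ℝ) (hC₂ : 0 ≤ C₂) (P : ℕ) (hJ : k + 1 ≤ K.J) : ∃ C₀ : ℝ, ∀ (ι : Type) (A : Arr (k + 1) ι) (s : Finset ι) (cf : ι → ℂ)
    (e : E (k + 1)) (em : E k →ₗᵢ[ℝ] E (k + 1)) (Pr : E (k + 1) →ₗ[ℝ] E k) (β₀ t₀ : ℝ) (z : ST (k + 1)) (a : ℝ),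
    FlcFr e em Pr → A.In s K → (∀ α ∈ s, ∃ m : ℤ, A.tc α = m) → |β₀| ≤ C₂ → (∀ α ∈ s, |⟪e, A.om α⟫_ℝ - β₀| ≤ C₂ / A.L) → C₀ ≤ A.L → 1 ≤ a →
    a ≤ ‖A.fld s cf z‖ → A.env s cf P z ≤ 1 →
    ∃ j < k + 1, a / (2 * ((k : ℝ) + 1)) ≤ ‖(flcD e (flcBo e β₀ A) j).fld s cf (flcPt em e (flcTg Pr e β₀ t₀ z + ((0 : E k), t₀)) (⌊flcNo e β₀ z⌋ : ℝ))‖ ∧
      (flcBo e β₀ A).env s cf P (flcPt em e (flcTg Pr e β₀ t₀ z + ((0 : E k), t₀)) (⌊flcNo e β₀ z⌋ : ℝ)) ≤ 2 ^ P := by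
  obtain ⟨C₀, hC₀⟩ := flc_level (k + 1) (Nat.succ_le_succ (Nat.zero_le k)) { K with Rω := K.Rω + C₂, m₀ := 3 * K.m₀ } hR hB C₂ hC₂ P hJ
  refine ⟨C₀, ?_⟩
  intro ι A s cf e em Pr β₀ t₀ z a hF hA hint hβ hfl hL ha hfld henv
  have hL0 : 0 < A.L := by linarith [hA.one_le]
  have h := hC₀ ι (flcBo e β₀ A) s cf e (flcBz e β₀ z) (Int.fract (flcNo e β₀ z)) a hF.unit.le (flc_bo_in hA hint hF.unit hβ)
    (by rw [flc_bo_tc]; exact hint) (fun α hα => flc_bo_flat A hL0 hF.unit (hfl α hα)) (by rw [flc_bo_L]; exact hL) ha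
    (by rw [flc_bo_fld e β₀ A hL0]; exact hfld) (by rw [flc_bo_env e β₀ A hL0]; exact henv) (Int.fract_nonneg _) (Int.fract_lt_one _).le
  have e1 : flcBz e β₀ z - Int.fract (flcNo e β₀ z) • ((e, (0 : ℝ)) : ST (k + 1)) = flcPt em e (flcTg Pr e β₀ t₀ z + ((0 : E k), t₀)) (⌊flcNo e β₀ z⌋ : ℝ) := by
    rw [← flc_ad_pt hF β₀ t₀ z]
    unfold flcPt
    ext1
    · simp only [Prod.fst_sub, Prod.smul_fst]
      have : ((⌊flcNo e β₀ z⌋ : ℤ) : ℝ) = flcNo e β₀ z - Int.fract (flcNo e β₀ z) := (Int.self_sub_fract _).symm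
      rw [this]
      module
    · simp
  rw [e1] at h
  obtain ⟨j, hj, h1, h2⟩ := h
  refine ⟨j, hj, ?_, h2⟩
  push_cast at h1
  exact h1

/-! ## 7. numerics -/

/-- L-FLC-NUM (~200 l.).   Real numbers only.   `c₁ = 2((1+2C₂)(4+√(k+1)) + 3) + 1`: for `ρ ≥ 1`: `0 ≤ M ≤ (1+2C₂)(2ρ+√(k+1)+2) + 3`, `2M + 1 ≤ c₁ρ`.
`C = max` of `2`, `C₀`, `c₁`, `(2(k+1)/κ)^{2/c}`, `(k+2)²`, `CF`, `c₁^{(k+2)²} (k+1)^{k+1} CF c₅`.   `h ≥ Cρ ≥ C`.   `M ≤ c₁ρ ≤ h ≤ h²`.   `h^{c/2} ≥ 2(k+1)/κ` (`Real.rpow_le_rpow`, `← Real.rpow_mul`), `h^c = h^{c/2} h^{c/2}`.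
Last: `((2M+1)^{k+2}(k+1))^{k+1}(2M+1)^{k+2} ≤ c₁^{(k+2)²}(k+1)^{k+1} ρ^{(k+2)²}`, `ρ^{(k+2)²} ≤ ρ^C`, `Q^{CF} ≤ Q^C`, `(ρQ)^C = ρ^C Q^C` (`Real.mul_rpow`, `Real.rpow_natCast`). -/
theorem flc_num (k : ℕ) (c C₂ κ CF C₀ c₅ : ℝ) (hc : 0 < c) (hC₂ : 0 ≤ C₂) (hκ : 0 < κ) (hCF : 0 ≤ CF) (hc₅ : 0 ≤ c₅) : ∃ C : ℝ, ∀ (h ρ Q : ℝ) (M : ℤ), 1 ≤ ρ → 1 ≤ Q → C * ρ ≤ h →
    M = ⌈(1 + 2 * C₂) * (2 * ρ + Real.sqrt ((k : ℝ) + 1) + 2) + 2⌉ →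
    2 ≤ h ∧ C₀ ≤ h ∧ 0 ≤ M ∧ (M : ℝ) ≤ h ^ 2 ∧ (∀ a : ℝ, h ^ c ≤ a → h ^ (c / 2) ≤ κ * (a / (2 * ((k : ℝ) + 1)))) ∧
    ((2 * (M : ℝ) + 1) ^ (k + 2) * ((k : ℝ) + 1)) ^ (k + 1) * (2 * (M : ℝ) + 1) ^ (k + 2) * (CF * Q ^ CF * c₅) ≤ C * (ρ * Q) ^ C := by
  obtain ⟨sq, hsq, hsq0⟩ : ∃ sq : ℝ, sq = Real.sqrt ((k : ℝ) + 1) ∧ 0 ≤ sq := ⟨_, rfl, Real.sqrt_nonneg _⟩
  obtain ⟨c₁, hc₁⟩ : ∃ c₁ : ℝ, c₁ = 2 * ((1 + 2 * C₂) * (4 + sq) + 3) + 1 := ⟨_, rfl⟩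
  have hc₁0 : 0 < c₁ := by rw [hc₁]; positivity
  obtain ⟨g, hg⟩ : ∃ g : ℝ, g = 2 * ((k : ℝ) + 1) / κ := ⟨_, rfl⟩
  have hg0 : 0 < g := by rw [hg]; positivity
  obtain ⟨C7, hC7⟩ : ∃ C7 : ℝ, C7 = c₁ ^ ((k + 2) ^ 2) * ((k : ℝ) + 1) ^ (k + 1) * CF * c₅ := ⟨_, rfl⟩
  have hC70 : 0 ≤ C7 := by rw [hC7]; positivity
  obtain ⟨C, h1, h2, h3, h4, h5, h6, h7⟩ : ∃ C : ℝ, 2 ≤ C ∧ C₀ ≤ C ∧ c₁ ≤ C ∧ g ^ (2 / c) ≤ C ∧ (((k + 2) ^ 2 : ℕ) : ℝ) ≤ C ∧ CF ≤ C ∧ C7 ≤ C := by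
    refine ⟨max 2 (max C₀ (max c₁ (max (g ^ (2 / c)) (max (((k + 2) ^ 2 : ℕ) : ℝ) (max CF C7))))), ?_, ?_, ?_, ?_, ?_, ?_, ?_⟩
    · exact le_max_left _ _
    · exact le_trans (le_max_left _ _) (le_max_right _ _)
    · exact le_trans (le_trans (le_max_left _ _) (le_max_right _ _)) (le_max_right _ _)
    · exact le_trans (le_trans (le_trans (le_max_left _ _) (le_max_right _ _)) (le_max_right _ _)) (le_max_right _ _)
    · exact le_trans (le_trans (le_trans (le_trans (le_max_left _ _) (le_max_right _ _)) (le_max_right _ _)) (le_max_right _ _)) (le_max_right _ _)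
    · exact le_trans (le_trans (le_trans (le_trans (le_trans (le_max_left _ _) (le_max_right _ _)) (le_max_right _ _)) (le_max_right _ _)) (le_max_right _ _)) (le_max_right _ _)
    · exact le_trans (le_trans (le_trans (le_trans (le_trans (le_max_right _ _) (le_max_right _ _)) (le_max_right _ _)) (le_max_right _ _)) (le_max_right _ _)) (le_max_right _ _)
  refine ⟨C, fun h ρ Q M hρ hQ hh hM => ?_⟩
  rw [← hsq] at hM
  have hC0 : 0 < C := by linarith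
  have hCh : C ≤ h := le_trans (le_mul_of_one_le_right hC0.le hρ) hh
  have hh1 : 1 ≤ h := by linarith
  have hh0 : 0 < h := by linarith
  -- the integer M
  have hX0 : 0 ≤ (1 + 2 * C₂) * (2 * ρ + sq + 2) + 2 := by positivity
  have hM0 : 0 ≤ M := by rw [hM]; exact Int.ceil_nonneg hX0
  have hM0' : (0 : ℝ) ≤ M := by exact_mod_cast hM0
  have hMlt : (M : ℝ) < (1 + 2 * C₂) * (2 * ρ + sq + 2) + 2 + 1 := by rw [hM]; exact Int.ceil_lt_add_one _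
  have hm : 2 * (M : ℝ) + 1 ≤ c₁ * ρ := by
    have e1 : 2 * ρ + sq + 2 ≤ (4 + sq) * ρ := by nlinarith
    have e2 : (1 + 2 * C₂) * (2 * ρ + sq + 2) ≤ (1 + 2 * C₂) * ((4 + sq) * ρ) :=
      mul_le_mul_of_nonneg_left e1 (by positivity)
    rw [hc₁]
    nlinarith
  have hm1 : 1 ≤ 2 * (M : ℝ) + 1 := by linarith
  refine ⟨by linarith, by linarith, hM0, ?_, ?_, ?_⟩
  · have e1 : c₁ * ρ ≤ C * ρ := mul_le_mul_of_nonneg_right h3 (by linarith)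
    have e2 : h ≤ h ^ 2 := by rw [pow_two]; exact le_mul_of_one_le_left hh0.le hh1
    linarith
  · intro a ha
    have e1 : g ≤ h ^ (c / 2) := by
      have e2 : (g ^ (2 / c)) ^ (c / 2) ≤ h ^ (c / 2) :=
        Real.rpow_le_rpow (by positivity) (h4.trans hCh) (by positivity)
      rw [← Real.rpow_mul hg0.le, show 2 / c * (c / 2) = 1 by field_simp, Real.rpow_one] at e2
      exact e2
    have e3 : h ^ c = h ^ (c / 2) * h ^ (c / 2) := by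
      rw [← Real.rpow_add hh0]; congr 1; ring
    have hp : 0 < h ^ (c / 2) := Real.rpow_pos_of_pos hh0 _
    have e4 : g * h ^ (c / 2) ≤ a := by
      calc g * h ^ (c / 2) ≤ h ^ (c / 2) * h ^ (c / 2) := mul_le_mul_of_nonneg_right e1 hp.le
        _ = h ^ c := e3.symm
        _ ≤ a := ha
    have e5 : κ * (a / (2 * ((k : ℝ) + 1))) = a / g := by
      rw [hg]; field_simp
    rw [e5, le_div_iff₀ hg0]
    linarith
  · have hρ0 : 0 < ρ := by linarith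
    have hQ0 : 0 < Q := by linarith
    have e1 : ((2 * (M : ℝ) + 1) ^ (k + 2) * ((k : ℝ) + 1)) ^ (k + 1) * (2 * (M : ℝ) + 1) ^ (k + 2)
        = (2 * (M : ℝ) + 1) ^ ((k + 2) ^ 2) * ((k : ℝ) + 1) ^ (k + 1) := by
      rw [mul_pow, ← pow_mul, mul_right_comm, ← pow_add]
      congr 2
      ring
    have e2 : (2 * (M : ℝ) + 1) ^ ((k + 2) ^ 2) ≤ c₁ ^ ((k + 2) ^ 2) * ρ ^ ((k + 2) ^ 2) := by
      rw [← mul_pow]
      exact pow_le_pow_left₀ (by linarith) hm _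
    have e3 : ρ ^ ((k + 2) ^ 2) ≤ ρ ^ C := by
      rw [← Real.rpow_natCast]
      exact Real.rpow_le_rpow_of_exponent_le hρ h5
    have e4 : Q ^ CF ≤ Q ^ C := Real.rpow_le_rpow_of_exponent_le hQ h6
    have hQC : 0 < Q ^ CF := Real.rpow_pos_of_pos hQ0 _
    have hρC : 0 < ρ ^ C := Real.rpow_pos_of_pos hρ0 _
    rw [e1, Real.mul_rpow hρ0.le hQ0.le]
    calc (2 * (M : ℝ) + 1) ^ ((k + 2) ^ 2) * ((k : ℝ) + 1) ^ (k + 1) * (CF * Q ^ CF * c₅)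
        ≤ (c₁ ^ ((k + 2) ^ 2) * ρ ^ ((k + 2) ^ 2)) * ((k : ℝ) + 1) ^ (k + 1) * (CF * Q ^ CF * c₅) := by
          gcongr
      _ = C7 * (ρ ^ ((k + 2) ^ 2) * Q ^ CF) := by rw [hC7]; ring
      _ ≤ C * (ρ ^ C * Q ^ C) := by
          refine mul_le_mul h7 (mul_le_mul e3 e4 hQC.le hρC.le) (by positivity) hC0.le

/-- L-FLC-ALG (~80 l.).   Algebra of the right side.   `∏ κ (a_i/N₂) = (κ/N₂)^{k+1} ∏ a_i` (`Finset.prod_mul_distrib`, `Finset.prod_const`, `Finset.card_univ`, `Fintype.card_fin`), `Real.mul_rpow`; termwise `h² (κ² (w E))/(κ a/N₂)² = N₂² w · h² E/a²` (`field_simp`), `Finset.mul_sum`. -/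
theorem flc_alg (k : ℕ) (κ N₂ w γ h : ℝ) (hκ : 0 < κ) (hN : 0 < N₂) (a En : Fin (k + 1) → ℝ) (ha : ∀ i, 0 < a i) :
    (∏ i, κ * (a i / N₂)) ^ γ * ∑ i, h ^ 2 * (κ ^ 2 * (w * En i)) / (κ * (a i / N₂)) ^ 2 =
      (((κ / N₂) ^ (k + 1)) ^ γ * (N₂ ^ 2 * w)) * ((∏ i, a i) ^ γ * ∑ i, h ^ 2 * En i / a i ^ 2) := by
  have h1 : ∏ i, κ * (a i / N₂) = (κ / N₂) ^ (k + 1) * ∏ i, a i := by
    have h0 : ∀ i, κ * (a i / N₂) = (κ / N₂) * a i := fun i => by ring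
    simp only [h0]
    rw [Finset.prod_mul_distrib, Finset.prod_const, Finset.card_univ, Fintype.card_fin]
  have h2 : ∀ i, h ^ 2 * (κ ^ 2 * (w * En i)) / (κ * (a i / N₂)) ^ 2 = (N₂ ^ 2 * w) * (h ^ 2 * En i / a i ^ 2) := by
    intro i
    have := (ha i).ne'
    field_simp
  rw [h1, Real.mul_rpow (by positivity) (Finset.prod_nonneg fun i _ => (ha i).le)]
  simp only [h2]
  rw [← Finset.mul_sum]
  ring

/-! ## 8. exit -/

/-- ASSEMBLY (helper185).   `flc_frame_mono` (`CF ≥ 0`), `flc_wit`, `flc_fr_exists`, `flc_count_geo`, `flc_pat`, `flc_sl_energy`, `flc_alg`, `flc_num`. -/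
theorem flc_core (k : ℕ) (c R Rw T₁ C₂ : ℝ) (m₀ P J₀ : ℕ) (CF : ℝ) (hc : 0 < c) (hR : 0 ≤ R) (hC₂ : 0 ≤ C₂)
    (hFW : FrameWith k (c / 2) ⟨J₀, R, 1, Rw + C₂, flcM (k + 1) (1 + R * (1 + 2 * C₂) + 2 * C₂) (3 * m₀)⟩ (T₁ + 1) P CF) :
    ∃ C : ℝ, FlatFrameWith k c ⟨J₀ + (k + 1), R, flcB k J₀ C₂, Rw, m₀⟩ T₁ C₂ P C := by
  classical
  -- constants
  obtain ⟨CF', hCF', hCF0⟩ : ∃ CF' : ℝ, CF ≤ CF' ∧ 0 ≤ CF' := ⟨max CF 0, le_max_left _ _, le_max_right _ _⟩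
  have hFW' := flc_frame_mono hFW hCF' hCF0
  obtain ⟨r, hrdef⟩ : ∃ r : ℝ, r = R * (1 + 2 * C₂) := ⟨_, rfl⟩
  have hr : 0 ≤ r := by rw [hrdef]; positivity
  obtain ⟨Ce, hCedef⟩ : ∃ Ce : ℝ, Ce = (1 + r + 2 * C₂) ^ P * 2 ^ P := ⟨_, rfl⟩
  have hCe : 1 ≤ Ce := by
    rw [hCedef]
    exact one_le_mul_of_one_le_of_one_le (one_le_pow₀ (by linarith)) (one_le_pow₀ (by norm_num))
  obtain ⟨κ, hκdef⟩ : ∃ κ : ℝ, κ = Ce⁻¹ := ⟨_, rfl⟩
  have hCe0 : 0 < Ce := by linarith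
  have hκ : 0 < κ := by rw [hκdef]; positivity
  have hκ' : κ ^ 2 * Ce ≤ 1 := by
    rw [hκdef]
    have : (Ce⁻¹) ^ 2 * Ce = Ce⁻¹ := by field_simp
    rw [this]
    exact inv_le_one_of_one_le₀ hCe
  obtain ⟨N₂, hN₂def⟩ : ∃ N₂ : ℝ, N₂ = 2 * ((k : ℝ) + 1) := ⟨_, rfl⟩
  have hN₂ : 0 < N₂ := by rw [hN₂def]; positivity
  obtain ⟨γ, hγdef⟩ : ∃ γ : ℝ, γ = -(4 / ((k : ℝ) * ((k : ℝ) + 1))) := ⟨_, rfl⟩
  obtain ⟨c₅, hc₅def⟩ : ∃ c₅ : ℝ, c₅ = ((κ / N₂) ^ (k + 1)) ^ γ * (N₂ ^ 2 * (2 * r + 1)) := ⟨_, rfl⟩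
  have hc₅ : 0 ≤ c₅ := by rw [hc₅def]; positivity
  have hB : 0 < flcB k J₀ C₂ := by unfold flcB; positivity
  obtain ⟨C₀, hC₀⟩ := flc_wit k ⟨J₀ + (k + 1), R, flcB k J₀ C₂, Rw, m₀⟩ hR hB.le C₂ hC₂ P (Nat.le_add_left _ _)
  obtain ⟨C, hC⟩ := flc_num k c C₂ κ CF' C₀ c₅ hc hC₂ hκ hCF0 hc₅
  refine ⟨C, ?_⟩
  intro ι A s cf h Q ρ a e β₀ τ₀ Y wz hL hA htc he hβ hfl hQ htr hρ hCρ ha hw
  obtain ⟨em, Pr, hF⟩ := flc_fr_exists e he
  obtain ⟨M, hMdef⟩ : ∃ M : ℤ, M = ⌈(1 + 2 * C₂) * (2 * ρ + Real.sqrt ((k : ℝ) + 1) + 2) + 2⌉ := ⟨_, rfl⟩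
  obtain ⟨h2, hC₀h, hM0, hMh, hlev, hfin⟩ := hC h ρ Q M hρ hQ hCρ hMdef
  have hMle : (1 + 2 * C₂) * (2 * ρ + Real.sqrt ((k : ℝ) + 1) + 2) + 2 ≤ M := by rw [hMdef]; exact Int.le_ceil _
  obtain ⟨t₀, ht₀⟩ : ∃ t₀ : ℝ, t₀ = (τ₀ : ℝ) * h ^ 2 := ⟨_, rfl⟩
  obtain ⟨G, hGdef⟩ : ∃ G : Fin (k + 1) → Arr (k + 1) ι, G = fun i => flcBo e β₀ (A i) := ⟨_, rfl⟩
  have h0 : 0 < h := by linarith
  have h1 : 1 ≤ h := by linarith
  have ha1 : ∀ i, 1 ≤ a i := fun i => (Real.one_le_rpow h1 hc.le).trans (ha i)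
  have ha0 : ∀ i, 0 < a i := fun i => lt_of_lt_of_le one_pos (ha1 i)
  have hint : ∀ i, ∀ α ∈ s i, ∃ m : ℤ, (A i).tc α = m := fun i α hα => by
    obtain ⟨j, hj, _⟩ := htc i α hα
    exact ⟨j, hj⟩
  have hGL : ∀ i, (G i).L = h := fun i => by rw [hGdef]; simp only []; rw [flc_bo_L, hL i]
  have hGin : ∀ i, (G i).In (s i) ⟨J₀ + (k + 1), R, flcB k J₀ C₂, Rw + C₂, 3 * m₀⟩ := fun i => by
    rw [hGdef]
    exact flc_bo_in (hA i) (hint i) he hβ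
  have hGtc : ∀ i, ∀ α ∈ s i, |(G i).tc α - (τ₀ : ℝ)| ≤ T₁ := fun i α hα => by
    obtain ⟨j, hj, hj'⟩ := htc i α hα
    rw [hGdef]
    simp only []
    rw [flc_bo_tc, hj]
    exact hj'
  have hGfl : ∀ i, ∀ α ∈ s i, |flcGa e (G i) α| ≤ C₂ := fun i α hα => by
    rw [hGdef]
    exact flc_bo_flat (A i) (by rw [hL i]; exact h0) he (by rw [hL i]; exact hfl i α hα)
  have hGtr : ∀ lb : Fin (k + 1) → ι, (∀ i, lb i ∈ s i) → Transv Q (fun i => Pr ((G i).om (lb i))) := fun lb hlb => by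
    have := flc_fr_transv hF (htr lb hlb) β₀
    rw [hGdef]
    simp only [flc_bo_om]
    exact this
  -- witnesses
  have hwit : ∀ q ∈ Y, ∀ i, ∃ j < k + 1, a i / N₂ ≤ ‖(flcD e (G i) j).fld (s i) (cf i) (flcPt em e (flcTg Pr e β₀ t₀ (wz i q) + ((0 : E k), t₀)) (⌊flcNo e β₀ (wz i q)⌋ : ℝ))‖ ∧
      (G i).env (s i) (cf i) P (flcPt em e (flcTg Pr e β₀ t₀ (wz i q) + ((0 : E k), t₀)) (⌊flcNo e β₀ (wz i q)⌋ : ℝ)) ≤ 2 ^ P := fun q hq i => by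
    rw [hGdef, hN₂def]
    exact hC₀ ι (A i) (s i) (cf i) e em Pr β₀ t₀ (wz i q) (a i) hF (hA i) (hint i) hβ (by rw [hL i]; exact hfl i) (by rw [hL i]; exact hC₀h) (ha1 i)
      (hw q hq i).2.1 (hw q hq i).2.2
  obtain ⟨jj, hjj⟩ : ∃ jj : Fin (k + 1) → MI (k + 1) → ℕ, ∀ q ∈ Y, ∀ i, jj i q < k + 1 ∧
      a i / N₂ ≤ ‖(flcD e (G i) (jj i q)).fld (s i) (cf i) (flcPt em e (flcTg Pr e β₀ t₀ (wz i q) + ((0 : E k), t₀)) (⌊flcNo e β₀ (wz i q)⌋ : ℝ))‖ ∧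
      (G i).env (s i) (cf i) P (flcPt em e (flcTg Pr e β₀ t₀ (wz i q) + ((0 : E k), t₀)) (⌊flcNo e β₀ (wz i q)⌋ : ℝ)) ≤ 2 ^ P := by
    refine ⟨fun i q => if hq : q ∈ Y then (hwit q hq i).choose else 0, fun q hq i => ?_⟩
    simp only [dif_pos hq]
    exact (hwit q hq i).choose_spec
  -- the bound for a fixed pattern
  obtain ⟨K₀, hK₀def⟩ : ∃ K₀ : ℝ, K₀ = CF' * Q ^ CF' * (∏ i, κ * (a i / N₂)) ^ γ := ⟨_, rfl⟩
  have hK₀ : 0 ≤ K₀ := by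
    rw [hK₀def]
    have : 0 ≤ ∏ i, κ * (a i / N₂) := Finset.prod_nonneg fun i _ => by have := ha0 i; positivity
    positivity
  have hρ0 : (0 : ℝ) ≤ ρ := by linarith
  have hmain := flc_count_geo (t₀ := t₀) hF hβ hρ0 hMle Y wz (fun q hq i => (hw q hq i).1) jj (fun q hq i => (hjj q hq i).1)
    (fun π a₀ => K₀ * ∑ i, h ^ 2 * (κ ^ 2 * energy (flcLab e (G i) (s i) r ((a₀ + (π i).2.1 : ℤ) : ℝ)) (flcCf e (G i) (cf i) ((a₀ + (π i).2.1 : ℤ) : ℝ))) / (κ * (a i / N₂)) ^ 2)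
    (K₀ * ∑ i, h ^ 2 * (κ ^ 2 * ((2 * r + 1) * energy (s i) (cf i))) / (κ * (a i / N₂)) ^ 2) ?_ ?_
  · -- conclusion
    have halg := flc_alg k κ N₂ (2 * r + 1) γ h hκ hN₂ a (fun i => energy (s i) (cf i)) ha0
    have hX : 0 ≤ (∏ i, a i) ^ γ * ∑ i, h ^ 2 * energy (s i) (cf i) / a i ^ 2 := by
      have h1 : 0 ≤ ∏ i, a i := Finset.prod_nonneg fun i _ => (ha0 i).le
      have h2 : 0 ≤ ∑ i, h ^ 2 * energy (s i) (cf i) / a i ^ 2 := Finset.sum_nonneg fun i _ => by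
        have : 0 ≤ energy (s i) (cf i) := Finset.sum_nonneg fun _ _ => by positivity
        positivity
      positivity
    rw [← hγdef]
    calc (Y.card : ℝ) ≤ _ := hmain
      _ = (((2 * (M : ℝ) + 1) ^ (k + 2) * ((k : ℝ) + 1)) ^ (k + 1) * (2 * (M : ℝ) + 1) ^ (k + 2) * (CF' * Q ^ CF' * c₅)) *
            ((∏ i, a i) ^ γ * ∑ i, h ^ 2 * energy (s i) (cf i) / a i ^ 2) := by
          rw [hK₀def, mul_assoc (CF' * Q ^ CF'), halg, ← hc₅def]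
          ring
      _ ≤ (C * (ρ * Q) ^ C) * ((∏ i, a i) ^ γ * ∑ i, h ^ 2 * energy (s i) (cf i) / a i ^ 2) := mul_le_mul_of_nonneg_right hfin hX
      _ = _ := by ring
  · -- fixed pattern
    intro π hπ a₀ Y' hY'
    have hπ' : ∀ i, (π i).1 ∈ flcBx k M ∧ (π i).2.2 < k + 1 := fun i => by
      have h1 := (Fintype.mem_piFinset.1 hπ) i
      rw [Finset.mem_product, Finset.mem_product] at h1
      exact ⟨h1.1, Finset.mem_range.1 h1.2.2⟩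
    have := flc_pat hF hR hC₂ hFW' G s cf h Q (τ₀ : ℝ) (fun i => a i / N₂) h2 hGL hGin hGtc hGfl hQ hGtr (fun i => (π i).2.2) (fun i => (hπ' i).2.le)
      (fun i => ((a₀ + (π i).2.1 : ℤ) : ℝ)) (fun i => flcVec (π i).1 + ((0 : E k), t₀)) ?_ κ hκ (by rw [← hrdef, ← hCedef]; exact hκ') (fun i => by rw [hN₂def]; exact hlev (a i) (ha i)) Y' ?_
    · rw [hK₀def, hγdef, hrdef]
      exact this
    · intro i
      have h1 := ((Finset.mem_product.1 (hπ' i).1).2)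
      rw [Finset.mem_Icc] at h1
      have h2 : |(((π i).1.2 : ℤ) : ℝ)| ≤ M := by
        rw [abs_le]
        constructor
        · have : ((-M : ℤ) : ℝ) ≤ (((π i).1.2 : ℤ) : ℝ) := by exact_mod_cast h1.1
          simpa using this
        · exact_mod_cast h1.2
      have e1 : (flcVec (π i).1 + ((0 : E k), t₀)).2 - (τ₀ : ℝ) * h ^ 2 = (((π i).1.2 : ℤ) : ℝ) := by
        simp only [flcVec, Prod.snd_add]
        rw [ht₀]
        ring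
      rw [e1]
      exact h2.trans hMh
    · intro q' hq' i
      obtain ⟨q, hq, hqi⟩ := hY' q' hq'
      obtain ⟨e1, e2, e3⟩ := hqi i
      refine ⟨_, e3, ?_⟩
      have e4 : flcTg Pr e β₀ t₀ (wz i q) - flcVec (π i).1 + (flcVec (π i).1 + ((0 : E k), t₀)) = flcTg Pr e β₀ t₀ (wz i q) + ((0 : E k), t₀) := by abel
      rw [e4, ← e1, ← e2]
      exact (hjj q hq i).2
  · -- sum over the levels
    intro π _ 𝒜
    rw [← Finset.mul_sum]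
    refine mul_le_mul_of_nonneg_left ?_ hK₀
    rw [Finset.sum_comm]
    refine Finset.sum_le_sum fun i _ => ?_
    rw [← Finset.sum_div, ← Finset.mul_sum, ← Finset.mul_sum]
    have := flc_sl_energy e (G i) (by rw [hGL i]; exact h1) (s i) (cf i) hr 𝒜 (π i).2.1
    gcongr

/-- **EXIT OF FL-C.**   ASSEMBLY (helper185). -/
theorem flc_main (k : ℕ) (h : FrameStmt k) : FlatFrameStmt k := by
  intro c R Rw T₁ C₂ m₀ hc
  by_cases hC₂ : 0 ≤ C₂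
  · obtain ⟨P₀, hP₀⟩ := h (c / 2) (max R 0) 1 (Rw + C₂) (T₁ + 1) (flcM (k + 1) (1 + max R 0 * (1 + 2 * C₂) + 2 * C₂) (3 * m₀)) (by positivity)
    refine ⟨P₀, fun P hP => ?_⟩
    obtain ⟨J₀, CF, hFW⟩ := hP₀ P hP
    obtain ⟨C, hC⟩ := flc_core k c (max R 0) Rw T₁ C₂ m₀ P J₀ CF hc (le_max_right _ _) hC₂ hFW
    refine ⟨J₀ + (k + 1), flcB k J₀ C₂, C, by unfold flcB; positivity, ?_⟩
    intro ι A s cf h' Q ρ a e β₀ τ₀ Y wz hL hA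
    exact hC ι A s cf h' Q ρ a e β₀ τ₀ Y wz hL
      (fun i => inf_in_mono (hA i) (Finset.Subset.refl _) le_rfl (le_max_left _ _) le_rfl le_rfl le_rfl)
  · refine ⟨0, fun P _ => ⟨0, 1, 0, one_pos, ?_⟩⟩
    intro ι A s cf h' Q ρ a e β₀ τ₀ Y wz _ _ _ _ hβ
    exact absurd ((abs_nonneg _).trans hβ) hC₂

end Claimed.Agent.R257
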