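import Claimed.Agent.R257.Fl.Simplex
import Claimed.Agent.R257.Weak.HeavyGeo
import Claimed.Agent.R257.Weak.EasyBox

/-!
# R257 / Fl / D1 : THE TUPLE BOUND (H flattening.tex l.247-324, Lemma w:tuple)            (captain helper263)

`fld_tuple`: `k + 1` families of scale-`h` packets in dimension `n = k + 1`, flat and transverse as in `FlatFrameWith`; a measurable set `Z` of mass `M₀ > 0`, every point of `Z` has for each family a witness `|V_i| ≥ a` within the distance `ρ`;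
the moments of the packet weights of the family `i` are `≤ Cd m h^{n+1} d_i`;  frame cutoff `h^c b_i ≤ a`, `b_i² = 2^{P+1} n Cd m h 𝓔_i d_i / M₀`.   THEN
      `a² M₀ ≤ K m χ^{1-β} h^{2n/(n+1)} (∏ 𝓔_i d_i)^{β/n} (∑ 𝓔_i)^{1-β}`.
PROOF.  `G_i := Cd m h 𝓔_i d_i ≥ ∫_Z env_i dμ` (`fld_env_int`).   MARKOV (`fld_markov`): `Z₁ ⊆ Z`, `μ Z₁ ≥ M₀/2`, `env_i ≤ 2 n G_i / M₀` on `Z₁`.   PEETRE (`fld_env_peetre`): at the witnesses `env_i ≤ 2^P · 2 n G_i/M₀ = b_i²`.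
FRAME (`fld_frame_norm`): coefficients divided by `b_i`: every finite set of unit cubes meeting `Z₁` has `≤ N` elements.   COUNT (`fld_count`): `μ Z₁ ≤ N n^n m χ`.   SOLVE (`fld_solve`): real arithmetic.
-/

set_option autoImplicit false

namespace Claimed.Agent.R257

open MeasureTheory Metric Set
open scoped ENNReal InnerProductSpace

variable {n : ℕ} {ι : Type}

/-! ## weights and envelopes -/

/-- **L-FLD-T0a** -/
theorem fld_wt_pos (F : Arr n ι) (P : ℕ) (α : ι) (z : ST n) : 0 < F.wt P α z := by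
  unfold Arr.wt
  have : 0 < 1 + ‖chart F.L (F.om α) (F.y α) (F.tc α) z‖ := by positivity
  exact zpow_pos this _

/-- **L-FLD-T0b**  (`chart` is continuous: `inf_chart_contDiff`; `1 + ‖·‖ ≠ 0`: `Continuous.zpow₀`) -/
theorem fld_wt_cont (F : Arr n ι) (P : ℕ) (α : ι) : Continuous (F.wt P α) := by
  unfold Arr.wt
  have hc : Continuous (chart F.L (F.om α) (F.y α) (F.tc α)) := by
    unfold chart
    fun_prop
  refine Continuous.zpow₀ (continuous_const.add hc.norm) _ ?_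
  intro z
  left
  have : 0 < 1 + ‖chart F.L (F.om α) (F.y α) (F.tc α) z‖ := by positivity
  exact this.ne'

/-- **L-FLD-T0c** -/
theorem fld_env_cont (F : Arr n ι) (S : Finset ι) (cf : ι → ℂ) (P : ℕ) : Continuous (F.env S cf P) := by
  unfold Arr.env
  exact continuous_const.mul (continuous_finsetSum _ fun α _ => continuous_const.mul (fld_wt_cont F P α))

/-- **L-FLD-T0d** -/
theorem fld_env_nonneg (F : Arr n ι) (hL : 0 ≤ F.L) (S : Finset ι) (cf : ι → ℂ) (P : ℕ) (z : ST n) : 0 ≤ F.env S cf P z := by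
  unfold Arr.env
  refine mul_nonneg (Real.rpow_nonneg hL _) (Finset.sum_nonneg fun α _ => mul_nonneg (by positivity) (fld_wt_pos F P α z).le)

/-- **L-FLD-T0e**  scaling of the coefficients by a real number -/
theorem fld_env_smul (F : Arr n ι) (S : Finset ι) (cf : ι → ℂ) (P : ℕ) (r : ℝ) (z : ST n) :
    F.env S (fun α => (r : ℂ) * cf α) P z = r ^ 2 * F.env S cf P z := by
  unfold Arr.env
  rw [mul_left_comm]
  congr 1
  rw [Finset.mul_sum]
  refine Finset.sum_congr rfl fun α _ => ?_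
  rw [norm_mul, Complex.norm_real, mul_pow, Real.norm_eq_abs, sq_abs]
  ring

/-- **L-FLD-T1** (~60 l.)  the integral of the envelope: `∫ env = L^{-n} ∑ |cf_p|² ∫ wt_p` (`lintegral_finset_sum`, `lintegral_const_mul`, `ENNReal.ofReal_sum_of_nonneg`, `setLIntegral_le_lintegral`; measurability from `fld_wt_cont`). -/
theorem fld_env_int (F : Arr n ι) (S : Finset ι) (cf : ι → ℂ) (P : ℕ) (μ : Measure (ST n)) (Z : Set (ST n)) (δ : ℝ) (hL : 0 < F.L) (hδ : 0 ≤ δ)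
    (hmom : ∀ p ∈ S, flMom μ F P p ≤ ENNReal.ofReal δ) :
    ∫⁻ z in Z, ENNReal.ofReal (F.env S cf P z) ∂μ ≤ ENNReal.ofReal (F.L ^ (-(n : ℝ)) * energy S cf * δ) := by
  refine (setLIntegral_le_lintegral _ _).trans ?_
  have hLn : 0 ≤ F.L ^ (-(n : ℝ)) := Real.rpow_nonneg hL.le _
  have e1 : ∀ z, ENNReal.ofReal (F.env S cf P z)
      = ENNReal.ofReal (F.L ^ (-(n : ℝ))) * ∑ α ∈ S, ENNReal.ofReal (‖cf α‖ ^ 2) * ENNReal.ofReal (F.wt P α z) := by
    intro z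
    unfold Arr.env
    rw [ENNReal.ofReal_mul hLn, ENNReal.ofReal_sum_of_nonneg (fun α _ => mul_nonneg (by positivity) (fld_wt_pos F P α z).le)]
    congr 1
    exact Finset.sum_congr rfl fun α _ => ENNReal.ofReal_mul (by positivity)
  simp_rw [e1]
  have hm : ∀ α, Measurable fun z => ENNReal.ofReal (F.wt P α z) := fun α =>
    ENNReal.measurable_ofReal.comp (fld_wt_cont F P α).measurable
  have hm2 : Measurable fun z => ∑ α ∈ S, ENNReal.ofReal (‖cf α‖ ^ 2) * ENNReal.ofReal (F.wt P α z) :=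
    Finset.measurable_sum _ fun α _ => (hm α).const_mul _
  rw [lintegral_const_mul _ hm2, lintegral_finsetSum _ (fun α _ => (hm α).const_mul _)]
  have e2 : ∀ α, ∫⁻ z, ENNReal.ofReal (‖cf α‖ ^ 2) * ENNReal.ofReal (F.wt P α z) ∂μ
      = ENNReal.ofReal (‖cf α‖ ^ 2) * flMom μ F P α := fun α => by
    rw [lintegral_const_mul _ (hm α)]
    rfl
  simp_rw [e2]
  have hE : 0 ≤ energy S cf := Finset.sum_nonneg fun _ _ => by positivity
  rw [mul_assoc, ENNReal.ofReal_mul hLn]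
  gcongr
  unfold energy
  rw [Finset.sum_mul, ENNReal.ofReal_sum_of_nonneg (fun α _ => by positivity)]
  refine Finset.sum_le_sum fun α hα => ?_
  rw [ENNReal.ofReal_mul (by positivity)]
  gcongr
  exact hmom α hα

/-- **L-FLD-T2** (~100 l.)  MARKOV for finitely many functions.   `bad_i = {z ∈ Z | 2 N G_i / M₀ < f_i z}` has `μ ≤ M₀/(2N)` (`mul_meas_ge_le_lintegral₀` / `meas_ge_le_lintegral_div` for `μ.restrict Z`), `Z₁ = Z \ ⋃ bad_i`. -/
theorem fld_markov {N : ℕ} (hN : 1 ≤ N) (μ : Measure (ST n)) (Z : Set (ST n)) (hZ : MeasurableSet Z) (M₀ : ℝ) (hM₀ : 0 < M₀) (hμZ : μ Z = ENNReal.ofReal M₀)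
    (f : Fin N → ST n → ℝ) (hf : ∀ i, Continuous (f i)) (G : Fin N → ℝ) (hG : ∀ i, 0 < G i)
    (hint : ∀ i, ∫⁻ z in Z, ENNReal.ofReal (f i z) ∂μ ≤ ENNReal.ofReal (G i)) :
    ∃ Z₁ ⊆ Z, ENNReal.ofReal (M₀ / 2) ≤ μ Z₁ ∧ ∀ z ∈ Z₁, ∀ i, f i z ≤ 2 * N * G i / M₀ := by
  have hNr : (0 : ℝ) < N := by exact_mod_cast hN
  set bad : Fin N → Set (ST n) := fun i => {z | 2 * N * G i / M₀ < f i z} with hbad
  have hbm : ∀ i, MeasurableSet (bad i) := fun i => measurableSet_lt measurable_const (hf i).measurable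
  have hbd : ∀ i, μ (Z ∩ bad i) ≤ ENNReal.ofReal (M₀ / (2 * N)) := by
    intro i
    have hε : 0 < 2 * N * G i / M₀ := by have := hG i; positivity
    have h1 : ENNReal.ofReal (2 * N * G i / M₀) * (μ.restrict Z) {z | ENNReal.ofReal (2 * N * G i / M₀) ≤ ENNReal.ofReal (f i z)}
        ≤ ∫⁻ z in Z, ENNReal.ofReal (f i z) ∂μ :=
      mul_meas_ge_le_lintegral (ENNReal.measurable_ofReal.comp (hf i).measurable) _
    have h2 : μ (Z ∩ bad i) ≤ (μ.restrict Z) {z | ENNReal.ofReal (2 * N * G i / M₀) ≤ ENNReal.ofReal (f i z)} := by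
      rw [inter_comm, ← Measure.restrict_apply (hbm i)]
      refine measure_mono fun z hz => ?_
      exact ENNReal.ofReal_le_ofReal (le_of_lt hz)
    have h3 : ENNReal.ofReal (2 * N * G i / M₀) * μ (Z ∩ bad i) ≤ ENNReal.ofReal (G i) :=
      (mul_le_mul_right h2 _).trans (h1.trans (hint i))
    have h4 : ENNReal.ofReal (G i) = ENNReal.ofReal (2 * N * G i / M₀) * ENNReal.ofReal (M₀ / (2 * N)) := by
      rw [← ENNReal.ofReal_mul hε.le]
      congr 1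
      field_simp
    rw [h4] at h3
    exact (ENNReal.mul_le_mul_iff_right (by simpa using hε) ENNReal.ofReal_ne_top).1 h3
  refine ⟨Z \ ⋃ i, bad i, diff_subset, ?_, ?_⟩
  · have h5 : μ (Z ∩ ⋃ i, bad i) ≤ ENNReal.ofReal (M₀ / 2) := by
      rw [inter_iUnion]
      refine (measure_iUnion_fintype_le μ _).trans ((Finset.sum_le_sum fun i _ => hbd i).trans (le_of_eq ?_))
      rw [Finset.sum_const, Finset.card_univ, Fintype.card_fin, nsmul_eq_mul, ← ENNReal.ofReal_natCast, ← ENNReal.ofReal_mul hNr.le]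
      congr 1
      field_simp
    have h6 : μ Z ≤ μ (Z ∩ ⋃ i, bad i) + μ (Z \ ⋃ i, bad i) := by
      conv_lhs => rw [← inter_union_diff Z (⋃ i, bad i)]
      exact measure_union_le _ _
    rw [hμZ] at h6
    have h7 : ENNReal.ofReal M₀ = ENNReal.ofReal (M₀ / 2) + ENNReal.ofReal (M₀ / 2) := by
      rw [← ENNReal.ofReal_add (by positivity) (by positivity)]
      congr 1
      ring
    rw [h7] at h6
    have h8 := h6.trans (add_le_add_left h5 _)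
    exact (ENNReal.add_le_add_iff_left ENNReal.ofReal_ne_top).1 h8
  · intro z hz i
    by_contra hcon
    exact hz.2 (mem_iUnion.2 ⟨i, not_le.1 hcon⟩)

theorem fld_chart_sub (L : ℝ) (ω y : E n) (τ : ℝ) (Rω ρ : ℝ) (hL : 1 ≤ L) (hfreq : ‖ω‖ ≤ Rω)
    (hρ : (1 + 2 * Rω) * ρ ≤ L) (z w : ST n) (hwz : ‖w - z‖ ≤ ρ) :
    ‖chart L ω y τ z - chart L ω y τ w‖ ≤ 1 := by
  have hL0 : 0 < L := by linarith
  have hρ0 : 0 ≤ ρ := (norm_nonneg _).trans hwz
  have hR0 : 0 ≤ Rω := (norm_nonneg _).trans hfreq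
  have h1 : ‖(w - z).1‖ ≤ ρ := (norm_fst_le _).trans hwz
  have h2 : ‖(w - z).2‖ ≤ ρ := (norm_snd_le _).trans hwz
  have e : chart L ω y τ z - chart L ω y τ w = (L⁻¹ • (-(w - z).1 + (2 * (w - z).2) • ω), -(w - z).2 / L ^ 2) := by
    unfold chart
    ext1
    · show L⁻¹ • (z.1 - y - (2 * z.2) • ω) - L⁻¹ • (w.1 - y - (2 * w.2) • ω) = L⁻¹ • (-(w.1 - z.1) + (2 * (w.2 - z.2)) • ω)
      rw [← smul_sub]
      congr 1
      simp only [mul_sub, sub_smul]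
      abel
    · show (z.2 / L ^ 2 - τ) - (w.2 / L ^ 2 - τ) = -(w.2 - z.2) / L ^ 2
      ring
  rw [e, Prod.norm_def]
  refine max_le ?_ ?_
  · rw [norm_smul, norm_inv, Real.norm_eq_abs, abs_of_pos hL0, inv_mul_le_iff₀ hL0, mul_one]
    refine (norm_add_le _ _).trans ?_
    rw [norm_neg, norm_smul, norm_mul]
    have h3 : ‖(2 : ℝ)‖ = 2 := by norm_num
    rw [h3]
    have h4 : 2 * ‖(w - z).2‖ * ‖ω‖ ≤ 2 * ρ * Rω := by gcongr
    nlinarith
  · rw [norm_div, norm_neg, norm_pow, Real.norm_eq_abs L, abs_of_pos hL0, div_le_one (by positivity)]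
    have h5 : ρ ≤ L := by nlinarith
    nlinarith

/-- **L-FLD-T3** (~100 l.)  PEETRE.   `chart w - chart z = (L⁻¹((w-z).1 - 2 (w-z).2 ω), (w-z).2/L²)` has norm `≤ 1`, so `1 + ‖chart z‖ ≤ 2 (1 + ‖chart w‖)` and `wt w ≤ 2^P wt z`. -/
theorem fld_env_peetre (F : Arr n ι) (S : Finset ι) (cf : ι → ℂ) (P : ℕ) (Rω ρ : ℝ) (hL : 1 ≤ F.L) (hfreq : ∀ α ∈ S, ‖F.om α‖ ≤ Rω)
    (hρ : (1 + 2 * Rω) * ρ ≤ F.L) (z w : ST n) (hwz : ‖w - z‖ ≤ ρ) :
    F.env S cf P w ≤ 2 ^ P * F.env S cf P z := by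
  unfold Arr.env
  rw [mul_left_comm]
  refine mul_le_mul_of_nonneg_left ?_ (Real.rpow_nonneg (by linarith) _)
  rw [Finset.mul_sum]
  refine Finset.sum_le_sum fun α hα => ?_
  rw [mul_left_comm]
  refine mul_le_mul_of_nonneg_left ?_ (by positivity)
  unfold Arr.wt
  have h1 := fld_chart_sub F.L (F.om α) (F.y α) (F.tc α) Rω ρ hL (hfreq α hα) hρ z w hwz
  set a := chart F.L (F.om α) (F.y α) (F.tc α) z
  set b := chart F.L (F.om α) (F.y α) (F.tc α) w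
  have h2 : ‖a‖ ≤ ‖b‖ + 1 := by
    have : a = b + (a - b) := by abel
    calc ‖a‖ = ‖b + (a - b)‖ := by rw [← this]
      _ ≤ ‖b‖ + ‖a - b‖ := norm_add_le _ _
      _ ≤ ‖b‖ + 1 := by linarith
  have ha : 0 < 1 + ‖a‖ := by positivity
  have hb : 0 < 1 + ‖b‖ := by positivity
  rw [zpow_neg, zpow_neg, zpow_natCast, zpow_natCast, ← div_eq_mul_inv, le_div_iff₀ (by positivity), inv_mul_le_iff₀ (by positivity), ← mul_pow]
  refine pow_le_pow_left₀ ha.le ?_ P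
  have := norm_nonneg b
  linarith

/-- **L-FLD-T4** (~120 l.)  COUNTING.   The set `𝒴 = {q | cube q ∩ Z₁ ≠ ∅}` is finite with `≤ N` elements (every finite subset has `≤ N` elements: `Set.infinite` gives arbitrarily large finite subsets, `Set.Infinite.exists_subset_card_eq`);
`Z₁ ⊆ ⋃_{q ∈ 𝒴} cube q` (`ww_mem_cube`), `μ (cube q) ≤ n^n m χ` (`ww_cube_le`). -/
theorem fld_count (μ : Measure (ST n)) (m χ : ℝ) (hd : Dens μ m χ) (hmχ : 0 ≤ m * χ) (Z₁ : Set (ST n)) (N : ℝ) (hN : 0 ≤ N)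
    (h : ∀ Y : Finset (MI n), (∀ q ∈ Y, (cube q ∩ Z₁).Nonempty) → (Y.card : ℝ) ≤ N) :
    μ Z₁ ≤ ENNReal.ofReal (N * ((n : ℝ) ^ n * (m * χ))) := by
  set 𝒴 : Set (MI n) := {q | (cube q ∩ Z₁).Nonempty} with h𝒴
  have hfin : 𝒴.Finite := by
    by_contra hinf
    obtain ⟨t, ht, hc⟩ := Set.Infinite.exists_subset_card_eq (s := 𝒴) hinf (⌊N⌋₊ + 1)
    have h1 := h t (fun q hq => ht hq)
    rw [hc] at h1
    have h2 := Nat.lt_floor_add_one N
    push_cast at h1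
    linarith
  have hsub : Z₁ ⊆ ⋃ q ∈ hfin.toFinset, cube q := by
    intro z hz
    refine mem_iUnion₂.2 ⟨(fun i => ⌊z.1 i⌋, ⌊z.2⌋), ?_, ww_mem_cube z⟩
    rw [Set.Finite.mem_toFinset]
    exact ⟨z, ww_mem_cube z, hz⟩
  have hcard : (hfin.toFinset.card : ℝ) ≤ N := h _ fun q hq => (Set.Finite.mem_toFinset hfin).1 hq
  refine (measure_mono hsub).trans ((measure_biUnion_finset_le _ _).trans ?_)
  refine (Finset.sum_le_sum fun q _ => ww_cube_le hd q).trans ?_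
  rw [Finset.sum_const, nsmul_eq_mul, ← ENNReal.ofReal_natCast, ← ENNReal.ofReal_mul (Nat.cast_nonneg _)]
  refine ENNReal.ofReal_le_ofReal ?_
  have : 0 ≤ (n : ℝ) ^ n * (m * χ) := by positivity
  exact mul_le_mul_of_nonneg_right hcard this

/-- **L-FLD-T5** (~150 l.)  THE FRAME ESTIMATE AFTER NORMALISATION.   Apply `hF` with the coefficients `cf i / b i` (`ww_fld_smul`, `ww_energy_smul`, `fld_env_smul`), the levels `a / b i`, `wz i q` = the witness of a chosen point of `cube q ∩ Z₁`.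
`energy (cf/b) / (a/b)² = energy cf / a²`. -/
theorem fld_frame_norm (k : ℕ) (c : ℝ) (K : Cls) (T₁ C₂ : ℝ) (P : ℕ) (C : ℝ) (hF : FlatFrameWith k c K T₁ C₂ P C)
    (F : Fin (k + 1) → Arr (k + 1) ι) (S : Fin (k + 1) → Finset ι) (cf : Fin (k + 1) → ι → ℂ) (h Q ρ a : ℝ) (e : E (k + 1)) (β₀ : ℝ) (τ₀ : ℤ)
    (hL : ∀ i, (F i).L = h) (hIn : ∀ i, (F i).In (S i) K) (htc : ∀ i, ∀ α ∈ S i, ∃ j : ℤ, (F i).tc α = j ∧ |(j : ℝ) - τ₀| ≤ T₁)
    (he : ‖e‖ = 1) (hβ : |β₀| ≤ C₂) (hflat : ∀ i, ∀ α ∈ S i, |⟪e, (F i).om α⟫_ℝ - β₀| ≤ C₂ / h)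
    (hQ : 1 ≤ Q) (htr : ∀ lb : Fin (k + 1) → ι, (∀ i, lb i ∈ S i) → TransvF Q e (fun i => (F i).om (lb i)))
    (hρ : 1 ≤ ρ) (hρh : C * ρ ≤ h) (ha : 0 < a)
    (b : Fin (k + 1) → ℝ) (hb : ∀ i, 0 < b i) (hcut : ∀ i, h ^ c * b i ≤ a) (Z₁ : Set (ST (k + 1)))
    (hwit : ∀ z ∈ Z₁, ∀ i, ∃ w, ‖w - z‖ ≤ ρ ∧ a ≤ ‖(F i).fld (S i) (cf i) w‖ ∧ (F i).env (S i) (cf i) P w ≤ b i ^ 2)
    (Y : Finset (MI (k + 1))) (hY : ∀ q ∈ Y, (cube q ∩ Z₁).Nonempty) :
    (Y.card : ℝ) ≤ C * (ρ * Q) ^ C * (∏ i, a / b i) ^ (-(4 / ((k : ℝ) * ((k : ℝ) + 1)))) * ∑ i, h ^ 2 * energy (S i) (cf i) / a ^ 2 := by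
  have hex : ∀ (q : MI (k + 1)) (i : Fin (k + 1)), ∃ w : ST (k + 1), q ∈ Y →
      ((∃ z ∈ cube q, ‖w - z‖ ≤ ρ) ∧ a ≤ ‖(F i).fld (S i) (cf i) w‖ ∧ (F i).env (S i) (cf i) P w ≤ b i ^ 2) := by
    intro q i
    by_cases hq : q ∈ Y
    · obtain ⟨z, hz1, hz2⟩ := hY q hq
      obtain ⟨w, hw1, hw2, hw3⟩ := hwit z hz2 i
      exact ⟨w, fun _ => ⟨⟨z, hz1, hw1⟩, hw2, hw3⟩⟩
    · exact ⟨0, fun h' => absurd h' hq⟩
  choose wz hwz using hex
  have key := hF ι F S (fun i α => (((b i)⁻¹ : ℝ) : ℂ) * cf i α) h Q ρ (fun i => a / b i) e β₀ τ₀ Y (fun i q => wz q i)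
    hL hIn htc he hβ hflat hQ htr hρ hρh (fun i => (le_div_iff₀ (hb i)).2 (hcut i)) ?_
  · refine key.trans (le_of_eq ?_)
    congr 1
    refine Finset.sum_congr rfl fun i _ => ?_
    have hbi := hb i
    rw [ww_energy_smul, Complex.norm_real, Real.norm_eq_abs, sq_abs]
    field_simp
  · intro q hq i
    obtain ⟨h1, h2, h3⟩ := hwz q i hq
    have hbi := hb i
    refine ⟨h1, ?_, ?_⟩
    · rw [ww_fld_smul, norm_mul, Complex.norm_real, Real.norm_eq_abs, abs_of_pos (inv_pos.2 hbi), div_eq_inv_mul]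
      exact mul_le_mul_of_nonneg_left h2 (inv_pos.2 hbi).le
    · rw [fld_env_smul]
      calc (b i)⁻¹ ^ 2 * (F i).env (S i) (cf i) P (wz q i) ≤ (b i)⁻¹ ^ 2 * b i ^ 2 :=
            mul_le_mul_of_nonneg_left h3 (by positivity)
        _ = 1 := by field_simp

/-- **L-FLD-T6** (~200 l.)  SOLVING FOR `M₀` (real arithmetic, paper l.311-323).   `n = k+1`, `β = 2/(n+1) = 2/(k+2)`.
`(∏ a/√(x_i/M₀))^{-4/(kn)} = (M₀ a²)^{-2/k} ∏ x_i^{2/(kn)}`, `x_i = c₀ m h y_i`;  so `(M₀a²)^{1+2/k} ≤ 2 Kc m χ h² S (c₀ m h)^{2/k} (∏ y_i)^{2/(kn)}`;  raise to the power `k/(k+2) = 1 - β`. -/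
theorem fld_solve (k : ℕ) (hk : 1 ≤ k) (M₀ a Kc m χ h c₀ : ℝ) (y En : Fin (k + 1) → ℝ) (hM₀ : 0 < M₀) (ha : 0 < a) (hKc : 0 ≤ Kc) (hm : 0 < m) (hχ : 0 < χ)
    (hh : 0 < h) (hc₀ : 0 < c₀) (hy : ∀ i, 0 < y i) (hEn : ∀ i, 0 ≤ En i)
    (hmain : M₀ / 2 ≤ Kc * (∏ i, a / Real.sqrt (c₀ * m * h * y i / M₀)) ^ (-(4 / ((k : ℝ) * ((k : ℝ) + 1)))) * (∑ i, h ^ 2 * En i / a ^ 2) * (m * χ)) :
    a ^ 2 * M₀ ≤ (2 * Kc) ^ (1 - bet (k + 1)) * c₀ ^ bet (k + 1) * m * χ ^ (1 - bet (k + 1)) * h ^ (2 * ((k + 1 : ℕ) : ℝ) / (((k + 1 : ℕ) : ℝ) + 1))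
      * (∏ i, y i) ^ (bet (k + 1) / ((k + 1 : ℕ) : ℝ)) * (∑ i, En i) ^ (1 - bet (k + 1)) := by
  have hκ : (1 : ℝ) ≤ (k : ℝ) := by exact_mod_cast hk
  have hsum : ∑ i, h ^ 2 * En i / a ^ 2 = h ^ 2 * (∑ i, En i) / a ^ 2 := by
    rw [Finset.mul_sum, Finset.sum_div]
  rw [hsum] at hmain
  set SE := ∑ i, En i with hSE
  have hSE0 : 0 ≤ SE := Finset.sum_nonneg fun i _ => hEn i
  have hKc' : 0 < Kc := by
    rcases hKc.lt_or_eq with h1 | h1
    · exact h1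
    · rw [← h1] at hmain
      simp only [zero_mul] at hmain
      linarith
  have hSE' : 0 < SE := by
    rcases hSE0.lt_or_eq with h1 | h1
    · exact h1
    · rw [← h1] at hmain
      simp only [mul_zero, zero_div, zero_mul] at hmain
      linarith
  have hsq : ∀ i, 0 < Real.sqrt (c₀ * m * h * y i / M₀) := fun i => Real.sqrt_pos.2 (by have := hy i; positivity)
  have hPi : 0 < ∏ i, a / Real.sqrt (c₀ * m * h * y i / M₀) := Finset.prod_pos fun i _ => div_pos ha (hsq i)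
  have hPy : 0 < ∏ i, y i := Finset.prod_pos fun i _ => hy i
  set e : ℝ := -(4 / ((k : ℝ) * ((k : ℝ) + 1))) with he
  have hlPi : Real.log (∏ i, a / Real.sqrt (c₀ * m * h * y i / M₀))
      = ((k : ℝ) + 1) * Real.log a - (1 / 2) * ((k : ℝ) + 1) * (Real.log c₀ + Real.log m + Real.log h - Real.log M₀) - (1 / 2) * Real.log (∏ i, y i) := by
    rw [Real.log_prod (fun i _ => (div_pos ha (hsq i)).ne'), Real.log_prod (fun i _ => (hy i).ne')]
    have : ∀ i, Real.log (a / Real.sqrt (c₀ * m * h * y i / M₀))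
        = (Real.log a - (1 / 2) * (Real.log c₀ + Real.log m + Real.log h - Real.log M₀)) - (1 / 2) * Real.log (y i) := by
      intro i
      have := hy i
      rw [Real.log_div ha.ne' (hsq i).ne', Real.log_sqrt (by positivity), Real.log_div (by positivity) hM₀.ne',
        Real.log_mul (by positivity) (by positivity), Real.log_mul (by positivity) (by positivity), Real.log_mul (by positivity) (by positivity)]
      ring
    simp_rw [this]
    rw [Finset.sum_sub_distrib, Finset.sum_const, Finset.card_univ, Fintype.card_fin, ← Finset.mul_sum, nsmul_eq_mul]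
    push_cast
    ring
  have hPe : 0 < (∏ i, a / Real.sqrt (c₀ * m * h * y i / M₀)) ^ e := Real.rpow_pos_of_pos hPi _
  have H := Real.log_le_log (by positivity) hmain
  rw [Real.log_div hM₀.ne' (by norm_num), Real.log_mul (by positivity) (by positivity), Real.log_mul (by positivity) (by positivity),
    Real.log_mul (by positivity) (by positivity), Real.log_rpow hPi, hlPi, Real.log_div (by positivity) (by positivity),
    Real.log_mul (by positivity) (by positivity), Real.log_pow, Real.log_pow, Real.log_mul hm.ne' hχ.ne'] at H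
  have hb : bet (k + 1) = 2 / ((k : ℝ) + 2) := by
    unfold bet
    push_cast
    ring_nf
  rw [hb]
  have p1 := Real.rpow_pos_of_pos (show 0 < 2 * Kc by positivity) (1 - 2 / ((k : ℝ) + 2))
  have p2 := Real.rpow_pos_of_pos hc₀ (2 / ((k : ℝ) + 2))
  have p3 := Real.rpow_pos_of_pos hχ (1 - 2 / ((k : ℝ) + 2))
  have p4 := Real.rpow_pos_of_pos hh (2 * ((k + 1 : ℕ) : ℝ) / (((k + 1 : ℕ) : ℝ) + 1))
  have p5 := Real.rpow_pos_of_pos hPy (2 / ((k : ℝ) + 2) / ((k + 1 : ℕ) : ℝ))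
  have p6 := Real.rpow_pos_of_pos hSE' (1 - 2 / ((k : ℝ) + 2))
  refine (Real.log_le_log_iff (by positivity) (by positivity)).1 ?_
  rw [Real.log_mul (by positivity) (by positivity), Real.log_mul (by positivity) (by positivity), Real.log_mul (by positivity) (by positivity),
    Real.log_mul (by positivity) (by positivity), Real.log_mul (by positivity) (by positivity), Real.log_mul (by positivity) (by positivity),
    Real.log_mul (by positivity) (by positivity),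
    Real.log_rpow (by positivity), Real.log_rpow hc₀, Real.log_rpow hχ, Real.log_rpow hh, Real.log_rpow hPy, Real.log_rpow hSE',
    Real.log_mul (by norm_num) hKc'.ne', Real.log_pow]
  push_cast
  push_cast at H
  set la := Real.log a
  set lM := Real.log M₀
  set lK := Real.log Kc
  set lm := Real.log m
  set lχ := Real.log χ
  set lh := Real.log h
  set lc := Real.log c₀
  set ly := Real.log (∏ i, y i)
  set lS := Real.log SE
  set l2 := Real.log 2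
  set κ : ℝ := (k : ℝ)
  have hpos : 0 < κ / (κ + 2) := by positivity
  have H2 := mul_le_mul_of_nonneg_left H hpos.le
  have e1 : κ / (κ + 2) * (lK + e * ((κ + 1) * la - 1 / 2 * (κ + 1) * (lc + lm + lh - lM) - 1 / 2 * ly) + (2 * lh + lS - 2 * la) + (lm + lχ))
      - κ / (κ + 2) * (lM - l2)
      = ((1 - 2 / (κ + 2)) * (l2 + lK) + 2 / (κ + 2) * lc + lm + (1 - 2 / (κ + 2)) * lχ + 2 * (κ + 1) / (κ + 1 + 1) * lh + 2 / (κ + 2) / (κ + 1) * ly + (1 - 2 / (κ + 2)) * lS)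
        - (2 * la + lM) := by
    rw [he]
    field_simp
    ring
  linarith

/-- the constant of the tuple bound -/
noncomputable def fldKt (n P : ℕ) (Cf Cd ρQ : ℝ) : ℝ :=
  (2 * (Cf * ρQ ^ Cf * (n : ℝ) ^ n)) ^ (1 - bet n) * (2 ^ (P + 1) * (n : ℝ) * Cd) ^ bet n

/-- **L-FLD-T7** (~200 l.)  **THE TUPLE BOUND** (assembly: see the head of the file).   `𝓔_i > 0`: `Z ≠ ∅`, a witness has `0 < a ≤ |V_i|`, `ww_fld_zero_of_energy`. -/
theorem fld_tuple (k : ℕ) (hk : 1 ≤ k) (c : ℝ) (K : Cls) (T₁ C₂ : ℝ) (P : ℕ) (C : ℝ) (hC : 0 ≤ C) (hF : FlatFrameWith k c K T₁ C₂ P C)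
    (F : Fin (k + 1) → Arr (k + 1) ι) (S : Fin (k + 1) → Finset ι) (cf : Fin (k + 1) → ι → ℂ) (h Q ρ a : ℝ) (e : E (k + 1)) (β₀ : ℝ) (τ₀ : ℤ)
    (μ : Measure (ST (k + 1))) (m χ Cd : ℝ) (d : Fin (k + 1) → ℝ) (Z : Set (ST (k + 1))) (M₀ : ℝ)
    (hL : ∀ i, (F i).L = h) (hIn : ∀ i, (F i).In (S i) K) (htc : ∀ i, ∀ α ∈ S i, ∃ j : ℤ, (F i).tc α = j ∧ |(j : ℝ) - τ₀| ≤ T₁)
    (he : ‖e‖ = 1) (hβ : |β₀| ≤ C₂) (hflat : ∀ i, ∀ α ∈ S i, |⟪e, (F i).om α⟫_ℝ - β₀| ≤ C₂ / h)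
    (hQ : 1 ≤ Q) (htr : ∀ lb : Fin (k + 1) → ι, (∀ i, lb i ∈ S i) → TransvF Q e (fun i => (F i).om (lb i)))
    (hρ : 1 ≤ ρ) (hρh : C * ρ ≤ h) (hρh' : (1 + 2 * K.Rω) * ρ ≤ h)
    (hm : 0 < m) (hχ : 0 < χ) (hdens : Dens μ m χ) (hZ : MeasurableSet Z) (hM₀ : 0 < M₀) (hμZ : μ Z = ENNReal.ofReal M₀) (ha : 0 < a)
    (hCd : 0 < Cd) (hd : ∀ i, 0 < d i)
    (hmom : ∀ i, ∀ p ∈ S i, flMom μ (F i) P p ≤ ENNReal.ofReal (Cd * m * h ^ (k + 1 + 1) * d i))
    (hcut : ∀ i, h ^ c * Real.sqrt (2 ^ (P + 1) * ((k + 1 : ℕ) : ℝ) * Cd * m * h * (energy (S i) (cf i) * d i) / M₀) ≤ a)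
    (hwit : ∀ z ∈ Z, ∀ i, ∃ w, ‖w - z‖ ≤ ρ ∧ a ≤ ‖(F i).fld (S i) (cf i) w‖) :
    a ^ 2 * M₀ ≤ fldKt (k + 1) P C Cd (ρ * Q) * m * χ ^ (1 - bet (k + 1)) * h ^ (2 * ((k + 1 : ℕ) : ℝ) / (((k + 1 : ℕ) : ℝ) + 1))
      * (∏ i, energy (S i) (cf i) * d i) ^ (bet (k + 1) / ((k + 1 : ℕ) : ℝ)) * (∑ i, energy (S i) (cf i)) ^ (1 - bet (k + 1)) := by
  have h1 : 1 ≤ h := by
    have := (hIn 0).one_le
    rwa [hL 0] at this
  have hh0 : 0 < h := lt_of_lt_of_le one_pos h1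
  have hn0 : (0 : ℝ) < ((k + 1 : ℕ) : ℝ) := by positivity
  -- the set is not empty
  have hZne : Z.Nonempty := by
    by_contra hc
    rw [Set.not_nonempty_iff_eq_empty] at hc
    rw [hc, measure_empty] at hμZ
    have := ENNReal.ofReal_pos.2 hM₀
    rw [← hμZ] at this
    exact lt_irrefl _ this
  obtain ⟨z₀, hz₀⟩ := hZne
  -- positive energies
  have hE0 : ∀ i, 0 ≤ energy (S i) (cf i) := fun i => Finset.sum_nonneg fun _ _ => by positivity
  have hE : ∀ i, 0 < energy (S i) (cf i) := by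
    intro i
    rcases (hE0 i).lt_or_eq with hlt | heq
    · exact hlt
    · exfalso
      obtain ⟨w, _, hw⟩ := hwit z₀ hz₀ i
      rw [ww_fld_zero_of_energy heq.symm w, norm_zero] at hw
      linarith
  set G : Fin (k + 1) → ℝ := fun i => Cd * m * h * (energy (S i) (cf i) * d i) with hG
  have hGpos : ∀ i, 0 < G i := by
    intro i
    have := hE i
    have := hd i
    simp only [hG]
    positivity
  -- integrals of the envelopes
  have hint : ∀ i, ∫⁻ z in Z, ENNReal.ofReal ((F i).env (S i) (cf i) P z) ∂μ ≤ ENNReal.ofReal (G i) := by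
    intro i
    have hd' := hd i
    have h2 := fld_env_int (F i) (S i) (cf i) P μ Z (Cd * m * h ^ (k + 1 + 1) * d i) (by rw [hL i]; exact hh0) (by positivity) (hmom i)
    refine h2.trans (le_of_eq ?_)
    congr 1
    rw [hL i]
    simp only [hG]
    have e1 : h ^ (-((k + 1 : ℕ) : ℝ)) * h ^ (k + 1 + 1) = h := by
      rw [Real.rpow_neg hh0.le, Real.rpow_natCast, pow_succ h (k + 1)]
      field_simp
    calc h ^ (-((k + 1 : ℕ) : ℝ)) * energy (S i) (cf i) * (Cd * m * h ^ (k + 1 + 1) * d i)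
        = Cd * m * (h ^ (-((k + 1 : ℕ) : ℝ)) * h ^ (k + 1 + 1)) * (energy (S i) (cf i) * d i) := by ring
      _ = _ := by rw [e1]
  -- Markov
  obtain ⟨Z₁, hZ₁, hμZ₁, hZ₁env⟩ := fld_markov (N := k + 1) (by omega) μ Z hZ M₀ hM₀ hμZ
    (fun i => (F i).env (S i) (cf i) P) (fun i => fld_env_cont (F i) (S i) (cf i) P) G hGpos hint
  -- the normalisation
  set b : Fin (k + 1) → ℝ := fun i =>
    Real.sqrt (2 ^ (P + 1) * ((k + 1 : ℕ) : ℝ) * Cd * m * h * (energy (S i) (cf i) * d i) / M₀) with hb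
  have hbarg : ∀ i, 0 < 2 ^ (P + 1) * ((k + 1 : ℕ) : ℝ) * Cd * m * h * (energy (S i) (cf i) * d i) / M₀ := by
    intro i
    have := hE i
    have := hd i
    positivity
  have hbpos : ∀ i, 0 < b i := fun i => Real.sqrt_pos.2 (hbarg i)
  have hbsq : ∀ i, b i ^ 2 = 2 ^ P * (2 * ((k + 1 : ℕ) : ℝ) * G i / M₀) := by
    intro i
    simp only [hb, hG]
    rw [Real.sq_sqrt (hbarg i).le, pow_succ]
    ring
  -- witnesses with envelopes
  have hwit' : ∀ z ∈ Z₁, ∀ i, ∃ w, ‖w - z‖ ≤ ρ ∧ a ≤ ‖(F i).fld (S i) (cf i) w‖ ∧ (F i).env (S i) (cf i) P w ≤ b i ^ 2 := by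
    intro z hz i
    obtain ⟨w, hw1, hw2⟩ := hwit z (hZ₁ hz) i
    refine ⟨w, hw1, hw2, ?_⟩
    have h3 := fld_env_peetre (F i) (S i) (cf i) P K.Rω ρ (by rw [hL i]; exact h1) (hIn i).freq (by rw [hL i]; exact hρh') z w hw1
    refine h3.trans ?_
    rw [hbsq i]
    exact mul_le_mul_of_nonneg_left (hZ₁env z hz i) (by positivity)
  -- the frame estimate
  set Nn : ℝ := C * (ρ * Q) ^ C * (∏ i, a / b i) ^ (-(4 / ((k : ℝ) * ((k : ℝ) + 1)))) * ∑ i, h ^ 2 * energy (S i) (cf i) / a ^ 2 with hNn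
  have hρQ : 0 < ρ * Q := by positivity
  have hprod : 0 < ∏ i, a / b i := Finset.prod_pos fun i _ => div_pos ha (hbpos i)
  have hNn0 : 0 ≤ Nn := by
    have h4 : 0 ≤ ∑ i, h ^ 2 * energy (S i) (cf i) / a ^ 2 := Finset.sum_nonneg fun i _ => by
      have := hE0 i
      positivity
    have h5 := Real.rpow_pos_of_pos hρQ C
    have h6 := Real.rpow_pos_of_pos hprod (-(4 / ((k : ℝ) * ((k : ℝ) + 1))))
    rw [hNn]
    positivity
  have hcount := fld_count μ m χ hdens (by positivity) Z₁ Nn hNn0 (fun Y hY =>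
    fld_frame_norm k c K T₁ C₂ P C hF F S cf h Q ρ a e β₀ τ₀ hL hIn htc he hβ hflat hQ htr hρ hρh ha b hbpos hcut Z₁ hwit' Y hY)
  have hreal : M₀ / 2 ≤ Nn * (((k + 1 : ℕ) : ℝ) ^ (k + 1) * (m * χ)) := by
    have h7 := hμZ₁.trans hcount
    rwa [ENNReal.ofReal_le_ofReal_iff (by positivity)] at h7
  -- solving
  have hsolve := fld_solve k hk M₀ a (C * (ρ * Q) ^ C * ((k + 1 : ℕ) : ℝ) ^ (k + 1)) m χ h (2 ^ (P + 1) * ((k + 1 : ℕ) : ℝ) * Cd)
    (fun i => energy (S i) (cf i) * d i) (fun i => energy (S i) (cf i)) hM₀ ha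
    (by have := Real.rpow_pos_of_pos hρQ C; positivity) hm hχ hh0 (by positivity) (fun i => mul_pos (hE i) (hd i)) hE0
    (by
      refine hreal.trans (le_of_eq ?_)
      rw [hNn]
      simp only [hb]
      ring)
  unfold fldKt
  exact hsolve

end Claimed.Agent.R257
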