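import Claimed.Agent.R257.Fl.D1

/-!
# R257 / Fl / D2 : COLOURS, TYPES, SELECTION OF A ROBUST TUPLE (H flattening.tex l.172-225)            (captain helper263)

ONE CLUSTER `(s', e, β₀, Z)` (`FlClu`, `FlCluOut` of `Fl/Defs.lean`).   `R` = inverse side of the coarse bins, `h` = scale of the flattened packets, `Nc` = number of colours, `T₁ = √n + 2`.
* `FlDat n`      for every coarse bin `b`: the output `(pf b, cf b, Pk b)` of FL-B for the subarray `selS A s' R {b}` and a colouring `col b : FI n → ℕ` of the packets by the dyadic size of the moment `flMom`: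
                 colour `ℓ`: `flMom ≤ C m h^{n+1} 2^{-ℓ}`, and `C m h^{n+1} 2^{-ℓ} ≤ 2 flMom` unless `ℓ = Nc - 1` (THE TINY COLOUR).      `FlDat.Ok`, `fld_dat` (existence).
* `Dt.fam T₁ τ b ℓ`      the packets of the bin `b` with the colour `ℓ` and time index within `T₁` of `τ`.
* `FlTy n = ℤ × (Fin n → BI n) × (Fin n → ℕ)`      TYPES `(τ, b⃗, ℓ⃗)`;   `flTys` the finite set of all types;   `FlVal … Q t`: the type is valid on the big cube `Q`: one witness per family in `Q`, robust transversality, tiny first colour or one common colour.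
* `fld_valid`      every point of `Z` has a valid type.      `fld_partition`      measurable partition of `Z` by types (the type is chosen as a function of `(bigc (R⁴) z, ⌊t/h²⌋)`, a measurable map to a countable set).
-/

set_option autoImplicit false

namespace Claimed.Agent.R257

open MeasureTheory Metric Set
open scoped ENNReal InnerProductSpace

variable {n : ℕ} {ι : Type}

/-- flattened data of a cluster -/
structure FlDat (n : ℕ) where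
  /-- profiles -/
  pf : BI n → FI n → ST n → ℂ
  /-- coefficients -/
  cf : BI n → FI n → ℂ
  /-- packets -/
  Pk : BI n → Finset (FI n)
  /-- colours -/
  col : BI n → FI n → ℕ

open scoped Classical in
/-- the packets of the coarse bin `b` with the colour `ℓ` and time index within `T₁` of `τ` -/
noncomputable def FlDat.fam (Dt : FlDat n) (T₁ : ℝ) (τ : ℤ) (b : BI n) (ℓ : ℕ) : Finset (FI n) :=
  (Dt.Pk b).filter fun p => |((p.2.2 : ℤ) : ℝ) - (τ : ℝ)| ≤ T₁ ∧ Dt.col b p = ℓ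

/-- the data are the outputs of FL-B with an admissible colouring -/
structure FlDat.Ok (Dt : FlDat n) (A : Arr n ι) (s' : Finset ι) (c : ι → ℂ) (μ : Measure (ST n)) (m D R h : ℝ) (Kf : Cls) (P : ℕ) (cs τ C : ℝ) (Nc : ℕ) : Prop where
  out : ∀ b, FlatOut A (selS A s' R {b}) c μ m D h Kf P cs τ C (Dt.pf b) (Dt.cf b) (Dt.Pk b)
  col_lt : ∀ b, ∀ p ∈ Dt.Pk b, Dt.col b p < Nc
  col_le : ∀ b, ∀ p ∈ Dt.Pk b, flMom μ (flArr h (Dt.pf b)) P p ≤ ENNReal.ofReal (C * m * h ^ (n + 1) * (1 / 2) ^ Dt.col b p)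
  col_ge : ∀ b, ∀ p ∈ Dt.Pk b, Dt.col b p + 1 < Nc → ENNReal.ofReal (C * m * h ^ (n + 1) * (1 / 2) ^ Dt.col b p) ≤ 2 * flMom μ (flArr h (Dt.pf b)) P p

/-- **L-FLD-C1** (~60 l.)  the colour of a number `x ≤ t₀`: the largest `ℓ < Nc` with `x ≤ t₀ 2^{-ℓ}` (induction on `Nc`, or `Nat.findGreatest`). -/
theorem fld_col (x : ℝ≥0∞) (t₀ : ℝ) (ht : 0 ≤ t₀) (hx : x ≤ ENNReal.ofReal t₀) (Nc : ℕ) (hNc : 1 ≤ Nc) :
    ∃ ℓ : ℕ, ℓ < Nc ∧ x ≤ ENNReal.ofReal (t₀ * (1 / 2) ^ ℓ) ∧ (ℓ + 1 < Nc → ENNReal.ofReal (t₀ * (1 / 2) ^ ℓ) ≤ 2 * x) := by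
  have e2 : ∀ ℓ : ℕ, ENNReal.ofReal (t₀ * (1 / 2) ^ ℓ) = 2 * ENNReal.ofReal (t₀ * (1 / 2) ^ (ℓ + 1)) := fun ℓ => by
    rw [show (2 : ℝ≥0∞) = ENNReal.ofReal 2 by simp, ← ENNReal.ofReal_mul (by norm_num)]
    congr 1
    rw [pow_succ]
    ring
  have key : ∀ k : ℕ, ∃ ℓ ≤ k, x ≤ ENNReal.ofReal (t₀ * (1 / 2) ^ ℓ) ∧
      (ℓ < k → ENNReal.ofReal (t₀ * (1 / 2) ^ ℓ) ≤ 2 * x) := by
    intro k
    induction k with
    | zero => exact ⟨0, le_rfl, by simpa using hx, fun h => absurd h (lt_irrefl _)⟩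
    | succ k ih =>
      obtain ⟨ℓ, hℓ, h1, h2⟩ := ih
      rcases hℓ.lt_or_eq with h | rfl
      · exact ⟨ℓ, by omega, h1, fun _ => h2 h⟩
      · by_cases hc : x ≤ ENNReal.ofReal (t₀ * (1 / 2) ^ (ℓ + 1))
        · exact ⟨ℓ + 1, le_rfl, hc, fun h => absurd h (lt_irrefl _)⟩
        · refine ⟨ℓ, by omega, h1, fun _ => ?_⟩
          rw [e2 ℓ]
          exact mul_le_mul' le_rfl (not_le.1 hc).le
  obtain ⟨ℓ, hℓ, h1, h2⟩ := key (Nc - 1)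
  exact ⟨ℓ, by omega, h1, fun h => h2 (by omega)⟩

/-- **L-FLD-C2** (~100 l.)  existence of the data: `hFl` for every `selS A s' R {b} ⊆ s'` (`ww_In_mono`; `TubeMom` is monotone in the subarray), `Classical.choose`; colours from `fld_col` and `FlatOut.dmax`. -/
theorem fld_dat (W : WCon) (Kf : Cls) (P : ℕ) (cs τ C : ℝ) (hFl : FlattenWith n W Kf P cs τ C) (A : Arr n ι) (s' : Finset ι) (c : ι → ℂ)
    (μ : Measure (ST n)) (m D R h : ℝ) (Nc : ℕ) (hNc : 1 ≤ Nc) (hC : 0 ≤ C)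
    (hIn : A.In s' W.K) (htc : ∀ α ∈ s', A.tc α = 0) (hm : 0 ≤ m) (hD : 1 ≤ D) (hh : 1 ≤ h) (hCh : C * h ≤ A.L) (hG : Grow μ m n)
    (hS : Slab μ (W.T₀ * A.L ^ 2)) (hT : TubeMom μ A s' m D W.M) :
    ∃ Dt : FlDat n, Dt.Ok A s' c μ m D R h Kf P cs τ C Nc := by
  have hsub : ∀ b : BI n, selS A s' R {b} ⊆ s' := fun b => Finset.filter_subset _ _
  have h1 : ∀ b : BI n, ∃ (pf : FI n → ST n → ℂ) (cf : FI n → ℂ) (Pk : Finset (FI n)),
      FlatOut A (selS A s' R {b}) c μ m D h Kf P cs τ C pf cf Pk := fun b =>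
    hFl ι A (selS A s' R {b}) c μ m D h (ww_In_mono hIn (hsub b)) (fun α hα => htc α (hsub b hα)) hm hD hh hCh hG hS
      (fun α hα => hT α (hsub b hα))
  choose pf cf Pk hout using h1
  have ht0 : 0 ≤ C * m * h ^ (n + 1) := by positivity
  have h2 : ∀ (b : BI n) (p : FI n), ∃ ℓ : ℕ, p ∈ Pk b → (ℓ < Nc ∧
      flMom μ (flArr h (pf b)) P p ≤ ENNReal.ofReal (C * m * h ^ (n + 1) * (1 / 2) ^ ℓ) ∧
      (ℓ + 1 < Nc → ENNReal.ofReal (C * m * h ^ (n + 1) * (1 / 2) ^ ℓ) ≤ 2 * flMom μ (flArr h (pf b)) P p)) :=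
    fun b p => by
      by_cases hp : p ∈ Pk b
      · obtain ⟨ℓ, hℓ⟩ := fld_col _ _ ht0 ((hout b).dmax p hp) Nc hNc
        exact ⟨ℓ, fun _ => hℓ⟩
      · exact ⟨0, fun h => absurd h hp⟩
  choose col hcol using h2
  exact ⟨⟨pf, cf, Pk, col⟩, ⟨hout, fun b p hp => (hcol b p hp).1, fun b p hp => (hcol b p hp).2.1,
    fun b p hp => (hcol b p hp).2.2⟩⟩

/-! ## types -/

/-- types `(τ, b⃗, ℓ⃗)`: time slab of length `h²`, ordered tuple of coarse bins, their colours -/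
abbrev FlTy (n : ℕ) : Type := ℤ × (Fin n → BI n) × (Fin n → ℕ)

/-- the finite set of all types -/
noncomputable def flTys (Nτ : ℕ) (Bn : Finset (BI n)) (Nc : ℕ) : Finset (FlTy n) :=
  (Finset.Icc (-(Nτ : ℤ)) (Nτ : ℤ)) ×ˢ ((Fintype.piFinset fun _ : Fin n => Bn) ×ˢ (Fintype.piFinset fun _ : Fin n => Finset.range Nc))

open scoped Classical in
/-- the occupied coarse bins -/
noncomputable def flBins (A : Arr n ι) (s' : Finset ι) (R : ℝ) : Finset (BI n) := s'.image fun α => fbin R (A.om α)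

/-- the type `t` is valid on the big cube `Q` -/
structure FlVal (Dt : FlDat n) (h R a T₁ wq Qt : ℝ) (e : E n) (Nc : ℕ) (i₀ : Fin n) (Q : MI n) (t : FlTy n) : Prop where
  /-- one witness per family in the big cube -/
  wit : ∀ i, ∃ w ∈ cubeS (R ^ 4) Q, a ≤ ‖(flArr h (Dt.pf (t.2.1 i))).fld (Dt.fam T₁ t.1 (t.2.1 i) (t.2.2 i)) (Dt.cf (t.2.1 i)) w‖
  /-- robust transversality -/
  tr : ∀ ξ' : Fin n → E n, (∀ i, ‖ξ' i - bcen R (t.2.1 i)‖ ≤ wq) → TransvF Qt e ξ'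
  /-- the first colour is tiny, or all colours are equal and not tiny -/
  kind : t.2.2 i₀ + 1 = Nc ∨ ∃ ℓ, ℓ + 1 < Nc ∧ ∀ i, t.2.2 i = ℓ

theorem fld_strip_empty (hn : 2 ≤ n) (w : ℝ) : Strip2 w (∅ : Set (E n)) := by
  refine ⟨EuclideanSpace.single ⟨0, by omega⟩ 1, EuclideanSpace.single ⟨1, by omega⟩ 1, 0, 0, by simp, by simp, ?_,
    fun v hv => absurd hv (Set.notMem_empty v)⟩
  simp [EuclideanSpace.inner_single_left]

theorem fld_sel_aux (hn : 2 ≤ n) (e : E n) (β₀ w R ρ₀ : ℝ) (S : Finset (BI n)) (b₁ : BI n) (hb₁ : b₁ ∈ S) (i₀ : Fin n)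
    (hi₀ : (i₀ : ℕ) = 0) (he : ‖e‖ = 1) (hw : 0 < w) (hw1 : w ≤ 1) (hT : ∀ b ∈ S, |⟪e, bcen R b⟫_ℝ - β₀| ≤ w)
    (hρ : ∀ b ∈ S, ‖bcen R b‖ ≤ ρ₀) :
    Strip2 w (bcen R '' (S : Set (BI n))) ∨ ∃ b : Fin n → BI n, (∀ i, b i ∈ S) ∧ b i₀ = b₁ ∧
      ∀ ξ' : Fin n → E n, (∀ i, ‖ξ' i - bcen R (b i)‖ ≤ w / 2 ^ (n + 3)) → TransvF (2 ^ (n + 3) * (1 + ρ₀) / w) e ξ' := by
  classical
  rcases fls_simplex n hn e β₀ w ρ₀ (S.image (bcen R)) (bcen R b₁) i₀ hi₀ he hw hw1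
    (fun ξ hξ => by
      obtain ⟨b, hb, rfl⟩ := Finset.mem_image.1 hξ
      exact hT b hb)
    (fun ξ hξ => by
      obtain ⟨b, hb, rfl⟩ := Finset.mem_image.1 hξ
      exact hρ b hb) (Finset.mem_image_of_mem _ hb₁) with h | ⟨ξ, hξ, h0, htr⟩
  · left
    rwa [Finset.coe_image] at h
  · right
    have hch : ∀ i, ∃ b ∈ S, bcen R b = ξ i := fun i => by
      obtain ⟨b, hb, h⟩ := Finset.mem_image.1 (hξ i)
      exact ⟨b, hb, h⟩
    choose b hbS hbξ using hch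
    refine ⟨fun i => if i = i₀ then b₁ else b i, fun i => ?_, by simp, fun ξ' hξ' => htr ξ' fun i => ?_⟩
    · by_cases h : i = i₀
      · simp [h, hb₁]
      · simp [h, hbS]
    · have h1 := hξ' i
      by_cases h : i = i₀
      · subst h
        simpa [h0] using h1
      · simpa [h, hbξ] using h1

theorem fld_big_time {a : ℝ} (ha : 0 < a) (z w : ST n) (hw : w ∈ cubeS a (bigc a z)) : |w.2 - z.2| ≤ a := by
  have h1 := hw.2
  have e : ((bigc a z).2 : ℤ) = ⌊z.2 / a⌋ := rfl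
  rw [e] at h1
  have h2 := Int.floor_le (z.2 / a)
  have h3 := Int.lt_floor_add_one (z.2 / a)
  rw [le_div_iff₀ ha] at h2
  rw [div_lt_iff₀ ha] at h3
  rw [abs_le]
  constructor <;> linarith [h1.1, h1.2]

/-- **L-FLD-S1** (~200 l.)  SELECTION (paper l.196-212; pure combinatorics from `fls_simplex`).   `w = Cw/R`.
(i) some `b ∈ Sg` has the tiny colour: `fls_simplex` for `T = Sg.image (bcen R)`, `ξ₁ = bcen R b`; `Strip2 w T` would give `AngCover` (all `Nc` sets `= T`).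
(ii) all colours are `< Nc - 1`: `T_ℓ` = centres of the bins of colour `ℓ`; if `Strip2 w T_ℓ` for all `ℓ` with `T_ℓ ≠ ∅` then `AngCover` with `P ℓ = T_ℓ` (`Strip2 w ∅` holds: an orthonormal pair exists, `n ≥ 2`, e.g. `EuclideanSpace.single`);
 otherwise `fls_simplex` for one `T_ℓ ≠ ∅`.     A point `ξ i ∈ T` is `bcen R (b i)` with `b i ∈ Sg` (choice). -/
theorem fld_select (hn : 2 ≤ n) (e : E n) (β₀ Cw Cq cq R ρ₀ : ℝ) (Nc : ℕ) (hNc : 1 ≤ Nc) (Sg : Finset (BI n)) (col : BI n → ℕ) (i₀ : Fin n) (hi₀ : (i₀ : ℕ) = 0)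
    (he : ‖e‖ = 1) (hw : 0 < Cw / R) (hw1 : Cw / R ≤ 1) (hT : ∀ b ∈ Sg, |⟪e, bcen R b⟫_ℝ - β₀| ≤ Cw / R) (hρ : ∀ b ∈ Sg, ‖bcen R b‖ ≤ ρ₀)
    (hcol : ∀ b ∈ Sg, col b < Nc) (hbroad : ¬ AngCover Cw Cq cq R Nc Sg) :
    ∃ b : Fin n → BI n, (∀ i, b i ∈ Sg) ∧ (col (b i₀) + 1 = Nc ∨ ∃ ℓ, ℓ + 1 < Nc ∧ ∀ i, col (b i) = ℓ) ∧
      ∀ ξ' : Fin n → E n, (∀ i, ‖ξ' i - bcen R (b i)‖ ≤ Cw / R / 2 ^ (n + 3)) → TransvF (2 ^ (n + 3) * (1 + ρ₀) / (Cw / R)) e ξ' := by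
  classical
  by_cases hti : ∃ b₁ ∈ Sg, col b₁ + 1 = Nc
  · obtain ⟨b₁, hb₁, hc₁⟩ := hti
    rcases fld_sel_aux hn e β₀ (Cw / R) R ρ₀ Sg b₁ hb₁ i₀ hi₀ he hw hw1 hT hρ with h | ⟨b, hbS, hb0, htr⟩
    · exfalso
      exact hbroad ⟨fun _ => bcen R '' (Sg : Set (BI n)), fun _ => Or.inl h,
        fun k hk => ⟨⟨0, hNc⟩, Set.mem_image_of_mem _ hk⟩⟩
    · exact ⟨b, hbS, Or.inl (by rw [hb0]; exact hc₁), htr⟩
  · push Not at hti
    have hlt : ∀ b ∈ Sg, col b + 1 < Nc := fun b hb => by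
      have h1 := hcol b hb
      have h2 := hti b hb
      omega
    by_cases hall : ∀ ℓ : Fin Nc, Strip2 (Cw / R) (bcen R '' ((Sg.filter fun b => col b = ℓ : Finset (BI n)) : Set (BI n)))
    · exfalso
      exact hbroad ⟨fun ℓ => bcen R '' ((Sg.filter fun b => col b = ℓ : Finset (BI n)) : Set (BI n)),
        fun ℓ => Or.inl (hall ℓ), fun k hk => ⟨⟨col k, hcol k hk⟩,
          Set.mem_image_of_mem _ (Finset.mem_coe.2 (Finset.mem_filter.2 ⟨hk, rfl⟩))⟩⟩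
    · push Not at hall
      obtain ⟨ℓ, hℓ⟩ := hall
      have hne : (Sg.filter fun b => col b = ℓ).Nonempty := by
        by_contra hem
        rw [Finset.not_nonempty_iff_eq_empty] at hem
        apply hℓ
        rw [hem, Finset.coe_empty, Set.image_empty]
        exact fld_strip_empty hn _
      obtain ⟨b₁, hb₁⟩ := hne
      rcases fld_sel_aux hn e β₀ (Cw / R) R ρ₀ (Sg.filter fun b => col b = ℓ) b₁ hb₁ i₀ hi₀ he hw hw1
        (fun b hb => hT b (Finset.mem_filter.1 hb).1) (fun b hb => hρ b (Finset.mem_filter.1 hb).1)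
        with h | ⟨b, hbS, hb0, htr⟩
      · exact absurd h hℓ
      · refine ⟨b, fun i => (Finset.mem_filter.1 (hbS i)).1,
          Or.inr ⟨ℓ, ?_, fun i => (Finset.mem_filter.1 (hbS i)).2⟩, htr⟩
        have h1 := hlt b₁ (Finset.mem_filter.1 hb₁).1
        rw [(Finset.mem_filter.1 hb₁).2] at h1
        exact h1

/-- **L-FLD-S2** (~200 l.)  THE COLOUR OF A SIGNIFICANT BIN.   `w` = witness of `b ∈ flSig`: `th ≤ ‖A.fld (selS A s' R {b}) c w‖ = ‖(flArr h (pf b)).fld (Pk b) (cf b) w‖` (`FlatOut.fld`).   An atom `p` with `|p.2.2 - τ| > T₁ = √n + 2` vanishes at `w`: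
`Prof.supp` (radius `Kf.R = √n`) gives `|w.2/h² - p.2.2| ≤ √n`, and `|w.2/h² - τ| ≤ |w.2 - z.2|/h² + 1 ≤ R⁴/h² + 1 ≤ 2`.   So the field is `∑_{ℓ < Nc} fld (fam T₁ τ b ℓ)` (`Finset.sum_fiberwise`-type partition by the colour, `col_lt`) and one term has norm `≥ th/Nc`. -/
theorem fld_colour (Dt : FlDat n) (A : Arr n ι) (s' : Finset ι) (c : ι → ℂ) (μ : Measure (ST n)) (m D R h : ℝ) (N : ℕ) (bb Rω : ℝ) (P : ℕ) (cs τ C : ℝ) (Nc : ℕ)
    (hOk : Dt.Ok A s' c μ m D R h (flCls n N bb Rω) P cs τ C Nc) (hNc : 1 ≤ Nc) (hR : 1 ≤ R) (hh : 1 ≤ h) (hRh : R ^ 4 ≤ h ^ 2) (th : ℝ)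
    (z : ST n) (b : BI n) (hb : b ∈ flSig A s' c R th (bigc (R ^ 4) z)) :
    ∃ ℓ < Nc, ∃ w ∈ cubeS (R ^ 4) (bigc (R ^ 4) z),
      th / Nc ≤ ‖(flArr h (Dt.pf b)).fld (Dt.fam (Real.sqrt n + 2) ⌊z.2 / h ^ 2⌋ b ℓ) (Dt.cf b) w‖ := by
  classical
  obtain ⟨-, w, hw, hth'⟩ := Finset.mem_filter.1 hb
  have hh0 : 0 < h := by linarith
  have hh2 : 0 < h ^ 2 := by positivity
  have hR4 : 0 < R ^ 4 := by positivity
  obtain ⟨τ₀, hτ₀⟩ : ∃ τ₀ : ℤ, τ₀ = ⌊z.2 / h ^ 2⌋ := ⟨_, rfl⟩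
  rw [← hτ₀]
  rw [(hOk.out b).fld w] at hth'
  have ht : |w.2 / h ^ 2 - τ₀| ≤ 2 := by
    have h3 := fld_big_time hR4 z w hw
    have h4 : |w.2 / h ^ 2 - z.2 / h ^ 2| ≤ 1 := by
      rw [← sub_div, abs_div, abs_of_pos hh2, div_le_one hh2]
      linarith
    have h5 := Int.floor_le (z.2 / h ^ 2)
    have h6 := Int.lt_floor_add_one (z.2 / h ^ 2)
    rw [← hτ₀] at h5 h6
    rw [abs_le] at h4 ⊢
    constructor <;> linarith [h4.1, h4.2]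
  have hvan : ∀ p ∈ Dt.Pk b, ¬ |((p.2.2 : ℤ) : ℝ) - (τ₀ : ℝ)| ≤ Real.sqrt n + 2 →
      Dt.cf b p * (flArr h (Dt.pf b)).atom p w = 0 := by
    intro p hp hnot
    by_contra hne
    apply hnot
    have h1 : (flArr h (Dt.pf b)).pf p (chart (flArr h (Dt.pf b)).L ((flArr h (Dt.pf b)).om p)
        ((flArr h (Dt.pf b)).y p) ((flArr h (Dt.pf b)).tc p) w) ≠ 0 := by
      intro h0
      apply hne
      unfold Arr.atom
      rw [h0]
      ring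
    have h2 := ((hOk.out b).cls.prof p hp).supp _ h1
    have h3 : ‖w.2 / h ^ 2 - (p.2.2 : ℝ)‖ ≤ Real.sqrt n := (norm_snd_le _).trans h2
    rw [Real.norm_eq_abs, abs_le] at h3
    rw [abs_le] at ht ⊢
    constructor <;> linarith [h3.1, h3.2, ht.1, ht.2]
  have e1 : (flArr h (Dt.pf b)).fld (Dt.Pk b) (Dt.cf b) w
      = ∑ ℓ ∈ Finset.range Nc, (flArr h (Dt.pf b)).fld (Dt.fam (Real.sqrt n + 2) τ₀ b ℓ) (Dt.cf b) w := by
    unfold Arr.fld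
    have s1 : ∑ p ∈ Dt.Pk b, Dt.cf b p * (flArr h (Dt.pf b)).atom p w
        = ∑ p ∈ (Dt.Pk b).filter (fun p => |((p.2.2 : ℤ) : ℝ) - (τ₀ : ℝ)| ≤ Real.sqrt n + 2),
            Dt.cf b p * (flArr h (Dt.pf b)).atom p w := by
      rw [Finset.sum_filter]
      refine Finset.sum_congr rfl fun p hp => ?_
      split_ifs with hc
      · rfl
      · exact hvan p hp hc
    have s2 := Finset.sum_fiberwise_of_maps_to
      (s := (Dt.Pk b).filter (fun p => |((p.2.2 : ℤ) : ℝ) - (τ₀ : ℝ)| ≤ Real.sqrt n + 2))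
      (t := Finset.range Nc) (g := Dt.col b)
      (fun p hp => Finset.mem_range.2 (hOk.col_lt b p (Finset.mem_filter.1 hp).1))
      (fun p => Dt.cf b p * (flArr h (Dt.pf b)).atom p w)
    rw [s1, ← s2]
    refine Finset.sum_congr rfl fun ℓ _ => Finset.sum_congr ?_ fun _ _ => rfl
    ext p
    simp only [FlDat.fam, Finset.mem_filter, and_assoc]
  have hNc0 : (0 : ℝ) < Nc := by exact_mod_cast hNc
  have h7 : ∑ _ℓ ∈ Finset.range Nc, th / Nc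
      ≤ ∑ ℓ ∈ Finset.range Nc, ‖(flArr h (Dt.pf b)).fld (Dt.fam (Real.sqrt n + 2) τ₀ b ℓ) (Dt.cf b) w‖ := by
    rw [Finset.sum_const, Finset.card_range, nsmul_eq_mul, mul_div_cancel₀ _ hNc0.ne']
    rw [e1] at hth'
    exact hth'.trans (norm_sum_le _ _)
  obtain ⟨ℓ, hℓ, hle⟩ := Finset.exists_le_of_sum_le (Finset.nonempty_range_iff.2 (by omega)) h7
  exact ⟨ℓ, Finset.mem_range.1 hℓ, w, hw, hle⟩

/-- **L-FLD-S3** (~100 l.)  THE RANGE OF THE TIME INDEX.   A witness `w` of a significant bin has a non zero atom of `A`, so `|w.2| ≤ K.R L²` (`Prof.supp`, `tc = 0`; cf. `ww_atom_supp`), `|z.2 - w.2| ≤ R⁴ ≤ h²`. -/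
theorem fld_time (K : Cls) (A : Arr n ι) (s' : Finset ι) (c : ι → ℂ) (R h th : ℝ) (hIn : A.In s' K) (htc : ∀ α ∈ s', A.tc α = 0) (hth : 0 < th)
    (hR : 1 ≤ R) (hh : 1 ≤ h) (hRh : R ^ 4 ≤ h ^ 2) (Nτ : ℕ) (hNτ : K.R * (A.L / h) ^ 2 + 2 ≤ Nτ)
    (z : ST n) (b : BI n) (hb : b ∈ flSig A s' c R th (bigc (R ^ 4) z)) :
    ⌊z.2 / h ^ 2⌋ ∈ Finset.Icc (-(Nτ : ℤ)) (Nτ : ℤ) := by
  classical
  obtain ⟨-, w, hw, hth'⟩ := Finset.mem_filter.1 hb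
  have hL : 0 < A.L := lt_of_lt_of_le one_pos hIn.one_le
  have hh0 : 0 < h := by linarith
  have hsub : selS A s' R {b} ⊆ s' := Finset.filter_subset _ _
  obtain ⟨α, hs, hne⟩ : ∃ α ∈ selS A s' R {b}, A.atom α w ≠ 0 := by
    by_contra hcon
    push Not at hcon
    have h0 : A.fld (selS A s' R {b}) c w = 0 := by
      unfold Arr.fld
      exact Finset.sum_eq_zero fun α hα => by rw [hcon α hα, mul_zero]
    rw [h0, norm_zero] at hth'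
    linarith
  have h1 : A.pf α (chart A.L (A.om α) (A.y α) (A.tc α) w) ≠ 0 := right_ne_zero_of_mul hne
  have h2' := (hIn.prof α (hsub hs)).supp _ h1
  have h2 : ‖w.2 / A.L ^ 2 - A.tc α‖ ≤ K.R := (norm_snd_le _).trans h2'
  rw [Real.norm_eq_abs, htc α (hsub hs), sub_zero, abs_div, abs_of_pos (by positivity : 0 < A.L ^ 2), div_le_iff₀ (by positivity)] at h2
  have hR4 : 0 < R ^ 4 := by positivity
  have h3 := fld_big_time hR4 z w hw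
  have h4 : |z.2| ≤ K.R * A.L ^ 2 + h ^ 2 := by
    have h5 := abs_sub_abs_le_abs_sub z.2 w.2
    rw [abs_sub_comm] at h5
    linarith
  have hh2 : 0 < h ^ 2 := by positivity
  have h5 : |z.2 / h ^ 2| ≤ K.R * (A.L / h) ^ 2 + 1 := by
    rw [abs_div, abs_of_pos hh2, div_le_iff₀ hh2]
    have e : (K.R * (A.L / h) ^ 2 + 1) * h ^ 2 = K.R * A.L ^ 2 + h ^ 2 := by
      field_simp
    rw [e]
    exact h4
  rw [abs_le] at h5
  rw [Finset.mem_Icc]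
  constructor
  · rw [Int.le_floor]
    push_cast
    linarith [h5.1]
  · have h6 := Int.floor_le (z.2 / h ^ 2)
    have h7 : ((⌊z.2 / h ^ 2⌋ : ℤ) : ℝ) ≤ ((Nτ : ℤ) : ℝ) := by
      push_cast
      linarith [h5.2]
    exact_mod_cast h7

/-- **L-FLD-S4** (~200 l.)  **EVERY TESTED POINT HAS A VALID TYPE** (assembly of S1, S2, S3).   `Sg = flSig …`, colour of `b ∈ Sg` and its witness from `fld_colour` (choice).   `Sg ≠ ∅` because `AngCover` of `∅` holds.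
For `b ∈ Sg` there is `α ∈ s'` with `fbin R (om α) = b`: `‖om α - bcen R b‖ ≤ √n/(2R)` (`wh_dist_binc`; `fbin = wbin`, `bcen = wbinc` by `rfl`), so `|⟪e, bcen R b⟫ - β₀| ≤ C₁/h + √n/(2R) ≤ Cw/R` and `‖bcen R b‖ ≤ Rω + √n`. -/
theorem fld_valid (hn : 2 ≤ n) (K : Cls) (Dt : FlDat n) (A : Arr n ι) (s' : Finset ι) (c : ι → ℂ) (μ : Measure (ST n)) (m D R h : ℝ) (N : ℕ) (bb : ℝ) (P : ℕ) (cs τ C : ℝ) (Nc : ℕ)
    (hOk : Dt.Ok A s' c μ m D R h (flCls n N bb K.Rω) P cs τ C Nc) (hNc : 1 ≤ Nc) (hIn : A.In s' K) (htc : ∀ α ∈ s', A.tc α = 0)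
    (e : E n) (β₀ C₁ Cw Cq cq th : ℝ) (he : ‖e‖ = 1) (hflat : ∀ α ∈ s', |⟪e, A.om α⟫_ℝ - β₀| ≤ C₁ / h) (hth : 0 < th)
    (hR : 1 ≤ R) (hh : 1 ≤ h) (hRh : R ^ 4 ≤ h ^ 2) (hCw : 0 < Cw) (hCwR : Cw ≤ R) (hC₁ : C₁ / h + Real.sqrt n / (2 * R) ≤ Cw / R)
    (Nτ : ℕ) (hNτ : K.R * (A.L / h) ^ 2 + 2 ≤ Nτ) (i₀ : Fin n) (hi₀ : (i₀ : ℕ) = 0)
    (z : ST n) (hz : ¬ AngCover Cw Cq cq R Nc (flSig A s' c R th (bigc (R ^ 4) z))) :
    ∃ t ∈ flTys Nτ (flBins A s' R) Nc, t.1 = ⌊z.2 / h ^ 2⌋ ∧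
      FlVal Dt h R (th / Nc) (Real.sqrt n + 2) (Cw / R / 2 ^ (n + 3)) (2 ^ (n + 3) * (1 + (K.Rω + Real.sqrt n)) / (Cw / R)) e Nc i₀ (bigc (R ^ 4) z) t := by
  classical
  obtain ⟨Sg, hSg⟩ : ∃ Sg, Sg = flSig A s' c R th (bigc (R ^ 4) z) := ⟨_, rfl⟩
  rw [← hSg] at hz
  have hR0 : 0 < R := by linarith
  have hc : ∀ b : BI n, ∃ ℓ : ℕ, b ∈ Sg → (ℓ < Nc ∧ ∃ w ∈ cubeS (R ^ 4) (bigc (R ^ 4) z),
      th / Nc ≤ ‖(flArr h (Dt.pf b)).fld (Dt.fam (Real.sqrt n + 2) ⌊z.2 / h ^ 2⌋ b ℓ) (Dt.cf b) w‖) := fun b => by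
    by_cases hb : b ∈ Sg
    · obtain ⟨ℓ, h1, h2⟩ := fld_colour Dt A s' c μ m D R h N bb K.Rω P cs τ C Nc hOk hNc hR hh hRh th z b (hSg ▸ hb)
      exact ⟨ℓ, fun _ => ⟨h1, h2⟩⟩
    · exact ⟨0, fun h => absurd h hb⟩
  choose col hcol using hc
  have hlab : ∀ b ∈ Sg, ∃ α ∈ s', fbin R (A.om α) = b := fun b hb => by
    rw [hSg] at hb
    obtain ⟨h1, -⟩ := Finset.mem_filter.1 hb
    obtain ⟨α, hα, h⟩ := Finset.mem_image.1 h1
    exact ⟨α, hα, h⟩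
  have hnear : ∀ b ∈ Sg, ∃ α ∈ s', ‖A.om α - bcen R b‖ ≤ Real.sqrt n / (2 * R) := fun b hb => by
    obtain ⟨α, hα, h⟩ := hlab b hb
    refine ⟨α, hα, ?_⟩
    have h1 := wh_dist_binc hR0 (A.om α)
    rw [← h]
    exact h1
  have hT : ∀ b ∈ Sg, |⟪e, bcen R b⟫_ℝ - β₀| ≤ Cw / R := fun b hb => by
    obtain ⟨α, hα, h⟩ := hnear b hb
    have h1 := hflat α hα
    have h2 : |⟪e, bcen R b⟫_ℝ - ⟪e, A.om α⟫_ℝ| ≤ Real.sqrt n / (2 * R) := by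
      rw [← inner_sub_right]
      refine (abs_real_inner_le_norm _ _).trans ?_
      rw [he, one_mul, norm_sub_rev]
      exact h
    have h3 : ⟪e, bcen R b⟫_ℝ - β₀ = (⟪e, bcen R b⟫_ℝ - ⟪e, A.om α⟫_ℝ) + (⟪e, A.om α⟫_ℝ - β₀) := by ring
    rw [h3]
    exact (abs_add_le _ _).trans (by linarith)
  have hρ : ∀ b ∈ Sg, ‖bcen R b‖ ≤ K.Rω + Real.sqrt n := fun b hb => by
    obtain ⟨α, hα, h⟩ := hnear b hb
    have h1 := hIn.freq α hα
    have h2 : ‖bcen R b‖ ≤ ‖A.om α‖ + ‖A.om α - bcen R b‖ := by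
      have e1 : bcen R b = A.om α - (A.om α - bcen R b) := by abel
      calc ‖bcen R b‖ = ‖A.om α - (A.om α - bcen R b)‖ := by rw [← e1]
        _ ≤ _ := norm_sub_le _ _
    have h3 : Real.sqrt n / (2 * R) ≤ Real.sqrt n := div_le_self (Real.sqrt_nonneg _) (by linarith)
    linarith
  obtain ⟨b, hbS, hkind, htr⟩ := fld_select hn e β₀ Cw Cq cq R (K.Rω + Real.sqrt n) Nc hNc Sg col i₀ hi₀ he
    (by positivity) ((div_le_one hR0).2 hCwR) hT hρ (fun b hb => (hcol b hb).1) hz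
  refine ⟨(⌊z.2 / h ^ 2⌋, b, fun i => col (b i)), ?_, rfl, ⟨fun i => (hcol (b i) (hbS i)).2, htr, hkind⟩⟩
  unfold flTys
  rw [Finset.mem_product, Finset.mem_product, Fintype.mem_piFinset, Fintype.mem_piFinset]
  refine ⟨fld_time K A s' c R h th hIn htc hth hR hh hRh Nτ hNτ z (b i₀) (hSg ▸ hbS i₀), fun i => ?_,
    fun i => Finset.mem_range.2 (hcol (b i) (hbS i)).1⟩
  obtain ⟨α, hα, h⟩ := hlab (b i) (hbS i)
  unfold flBins
  exact Finset.mem_image.2 ⟨α, hα, h⟩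

/-- **L-FLD-S5** (~120 l.)  MEASURABLE PARTITION BY TYPES.   `π z = (bigc a₁ z, ⌊z.2/a₂⌋)` is measurable into a countable discrete space (`wh_meas_wmac`; `bigc = wmac` by `rfl`; `Measurable.floor`).   Choose `f : MI n × ℤ → T` with `f κ ∈ 𝔗 ∧ V κ.1 κ.2 (f κ)` whenever possible;
`Zt t = Z ∩ π⁻¹ {κ | f κ = t ∧ V κ.1 κ.2 t}`;   `Z ⊆ ⋃_{t ∈ 𝔗} Zt t` (`measure_biUnion_finset_le`). -/
theorem fld_partition {T : Type} (μ : Measure (ST n)) (Z : Set (ST n)) (hZ : MeasurableSet Z) (a₁ a₂ : ℝ) (Ty : Finset T) (V : MI n → ℤ → T → Prop)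
    (h : ∀ z ∈ Z, ∃ t ∈ Ty, V (bigc a₁ z) ⌊z.2 / a₂⌋ t) :
    ∃ Zt : T → Set (ST n), (∀ t, MeasurableSet (Zt t)) ∧ (∀ t, Zt t ⊆ Z) ∧ (∀ t, ∀ z ∈ Zt t, V (bigc a₁ z) ⌊z.2 / a₂⌋ t) ∧ μ Z ≤ ∑ t ∈ Ty, μ (Zt t) := by
  classical
  have hπ : Measurable (fun z : ST n => ((bigc a₁ z, ⌊z.2 / a₂⌋) : MI n × ℤ)) :=
    (wh_meas_wmac a₁).prodMk ((measurable_snd.div_const a₂).floor)
  refine ⟨fun t => Z ∩ (fun z : ST n => ((bigc a₁ z, ⌊z.2 / a₂⌋) : MI n × ℤ)) ⁻¹'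
    {κ | ∃ hκ : (∃ t ∈ Ty, V κ.1 κ.2 t), hκ.choose = t}, fun t => ?_, fun t => Set.inter_subset_left, fun t z hz => ?_, ?_⟩
  · exact hZ.inter (hπ (Set.to_countable _).measurableSet)
  · obtain ⟨hκ, rfl⟩ := hz.2
    exact hκ.choose_spec.2
  · refine (measure_mono fun z hz => ?_).trans (measure_biUnion_finset_le Ty _)
    have hκ := h z hz
    exact Set.mem_iUnion₂.2 ⟨hκ.choose, hκ.choose_spec.1, hz, hκ, rfl⟩

end Claimed.Agent.R257
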