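import Claimed.Agent.R257.Fl.D2

/-!
# R257 / Fl / D3 : ONE CLUSTER: THE BOUND OF A TYPE, THE SUMS OVER THE TYPES (H flattening.tex l.214-246, l.326-372)            (captain helper263)

`n = k + 1`, `β = bet n`, `q = 2n/(n+1)`, `T₁ = √n + 2`, `a = th/Nc`, `b₁ = L/h`.
* `Dt.en T₁ t i`  energy `𝓔_i` of the `i`-th family of the type `t`;   `Dt.phi T₁ t = (∏ 𝓔_i 2^{-ℓ_i})^{β/n} (∑ 𝓔_i)^{1-β}`.
* `fld_type`      `a² μ(Z_t) ≤ a² m h^{2n-c4} + Kt m χ^{1-β} h^q phi t`    (types of mass `≤ m h^{2n-c4}` are discarded; otherwise `fld_tuple`, the frame cutoff holds by the crude budget).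
* `fld_phi_le`, `fld_phi_common`, `fld_sum_common`, `fld_weighted_real`, `fld_energy_bins`, `fld_en_le`, `fld_card_tys`      the sums.
* `fld_cluster`   THE RESULT FOR ONE CLUSTER:   (A) if `b₁^τ ≤ D ≤ b₁`: weighted budget for the common colours, crude budget and the factor `2^{-(Nc-1)β/n}` for the tiny types;   (B) always: crude budget.
-/

set_option autoImplicit false

namespace Claimed.Agent.R257

open MeasureTheory Metric Set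
open scoped ENNReal InnerProductSpace

variable {n : ℕ} {ι : Type}

/-- energy of the `i`-th family of a type -/
noncomputable def FlDat.en (Dt : FlDat n) (T₁ : ℝ) (t : FlTy n) (i : Fin n) : ℝ :=
  energy (Dt.fam T₁ t.1 (t.2.1 i) (t.2.2 i)) (Dt.cf (t.2.1 i))

/-- the energy expression of (w:eq-tuple) -/
noncomputable def FlDat.phi (Dt : FlDat n) (T₁ : ℝ) (t : FlTy n) : ℝ :=
  (∏ i, Dt.en T₁ t i * (1 / 2) ^ (t.2.2 i)) ^ (bet n / (n : ℝ)) * (∑ i, Dt.en T₁ t i) ^ (1 - bet n)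

/-- the crude bound of the energy of a family -/
noncomputable def fldE1 (n : ℕ) (C b₁ : ℝ) : ℝ := (2 * (Real.sqrt n + 2) + 1) * C * b₁ ^ n

/-- the numerical hypotheses for one cluster -/
structure FldLoc (n : ℕ) (KR Rω C₁ Cw Cf Cfl c₃ c4 : ℝ) (P : ℕ) (L R h a : ℝ) (Nc Nτ : ℕ) : Prop where
  R1 : 1 ≤ R
  h1 : 1 ≤ h
  Cw0 : 0 < Cw
  CwR : Cw ≤ R
  Rh : R ^ 4 ≤ h ^ 2
  flat : C₁ / h + Real.sqrt n / (2 * R) ≤ Cw / R
  rob : Real.sqrt n / (2 * R) + Real.sqrt n / (2 * h) ≤ Cw / R / 2 ^ (n + 3)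
  Cf0 : 0 ≤ Cf
  fr1 : Cf * (Real.sqrt n * R ^ 4) ≤ h
  fr2 : (1 + 2 * (Rω + Real.sqrt n)) * (Real.sqrt n * R ^ 4) ≤ h
  Cfl1 : 1 ≤ Cfl
  fl : Cfl * h ≤ L
  Nc1 : 1 ≤ Nc
  Nτ : KR * (L / h) ^ 2 + 2 ≤ Nτ
  a0 : 0 < a
  cut : h ^ c₃ * Real.sqrt (2 ^ (P + 1) * (n : ℝ) * Cfl * h * fldE1 n Cfl (L / h) / h ^ (2 * (n : ℝ) - c4)) ≤ a

/-- **L-FLD-U1** (~120 l.)  CRUDE BUDGET OF A FAMILY.   `fam ⊆ ⋃_{j ∈ ℤ, |j - τ| ≤ T₁} {p ∈ Pk b | p.2.2 = j}`, at most `2T₁ + 1` integers `j` (`Finset.Icc ⌈τ - T₁⌉ ⌊τ + T₁⌋`, `Int.card_Icc`), `FlatOut.crude` for each, `energy (selS ..) ≤ energy s' ≤ 1`. -/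
theorem fld_en_le (Dt : FlDat n) (A : Arr n ι) (s' : Finset ι) (c : ι → ℂ) (μ : Measure (ST n)) (m D R h : ℝ) (Kf : Cls) (P : ℕ) (cs τ C : ℝ) (Nc : ℕ)
    (hOk : Dt.Ok A s' c μ m D R h Kf P cs τ C Nc) (hC : 0 ≤ C) (hL : 0 < A.L) (hh : 0 < h) (hE : energy s' c ≤ 1) (t : FlTy n) (i : Fin n) :
    Dt.en (Real.sqrt n + 2) t i ≤ fldE1 n C (A.L / h) := by
  classical
  set T₁ : ℝ := Real.sqrt n + 2 with hT₁
  have hT0 : 0 ≤ T₁ := by positivity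
  set b := t.2.1 i with hb
  set J : Finset ℤ := Finset.Icc (t.1 - ⌊T₁⌋) (t.1 + ⌊T₁⌋) with hJ
  have hb1 : 0 ≤ (A.L / h) ^ n := by positivity
  -- energy of the sub-array
  have hsel : energy (selS A s' R {b}) c ≤ 1 := by
    refine le_trans ?_ hE
    unfold energy selS
    exact Finset.sum_le_sum_of_subset_of_nonneg (Finset.filter_subset _ _) (fun _ _ _ => by positivity)
  have hsel0 : 0 ≤ energy (selS A s' R {b}) c := by
    unfold energy; exact Finset.sum_nonneg fun _ _ => by positivity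
  have hcr : ∀ j : ℤ, ∑ p ∈ (Dt.Pk b).filter (fun p => p.2.2 = j), ‖Dt.cf b p‖ ^ 2 ≤ C * (A.L / h) ^ n := by
    intro j
    have := (hOk.out b).crude j
    calc ∑ p ∈ (Dt.Pk b).filter (fun p => p.2.2 = j), ‖Dt.cf b p‖ ^ 2
        ≤ C * (A.L / h) ^ n * energy (selS A s' R {b}) c := by convert this
      _ ≤ C * (A.L / h) ^ n * 1 := mul_le_mul_of_nonneg_left hsel (mul_nonneg hC hb1)
      _ = _ := mul_one _
  -- the family is covered by the time slices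
  have hsub : Dt.fam T₁ t.1 b (t.2.2 i) ⊆ J.biUnion fun j => (Dt.Pk b).filter (fun p => p.2.2 = j) := by
    intro p hp
    unfold FlDat.fam at hp
    rw [Finset.mem_filter] at hp
    obtain ⟨hpP, hpt, -⟩ := hp
    rw [Finset.mem_biUnion]
    refine ⟨p.2.2, ?_, Finset.mem_filter.2 ⟨hpP, rfl⟩⟩
    rw [hJ, Finset.mem_Icc]
    rw [abs_le] at hpt
    constructor
    · have h1 : ((t.1 - p.2.2 : ℤ) : ℝ) ≤ T₁ := by push_cast; linarith [hpt.1]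
      have := Int.le_floor.2 h1
      linarith
    · have h1 : ((p.2.2 - t.1 : ℤ) : ℝ) ≤ T₁ := by push_cast; linarith [hpt.2]
      have := Int.le_floor.2 h1
      linarith
  have hcard : (J.card : ℝ) ≤ 2 * T₁ + 1 := by
    have hf0 : 0 ≤ ⌊T₁⌋ := Int.floor_nonneg.2 hT0
    have h1 : (J.card : ℤ) = 2 * ⌊T₁⌋ + 1 := by
      rw [hJ, Int.card_Icc, Int.toNat_of_nonneg (by linarith)]
      ring
    have h2 : (J.card : ℝ) = 2 * (⌊T₁⌋ : ℝ) + 1 := by exact_mod_cast h1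
    rw [h2]
    linarith [Int.floor_le T₁]
  unfold FlDat.en fldE1 energy
  rw [← hT₁, ← hb]
  calc ∑ p ∈ Dt.fam T₁ t.1 b (t.2.2 i), ‖Dt.cf b p‖ ^ 2
      ≤ ∑ p ∈ J.biUnion fun j => (Dt.Pk b).filter (fun p => p.2.2 = j), ‖Dt.cf b p‖ ^ 2 :=
        Finset.sum_le_sum_of_subset_of_nonneg hsub (fun _ _ _ => by positivity)
    _ = ∑ j ∈ J, ∑ p ∈ (Dt.Pk b).filter (fun p => p.2.2 = j), ‖Dt.cf b p‖ ^ 2 := by
        apply Finset.sum_biUnion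
        intro j _ j' _ hjj
        apply Finset.disjoint_left.2
        intro p hp hp'
        exact hjj ((Finset.mem_filter.1 hp).2.symm.trans (Finset.mem_filter.1 hp').2)
    _ ≤ ∑ _j ∈ J, C * (A.L / h) ^ n := Finset.sum_le_sum fun j _ => hcr j
    _ = (J.card : ℝ) * (C * (A.L / h) ^ n) := by rw [Finset.sum_const, nsmul_eq_mul]
    _ ≤ (2 * T₁ + 1) * (C * (A.L / h) ^ n) := mul_le_mul_of_nonneg_right hcard (mul_nonneg hC hb1)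
    _ = (2 * T₁ + 1) * C * (A.L / h) ^ n := by ring

theorem fld_cubeS_dist {a : ℝ} (ha : 0 ≤ a) (hn : 1 ≤ n) (Q : MI n) {z w : ST n} (hz : z ∈ cubeS a Q) (hw : w ∈ cubeS a Q) :
    ‖w - z‖ ≤ Real.sqrt n * a := by
  have hs : 1 ≤ Real.sqrt n := by
    rw [Real.one_le_sqrt]
    exact_mod_cast hn
  rw [Prod.norm_def, max_le_iff]
  constructor
  · refine wh_norm_le_sqrt _ ha fun i => ?_
    have h1 := hz.1 i
    have h2 := hw.1 i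
    have e : (w - z).1 i = w.1 i - z.1 i := rfl
    rw [e, abs_le]
    constructor <;> nlinarith [h1.1, h1.2, h2.1, h2.2]
  · have h1 := hz.2
    have h2 := hw.2
    have e : (w - z).2 = w.2 - z.2 := rfl
    rw [e, Real.norm_eq_abs]
    have h3 : |w.2 - z.2| ≤ a := by
      rw [abs_le]
      constructor <;> nlinarith [h1.1, h1.2, h2.1, h2.2]
    nlinarith

theorem fld_bcen_near {H : ℝ} (hH : 0 < H) (w : E n) : ‖w - bcen H (fbin H w)‖ ≤ Real.sqrt n / (2 * H) :=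
  wh_dist_binc hH w

theorem fld_en_nonneg (Dt : FlDat n) (T₁ : ℝ) (t : FlTy n) (i : Fin n) : 0 ≤ Dt.en T₁ t i :=
  Finset.sum_nonneg fun _ _ => by positivity

theorem fld_phi_nonneg (Dt : FlDat n) (T₁ : ℝ) (t : FlTy n) : 0 ≤ Dt.phi T₁ t := by
  unfold FlDat.phi
  refine mul_nonneg (Real.rpow_nonneg (Finset.prod_nonneg fun i _ => ?_) _) (Real.rpow_nonneg (Finset.sum_nonneg fun i _ => fld_en_nonneg Dt T₁ t i) _)
  have := fld_en_nonneg Dt T₁ t i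
  positivity

theorem fld_Kt_nonneg (n P : ℕ) {Cf Cd ρQ : ℝ} (hCf : 0 ≤ Cf) (hCd : 0 ≤ Cd) (hρQ : 0 ≤ ρQ) : 0 ≤ fldKt n P Cf Cd ρQ := by
  unfold fldKt
  have := Real.rpow_nonneg hρQ Cf
  exact mul_nonneg (Real.rpow_nonneg (by positivity) _) (Real.rpow_nonneg (by positivity) _)

/-- **L-FLD-U2** (~300 l.)  **THE BOUND OF ONE TYPE.**   `M₀ = (μ Zt).toReal`.   If `M₀ ≤ m h^{2n-c4}`: trivial.   Otherwise `fld_tuple` with `F i = flArr h (Dt.pf (t.2.1 i))`, `S i = Dt.fam T₁ t.1 (t.2.1 i) (t.2.2 i)`, `cf i = Dt.cf (t.2.1 i)`, `τ₀ = t.1`,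
`ρ = √n R⁴`, `Q = Qt`, `Cd = C`, `d i = (1/2)^{t.2.2 i}`, `C₂ = C₁ + √n`:
 class: `FlatOut.cls` + `ww_In_mono`;   time centres: definition of `fam`;   flatness: `FlatOut.occ` gives `α ∈ selS A s' R {b_i}` with `fbin h (om α) = p.1`, `‖om α - bcen h p.1‖ ≤ √n/(2h)` (`wh_dist_binc`);
 transversality: `FlVal.tr` with `ξ' i = bcen h (lb i).1`, `‖bcen h p.1 - bcen R b_i‖ ≤ √n/(2h) + √n/(2R) ≤ wq`;   moments: `col_le`;   witnesses: `FlVal.wit`, two points of a cube of side `R⁴` have distance `≤ √n R⁴`;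
 cutoff: `𝓔_i d_i ≤ E₁` (`hE`), `M₀ > m h^{2n-c4}`, `FldLoc.cut`. -/
theorem fld_type (k : ℕ) (hk : 1 ≤ k) (Dt : FlDat (k + 1)) (A : Arr (k + 1) ι) (s' : Finset ι) (c : ι → ℂ) (μ : Measure (ST (k + 1))) (m χ D R h : ℝ)
    (N : ℕ) (bb KR Rω : ℝ) (P : ℕ) (cs τ C : ℝ) (Nc Nτ : ℕ) (c₃ c4 C₁ Cw Cf a Qt : ℝ)
    (hF : FlatFrameWith k c₃ (flCls (k + 1) N bb Rω) (Real.sqrt (k + 1 : ℕ) + 2) (C₁ + Real.sqrt (k + 1 : ℕ)) P Cf)
    (hOk : Dt.Ok A s' c μ m D R h (flCls (k + 1) N bb Rω) P cs τ C Nc)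
    (hnum : FldLoc (k + 1) KR Rω C₁ Cw Cf C c₃ c4 P A.L R h a Nc Nτ) (hQt : 1 ≤ Qt)
    (e : E (k + 1)) (β₀ : ℝ) (he : ‖e‖ = 1) (hβ : |β₀| ≤ C₁) (hflat : ∀ α ∈ s', |⟪e, A.om α⟫_ℝ - β₀| ≤ C₁ / h)
    (hm : 0 < m) (hχ : 0 < χ) (hdens : Dens μ m χ) (i₀ : Fin (k + 1))
    (t : FlTy (k + 1)) (hE : ∀ i, Dt.en (Real.sqrt (k + 1 : ℕ) + 2) t i ≤ fldE1 (k + 1) C (A.L / h))
    (Zt : Set (ST (k + 1))) (hZt : MeasurableSet Zt) (hfin : μ Zt ≠ ⊤)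
    (hval : ∀ z ∈ Zt, FlVal Dt h R a (Real.sqrt (k + 1 : ℕ) + 2) (Cw / R / 2 ^ (k + 1 + 3)) Qt e Nc i₀ (bigc (R ^ 4) z) t) :
    a ^ 2 * (μ Zt).toReal ≤ a ^ 2 * (m * h ^ (2 * ((k + 1 : ℕ) : ℝ) - c4))
      + fldKt (k + 1) P Cf C (Real.sqrt (k + 1 : ℕ) * R ^ 4 * Qt) * m * χ ^ (1 - bet (k + 1)) * h ^ (2 * ((k + 1 : ℕ) : ℝ) / (((k + 1 : ℕ) : ℝ) + 1))
        * Dt.phi (Real.sqrt (k + 1 : ℕ) + 2) t := by
  classical
  have hs1 : 1 ≤ Real.sqrt (k + 1 : ℕ) := by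
    rw [Real.one_le_sqrt]
    push_cast
    have : (0 : ℝ) ≤ k := Nat.cast_nonneg k
    linarith
  have hR0 : 0 < R := lt_of_lt_of_le one_pos hnum.R1
  have hh0 : 0 < h := lt_of_lt_of_le one_pos hnum.h1
  have hC0 : 0 < C := lt_of_lt_of_le one_pos hnum.Cfl1
  have hR4 : 1 ≤ R ^ 4 := one_le_pow₀ hnum.R1
  have hρ1 : 1 ≤ Real.sqrt (k + 1 : ℕ) * R ^ 4 := by nlinarith
  have hKt := fld_Kt_nonneg (k + 1) P hnum.Cf0 hC0.le (by positivity : 0 ≤ Real.sqrt (k + 1 : ℕ) * R ^ 4 * Qt)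
  have hphi := fld_phi_nonneg Dt (Real.sqrt (k + 1 : ℕ) + 2) t
  have hsecond : 0 ≤ fldKt (k + 1) P Cf C (Real.sqrt (k + 1 : ℕ) * R ^ 4 * Qt) * m * χ ^ (1 - bet (k + 1)) * h ^ (2 * ((k + 1 : ℕ) : ℝ) / (((k + 1 : ℕ) : ℝ) + 1))
        * Dt.phi (Real.sqrt (k + 1 : ℕ) + 2) t := by
    have h1 := Real.rpow_pos_of_pos hχ (1 - bet (k + 1))
    have h2 := Real.rpow_pos_of_pos hh0 (2 * ((k + 1 : ℕ) : ℝ) / (((k + 1 : ℕ) : ℝ) + 1))
    positivity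
  set M₀ : ℝ := (μ Zt).toReal with hM₀d
  have hpw := Real.rpow_pos_of_pos hh0 (2 * ((k + 1 : ℕ) : ℝ) - c4)
  by_cases hsmall : M₀ ≤ m * h ^ (2 * ((k + 1 : ℕ) : ℝ) - c4)
  · have := mul_le_mul_of_nonneg_left hsmall (sq_nonneg a)
    linarith
  rw [not_le] at hsmall
  have hM₀ : 0 < M₀ := lt_trans (by positivity) hsmall
  have hμZ : μ Zt = ENNReal.ofReal M₀ := (ENNReal.ofReal_toReal hfin).symm
  have hZne : Zt.Nonempty := by
    by_contra hc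
    rw [Set.not_nonempty_iff_eq_empty] at hc
    rw [hM₀d, hc, measure_empty] at hM₀
    simp at hM₀
  obtain ⟨z₀, hz₀⟩ := hZne
  -- a label of the original array behind a packet
  have hocc : ∀ i, ∀ p ∈ Dt.fam (Real.sqrt (k + 1 : ℕ) + 2) t.1 (t.2.1 i) (t.2.2 i), ∃ α ∈ s', fbin R (A.om α) = t.2.1 i ∧ fbin h (A.om α) = p.1 := by
    intro i p hp
    have hp' : p ∈ Dt.Pk (t.2.1 i) := (Finset.mem_filter.1 hp).1
    obtain ⟨α, hα, hαp⟩ := (hOk.out (t.2.1 i)).occ p hp'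
    unfold selS at hα
    rw [Finset.mem_filter, Finset.mem_singleton] at hα
    exact ⟨α, hα.1, hα.2, hαp⟩
  have htuple := fld_tuple k hk c₃ (flCls (k + 1) N bb Rω) (Real.sqrt (k + 1 : ℕ) + 2) (C₁ + Real.sqrt (k + 1 : ℕ)) P Cf hnum.Cf0 hF
    (fun i => flArr h (Dt.pf (t.2.1 i))) (fun i => Dt.fam (Real.sqrt (k + 1 : ℕ) + 2) t.1 (t.2.1 i) (t.2.2 i)) (fun i => Dt.cf (t.2.1 i))
    h Qt (Real.sqrt (k + 1 : ℕ) * R ^ 4) a e β₀ t.1 μ m χ C (fun i => (1 / 2 : ℝ) ^ (t.2.2 i)) Zt M₀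
    (fun i => rfl)
    (fun i => ww_In_mono (hOk.out (t.2.1 i)).cls (Finset.filter_subset _ _))
    (fun i p hp => ⟨p.2.2, rfl, (Finset.mem_filter.1 hp).2.1⟩)
    he (by linarith [Real.sqrt_nonneg ((k + 1 : ℕ) : ℝ)])
    (by
      intro i p hp
      obtain ⟨α, hα, _, hαp⟩ := hocc i p hp
      have h1 := hflat α hα
      have h2 := fld_bcen_near hh0 (A.om α)
      rw [hαp] at h2
      have h3 : |⟪e, A.om α - bcen h p.1⟫_ℝ| ≤ Real.sqrt (k + 1 : ℕ) / (2 * h) := by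
        refine (abs_real_inner_le_norm _ _).trans ?_
        rw [he, one_mul]
        exact h2
      have e1 : ⟪e, (flArr h (Dt.pf (t.2.1 i))).om p⟫_ℝ - β₀ = (⟪e, A.om α⟫_ℝ - β₀) - ⟪e, A.om α - bcen h p.1⟫_ℝ := by
        rw [inner_sub_right]
        show ⟪e, bcen h p.1⟫_ℝ - β₀ = _
        ring
      rw [e1]
      have h4 : Real.sqrt (k + 1 : ℕ) / (2 * h) ≤ Real.sqrt (k + 1 : ℕ) / h := by
        apply div_le_div_of_nonneg_left (Real.sqrt_nonneg _) hh0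
        linarith
      have e2 : (C₁ + Real.sqrt (k + 1 : ℕ)) / h = C₁ / h + Real.sqrt (k + 1 : ℕ) / h := by ring
      rw [e2]
      refine (abs_sub _ _).trans ?_
      linarith)
    hQt
    (by
      intro lb hlb
      refine (hval z₀ hz₀).tr _ fun i => ?_
      obtain ⟨α, hα, hαR, hαp⟩ := hocc i (lb i) (hlb i)
      have h2 := fld_bcen_near hh0 (A.om α)
      rw [hαp] at h2
      have h3 := fld_bcen_near hR0 (A.om α)
      rw [hαR] at h3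
      have e1 : (flArr h (Dt.pf (t.2.1 i))).om (lb i) - bcen R (t.2.1 i) = (A.om α - bcen R (t.2.1 i)) - (A.om α - bcen h (lb i).1) := by
        show bcen h (lb i).1 - bcen R (t.2.1 i) = _
        abel
      rw [e1]
      refine (norm_sub_le _ _).trans ?_
      have := hnum.rob
      linarith)
    hρ1 hnum.fr1 hnum.fr2 hm hχ hdens hZt hM₀ hμZ hnum.a0 hC0 (fun i => by positivity)
    (by
      intro i p hp
      have hp' := Finset.mem_filter.1 hp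
      have h1 := hOk.col_le (t.2.1 i) p hp'.1
      rw [hp'.2.2] at h1
      exact h1)
    (by
      intro i
      refine le_trans ?_ hnum.cut
      refine mul_le_mul_of_nonneg_left (Real.sqrt_le_sqrt ?_) (Real.rpow_nonneg hh0.le _)
      have hen0 : 0 ≤ energy (Dt.fam (Real.sqrt (k + 1 : ℕ) + 2) t.1 (t.2.1 i) (t.2.2 i)) (Dt.cf (t.2.1 i)) := fld_en_nonneg Dt _ t i
      have hen1 : energy (Dt.fam (Real.sqrt (k + 1 : ℕ) + 2) t.1 (t.2.1 i) (t.2.2 i)) (Dt.cf (t.2.1 i)) ≤ fldE1 (k + 1) C (A.L / h) := hE i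
      have hd1 : ((1 / 2 : ℝ)) ^ (t.2.2 i) ≤ 1 := pow_le_one₀ (by norm_num) (by norm_num)
      have hd0 : (0 : ℝ) ≤ (1 / 2 : ℝ) ^ (t.2.2 i) := by positivity
      have hprod : energy (Dt.fam (Real.sqrt (k + 1 : ℕ) + 2) t.1 (t.2.1 i) (t.2.2 i)) (Dt.cf (t.2.1 i)) * (1 / 2 : ℝ) ^ (t.2.2 i)
          ≤ fldE1 (k + 1) C (A.L / h) := by
        calc _ ≤ energy (Dt.fam (Real.sqrt (k + 1 : ℕ) + 2) t.1 (t.2.1 i) (t.2.2 i)) (Dt.cf (t.2.1 i)) * 1 :=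
              mul_le_mul_of_nonneg_left hd1 hen0
          _ ≤ _ := by rw [mul_one]; exact hen1
      have hE1 : 0 ≤ fldE1 (k + 1) C (A.L / h) := hen0.trans hen1
      rw [div_le_div_iff₀ hM₀ hpw]
      calc 2 ^ (P + 1) * ((k + 1 : ℕ) : ℝ) * C * m * h *
            (energy (Dt.fam (Real.sqrt (k + 1 : ℕ) + 2) t.1 (t.2.1 i) (t.2.2 i)) (Dt.cf (t.2.1 i)) * (1 / 2 : ℝ) ^ (t.2.2 i)) * h ^ (2 * ((k + 1 : ℕ) : ℝ) - c4)
          ≤ 2 ^ (P + 1) * ((k + 1 : ℕ) : ℝ) * C * m * h * fldE1 (k + 1) C (A.L / h) * h ^ (2 * ((k + 1 : ℕ) : ℝ) - c4) := by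
            gcongr
        _ = 2 ^ (P + 1) * ((k + 1 : ℕ) : ℝ) * C * h * fldE1 (k + 1) C (A.L / h) * (m * h ^ (2 * ((k + 1 : ℕ) : ℝ) - c4)) := by ring
        _ ≤ 2 ^ (P + 1) * ((k + 1 : ℕ) : ℝ) * C * h * fldE1 (k + 1) C (A.L / h) * M₀ := by
            gcongr)
    (by
      intro z hz i
      obtain ⟨w, hw, hwa⟩ := (hval z hz).wit i
      refine ⟨w, ?_, hwa⟩
      have hzc : z ∈ cubeS (R ^ 4) (bigc (R ^ 4) z) := (wh_mem_cubeS_iff (by positivity) z _).2 rfl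
      exact fld_cubeS_dist (by positivity) (by omega) _ hzc hw)
  have e3 : fldKt (k + 1) P Cf C (Real.sqrt (k + 1 : ℕ) * R ^ 4 * Qt) * m * χ ^ (1 - bet (k + 1)) * h ^ (2 * ((k + 1 : ℕ) : ℝ) / (((k + 1 : ℕ) : ℝ) + 1))
        * Dt.phi (Real.sqrt (k + 1 : ℕ) + 2) t
      = fldKt (k + 1) P Cf C (Real.sqrt (k + 1 : ℕ) * R ^ 4 * Qt) * m * χ ^ (1 - bet (k + 1)) * h ^ (2 * ((k + 1 : ℕ) : ℝ) / (((k + 1 : ℕ) : ℝ) + 1))
        * (∏ i, energy (Dt.fam (Real.sqrt (k + 1 : ℕ) + 2) t.1 (t.2.1 i) (t.2.2 i)) (Dt.cf (t.2.1 i)) * (1 / 2 : ℝ) ^ (t.2.2 i)) ^ (bet (k + 1) / ((k + 1 : ℕ) : ℝ))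
        * (∑ i, energy (Dt.fam (Real.sqrt (k + 1 : ℕ) + 2) t.1 (t.2.1 i) (t.2.2 i)) (Dt.cf (t.2.1 i))) ^ (1 - bet (k + 1)) := by
    unfold FlDat.phi FlDat.en
    ring
  rw [e3]
  have : 0 ≤ a ^ 2 * (m * h ^ (2 * ((k + 1 : ℕ) : ℝ) - c4)) := by positivity
  linarith

/-! ## the sums -/

theorem fld_phi_le_bet (hn : 1 ≤ n) : 0 < bet n ∧ bet n ≤ 1 := by
  have h1 : (1 : ℝ) ≤ n := by exact_mod_cast hn
  unfold bet
  constructor
  · positivity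
  · rw [div_le_one (by positivity)]; linarith

theorem fld_phi_le_en0 (Dt : FlDat n) (T₁ : ℝ) (t : FlTy n) (i : Fin n) : 0 ≤ Dt.en T₁ t i := by
  unfold FlDat.en energy
  exact Finset.sum_nonneg fun _ _ => by positivity

/-- **L-FLD-U3** (~100 l.)  `phi t ≤ n E₁ (2^{-ℓ_{i₀}})^{β/n}`:   `∏ 𝓔_i d_i ≤ E₁^n d_{i₀}`, `(∑ 𝓔_i)^{1-β} ≤ (n E₁)^{1-β} ≤ n E₁^{1-β}`. -/
theorem fld_phi_le (hn : 1 ≤ n) (Dt : FlDat n) (T₁ E₁ : ℝ) (t : FlTy n) (hE : ∀ i, Dt.en T₁ t i ≤ E₁) (i₀ : Fin n) :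
    Dt.phi T₁ t ≤ (n : ℝ) * E₁ * ((1 / 2 : ℝ) ^ (t.2.2 i₀)) ^ (bet n / (n : ℝ)) := by
  obtain ⟨hb0, hb1⟩ := fld_phi_le_bet hn
  have hn1 : (1 : ℝ) ≤ n := by exact_mod_cast hn
  have hn0 : (0 : ℝ) < n := by linarith
  have hx0 : ∀ i, 0 ≤ Dt.en T₁ t i := fld_phi_le_en0 Dt T₁ t
  have hE0 : 0 ≤ E₁ := (hx0 i₀).trans (hE i₀)
  have hd0 : ∀ i, (0 : ℝ) ≤ (1 / 2 : ℝ) ^ (t.2.2 i) := fun i => by positivity
  have hd1 : ∀ i, (1 / 2 : ℝ) ^ (t.2.2 i) ≤ 1 := fun i => pow_le_one₀ (by norm_num) (by norm_num)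
  have hbn : 0 < bet n / (n : ℝ) := by positivity
  -- the product
  have hprod : ∏ i, Dt.en T₁ t i * (1 / 2 : ℝ) ^ (t.2.2 i) ≤ E₁ ^ n * (1 / 2 : ℝ) ^ (t.2.2 i₀) := by
    rw [Finset.prod_mul_distrib]
    have h1 : ∏ i, Dt.en T₁ t i ≤ E₁ ^ n := by
      calc ∏ i, Dt.en T₁ t i ≤ ∏ _i : Fin n, E₁ := Finset.prod_le_prod (fun i _ => hx0 i) (fun i _ => hE i)
        _ = E₁ ^ n := by simp
    have h2 : ∏ i, (1 / 2 : ℝ) ^ (t.2.2 i) ≤ (1 / 2 : ℝ) ^ (t.2.2 i₀) := by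
      rw [← Finset.mul_prod_erase Finset.univ _ (Finset.mem_univ i₀)]
      calc (1 / 2 : ℝ) ^ (t.2.2 i₀) * ∏ i ∈ Finset.univ.erase i₀, (1 / 2 : ℝ) ^ (t.2.2 i)
          ≤ (1 / 2 : ℝ) ^ (t.2.2 i₀) * 1 :=
            mul_le_mul_of_nonneg_left (Finset.prod_le_one (fun i _ => hd0 i) (fun i _ => hd1 i)) (hd0 i₀)
        _ = _ := mul_one _
    exact mul_le_mul h1 h2 (Finset.prod_nonneg fun i _ => hd0 i) (by positivity)
  have hprod0 : 0 ≤ ∏ i, Dt.en T₁ t i * (1 / 2 : ℝ) ^ (t.2.2 i) :=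
    Finset.prod_nonneg fun i _ => mul_nonneg (hx0 i) (hd0 i)
  have hA : (∏ i, Dt.en T₁ t i * (1 / 2 : ℝ) ^ (t.2.2 i)) ^ (bet n / (n : ℝ))
      ≤ E₁ ^ bet n * ((1 / 2 : ℝ) ^ (t.2.2 i₀)) ^ (bet n / (n : ℝ)) := by
    calc (∏ i, Dt.en T₁ t i * (1 / 2 : ℝ) ^ (t.2.2 i)) ^ (bet n / (n : ℝ))
        ≤ (E₁ ^ n * (1 / 2 : ℝ) ^ (t.2.2 i₀)) ^ (bet n / (n : ℝ)) := Real.rpow_le_rpow hprod0 hprod hbn.le
      _ = (E₁ ^ n) ^ (bet n / (n : ℝ)) * ((1 / 2 : ℝ) ^ (t.2.2 i₀)) ^ (bet n / (n : ℝ)) :=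
          Real.mul_rpow (by positivity) (hd0 i₀)
      _ = E₁ ^ bet n * ((1 / 2 : ℝ) ^ (t.2.2 i₀)) ^ (bet n / (n : ℝ)) := by
          congr 1
          rw [← Real.rpow_natCast, ← Real.rpow_mul hE0]
          congr 1
          field_simp
  have hsum0 : 0 ≤ ∑ i, Dt.en T₁ t i := Finset.sum_nonneg fun i _ => hx0 i
  have hsum : ∑ i, Dt.en T₁ t i ≤ (n : ℝ) * E₁ := by
    calc ∑ i, Dt.en T₁ t i ≤ ∑ _i : Fin n, E₁ := Finset.sum_le_sum fun i _ => hE i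
      _ = (n : ℝ) * E₁ := by simp
  have hB : (∑ i, Dt.en T₁ t i) ^ (1 - bet n) ≤ (n : ℝ) * E₁ ^ (1 - bet n) := by
    calc (∑ i, Dt.en T₁ t i) ^ (1 - bet n) ≤ ((n : ℝ) * E₁) ^ (1 - bet n) :=
          Real.rpow_le_rpow hsum0 hsum (by linarith)
      _ = (n : ℝ) ^ (1 - bet n) * E₁ ^ (1 - bet n) := Real.mul_rpow hn0.le hE0
      _ ≤ (n : ℝ) * E₁ ^ (1 - bet n) := by
          apply mul_le_mul_of_nonneg_right _ (Real.rpow_nonneg hE0 _)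
          calc (n : ℝ) ^ (1 - bet n) ≤ (n : ℝ) ^ (1 : ℝ) := Real.rpow_le_rpow_of_exponent_le hn1 (by linarith)
            _ = n := Real.rpow_one _
  have hEE : E₁ ^ bet n * E₁ ^ (1 - bet n) = E₁ := by
    rcases hE0.eq_or_lt with h0 | h0
    · rw [← h0, Real.zero_rpow hb0.ne', zero_mul]
    · rw [← Real.rpow_add h0]; simp
  unfold FlDat.phi
  calc (∏ i, Dt.en T₁ t i * (1 / 2 : ℝ) ^ (t.2.2 i)) ^ (bet n / (n : ℝ)) * (∑ i, Dt.en T₁ t i) ^ (1 - bet n)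
      ≤ (E₁ ^ bet n * ((1 / 2 : ℝ) ^ (t.2.2 i₀)) ^ (bet n / (n : ℝ))) * ((n : ℝ) * E₁ ^ (1 - bet n)) :=
        mul_le_mul hA hB (Real.rpow_nonneg hsum0 _)
          (mul_nonneg (Real.rpow_nonneg hE0 _) (Real.rpow_nonneg (hd0 i₀) _))
    _ = (n : ℝ) * (E₁ ^ bet n * E₁ ^ (1 - bet n)) * ((1 / 2 : ℝ) ^ (t.2.2 i₀)) ^ (bet n / (n : ℝ)) := by ring
    _ = _ := by rw [hEE]

/-- **L-FLD-U4** (~100 l.)  common colour: `phi t ≤ (2^{-ℓ})^β ∑ 𝓔_i`:   `∏ 𝓔_i ≤ (∑ 𝓔_i)^n`. -/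
theorem fld_phi_common (hn : 1 ≤ n) (Dt : FlDat n) (T₁ : ℝ) (t : FlTy n) (ℓ : ℕ) (hℓ : ∀ i, t.2.2 i = ℓ) :
    Dt.phi T₁ t ≤ ((1 / 2 : ℝ) ^ ℓ) ^ bet n * ∑ i, Dt.en T₁ t i := by
  obtain ⟨hb0, hb1⟩ := fld_phi_le_bet hn
  have hn1 : (1 : ℝ) ≤ n := by exact_mod_cast hn
  have hn0 : (0 : ℝ) < n := by linarith
  have hx0 : ∀ i, 0 ≤ Dt.en T₁ t i := fld_phi_le_en0 Dt T₁ t
  have hd0 : (0 : ℝ) ≤ (1 / 2 : ℝ) ^ ℓ := by positivity
  have hbn : 0 < bet n / (n : ℝ) := by positivity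
  set S := ∑ i, Dt.en T₁ t i with hS
  have hS0 : 0 ≤ S := Finset.sum_nonneg fun i _ => hx0 i
  have hprod : ∏ i, Dt.en T₁ t i * (1 / 2 : ℝ) ^ (t.2.2 i) ≤ (S * (1 / 2 : ℝ) ^ ℓ) ^ n := by
    calc ∏ i, Dt.en T₁ t i * (1 / 2 : ℝ) ^ (t.2.2 i) ≤ ∏ _i : Fin n, S * (1 / 2 : ℝ) ^ ℓ := by
          apply Finset.prod_le_prod (fun i _ => mul_nonneg (hx0 i) (by positivity))
          intro i _
          rw [hℓ i]
          exact mul_le_mul_of_nonneg_right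
            (Finset.single_le_sum (f := fun i => Dt.en T₁ t i) (fun j _ => hx0 j) (Finset.mem_univ i)) hd0
      _ = (S * (1 / 2 : ℝ) ^ ℓ) ^ n := by simp
  have hprod0 : 0 ≤ ∏ i, Dt.en T₁ t i * (1 / 2 : ℝ) ^ (t.2.2 i) :=
    Finset.prod_nonneg fun i _ => mul_nonneg (hx0 i) (by positivity)
  have hA : (∏ i, Dt.en T₁ t i * (1 / 2 : ℝ) ^ (t.2.2 i)) ^ (bet n / (n : ℝ))
      ≤ S ^ bet n * ((1 / 2 : ℝ) ^ ℓ) ^ bet n := by
    calc (∏ i, Dt.en T₁ t i * (1 / 2 : ℝ) ^ (t.2.2 i)) ^ (bet n / (n : ℝ))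
        ≤ ((S * (1 / 2 : ℝ) ^ ℓ) ^ n) ^ (bet n / (n : ℝ)) := Real.rpow_le_rpow hprod0 hprod hbn.le
      _ = (S * (1 / 2 : ℝ) ^ ℓ) ^ bet n := by
          rw [← Real.rpow_natCast, ← Real.rpow_mul (mul_nonneg hS0 hd0)]
          congr 1
          field_simp
      _ = S ^ bet n * ((1 / 2 : ℝ) ^ ℓ) ^ bet n := Real.mul_rpow hS0 hd0
  have hEE : S ^ bet n * S ^ (1 - bet n) = S := by
    rcases hS0.eq_or_lt with h0 | h0
    · rw [← h0, Real.zero_rpow hb0.ne', zero_mul]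
    · rw [← Real.rpow_add h0]; simp
  unfold FlDat.phi
  rw [← hS]
  calc (∏ i, Dt.en T₁ t i * (1 / 2 : ℝ) ^ (t.2.2 i)) ^ (bet n / (n : ℝ)) * S ^ (1 - bet n)
      ≤ (S ^ bet n * ((1 / 2 : ℝ) ^ ℓ) ^ bet n) * S ^ (1 - bet n) :=
        mul_le_mul_of_nonneg_right hA (Real.rpow_nonneg hS0 _)
    _ = ((1 / 2 : ℝ) ^ ℓ) ^ bet n * (S ^ bet n * S ^ (1 - bet n)) := by ring
    _ = _ := by rw [hEE]

/-- double counting: a sum of `w ∘ f` with fibres of at most `K` elements -/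
theorem fld_sum_common_fib {α β : Type} [DecidableEq β] (S : Finset α) (T : Finset β) (f : α → β) (w : β → ℝ) (K : ℝ)
    (hw : ∀ y ∈ T, 0 ≤ w y) (hf : ∀ x ∈ S, f x ∈ T) (hK : ∀ y ∈ T, ((S.filter (fun x => f x = y)).card : ℝ) ≤ K) :
    ∑ x ∈ S, w (f x) ≤ K * ∑ y ∈ T, w y := by
  rw [← Finset.sum_fiberwise_of_maps_to hf, Finset.mul_sum]
  apply Finset.sum_le_sum
  intro y hy
  calc ∑ x ∈ S.filter (fun x => f x = y), w (f x) = ∑ _x ∈ S.filter (fun x => f x = y), w y :=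
        Finset.sum_congr rfl fun x hx => by rw [(Finset.mem_filter.1 hx).2]
    _ = ((S.filter (fun x => f x = y)).card : ℝ) * w y := by rw [Finset.sum_const, nsmul_eq_mul]
    _ ≤ K * w y := mul_le_mul_of_nonneg_right (hK y hy) (hw y hy)

open scoped Classical in
/-- the number of tuples of bins with one prescribed entry -/
theorem fld_sum_common_pi (Bn : Finset (BI n)) (i : Fin n) (b : BI n) :
    (Fintype.piFinset fun j : Fin n => if j = i then ({b} : Finset (BI n)) else Bn).card = Bn.card ^ (n - 1) := by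
  rw [Fintype.card_piFinset]
  have : ∀ j : Fin n, (if j = i then ({b} : Finset (BI n)) else Bn).card = if j = i then 1 else Bn.card := by
    intro j; split_ifs <;> simp
  simp_rw [this]
  rw [Finset.prod_ite, Finset.prod_const_one, one_mul, Finset.prod_const]
  congr 1
  rw [Finset.filter_ne' Finset.univ i, Finset.card_erase_of_mem (Finset.mem_univ i), Finset.card_univ, Fintype.card_fin]

open scoped Classical in
/-- **L-FLD-U5** (~300 l.)  THE SUM OVER THE TYPES WITH A COMMON NON TINY COLOUR (pure finite sums).   `w b p = (2^{-col b p})^β ‖cf b p‖²`.   `(2^{-ℓ})^β 𝓔_i(t) = ∑_{p ∈ fam T₁ t.1 (t.2.1 i) ℓ} w (t.2.1 i) p`.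
For fixed `i`, a pair `(b, p)`, `p ∈ Pk b`, occurs for the types `t` with `t.2.1 i = b`, `t.2.2 = fun _ => col b p`, `|p.2.2 - t.1| ≤ T₁`: at most `(2T₁ + 1) |Bn|^{n-1}` types
(`t ↦ (t.1, t.2.1 restricted to the indices ≠ i)` is injective on them). -/
theorem fld_sum_common (hn : 1 ≤ n) (Dt : FlDat n) (T₁ : ℝ) (hT₁ : 0 ≤ T₁) (Nτ : ℕ) (Bn : Finset (BI n)) (Nc : ℕ) (i₀ : Fin n) :
    ∑ t ∈ (flTys Nτ Bn Nc).filter (fun t => ∃ ℓ, ℓ + 1 < Nc ∧ ∀ i, t.2.2 i = ℓ), ((1 / 2 : ℝ) ^ (t.2.2 i₀)) ^ bet n * ∑ i, Dt.en T₁ t i ≤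
      (n : ℝ) * (2 * T₁ + 1) * (Bn.card : ℝ) ^ (n - 1) *
        ∑ b ∈ Bn, ∑ p ∈ (Dt.Pk b).filter (fun p => Dt.col b p + 1 < Nc), ((1 / 2 : ℝ) ^ (Dt.col b p)) ^ bet n * ‖Dt.cf b p‖ ^ 2 := by
  set F := (flTys Nτ Bn Nc).filter (fun t => ∃ ℓ, ℓ + 1 < Nc ∧ ∀ i, t.2.2 i = ℓ) with hF
  set w : ((_ : BI n) × FI n) → ℝ := fun y => ((1 / 2 : ℝ) ^ (Dt.col y.1 y.2)) ^ bet n * ‖Dt.cf y.1 y.2‖ ^ 2 with hw
  set T : Finset ((_ : BI n) × FI n) := Bn.sigma fun b => (Dt.Pk b).filter (fun p => Dt.col b p + 1 < Nc) with hT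
  set K : ℝ := (2 * T₁ + 1) * (Bn.card : ℝ) ^ (n - 1) with hK
  have hRHS : ∑ b ∈ Bn, ∑ p ∈ (Dt.Pk b).filter (fun p => Dt.col b p + 1 < Nc), ((1 / 2 : ℝ) ^ (Dt.col b p)) ^ bet n * ‖Dt.cf b p‖ ^ 2
      = ∑ y ∈ T, w y := by
    rw [hT, Finset.sum_sigma]
  rw [hRHS]
  -- one index
  have hone : ∀ i : Fin n, ∑ t ∈ F, ((1 / 2 : ℝ) ^ (t.2.2 i₀)) ^ bet n * Dt.en T₁ t i ≤ K * ∑ y ∈ T, w y := by
    intro i
    set S : Finset ((_ : FlTy n) × FI n) := F.sigma fun t => Dt.fam T₁ t.1 (t.2.1 i) (t.2.2 i) with hS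
    set f : ((_ : FlTy n) × FI n) → ((_ : BI n) × FI n) := fun x => ⟨x.1.2.1 i, x.2⟩ with hf
    have hL : ∑ t ∈ F, ((1 / 2 : ℝ) ^ (t.2.2 i₀)) ^ bet n * Dt.en T₁ t i = ∑ x ∈ S, w (f x) := by
      rw [hS, Finset.sum_sigma]
      apply Finset.sum_congr rfl
      intro t ht
      unfold FlDat.en energy
      rw [Finset.mul_sum]
      apply Finset.sum_congr rfl
      intro p hp
      obtain ⟨ℓ, -, hℓ⟩ := (Finset.mem_filter.1 ht).2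
      have hcol : Dt.col (t.2.1 i) p = t.2.2 i := by
        unfold FlDat.fam at hp
        exact (Finset.mem_filter.1 hp).2.2
      simp only [hw, hf]
      rw [hcol, hℓ i, hℓ i₀]
    rw [hL]
    apply fld_sum_common_fib S T f w K
    · intro y _
      simp only [hw]
      positivity
    · intro x hx
      rw [hS, Finset.mem_sigma] at hx
      obtain ⟨hxF, hxp⟩ := hx
      obtain ⟨hxT, ℓ, hℓ1, hℓ⟩ := Finset.mem_filter.1 hxF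
      unfold FlDat.fam at hxp
      obtain ⟨hp1, -, hp3⟩ := Finset.mem_filter.1 hxp
      unfold flTys at hxT
      rw [Finset.mem_product, Finset.mem_product, Fintype.mem_piFinset] at hxT
      rw [hT, Finset.mem_sigma]
      refine ⟨hxT.2.1 i, Finset.mem_filter.2 ⟨hp1, ?_⟩⟩
      simp only [hf]
      rw [hp3, hℓ i]; exact hℓ1
    · intro y _
      -- the fibre injects into a product
      set G : Finset (FlTy n) := (Finset.Icc (y.2.2.2 - ⌊T₁⌋) (y.2.2.2 + ⌊T₁⌋)) ×ˢ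
        ((Fintype.piFinset fun j : Fin n => if j = i then ({y.1} : Finset (BI n)) else Bn) ×ˢ
          ({fun _ => Dt.col y.1 y.2} : Finset (Fin n → ℕ))) with hG
      have hcardG : (G.card : ℝ) ≤ K := by
        rw [hG, Finset.card_product, Finset.card_product, fld_sum_common_pi, Finset.card_singleton, mul_one]
        push_cast
        rw [hK]
        apply mul_le_mul_of_nonneg_right _ (by positivity)
        have hf0 : 0 ≤ ⌊T₁⌋ := Int.floor_nonneg.2 hT₁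
        have h1 : (((Finset.Icc (y.2.2.2 - ⌊T₁⌋) (y.2.2.2 + ⌊T₁⌋)).card : ℕ) : ℤ) = 2 * ⌊T₁⌋ + 1 := by
          rw [Int.card_Icc, Int.toNat_of_nonneg (by linarith)]
          ring
        have h2 : (((Finset.Icc (y.2.2.2 - ⌊T₁⌋) (y.2.2.2 + ⌊T₁⌋)).card : ℕ) : ℝ) = 2 * (⌊T₁⌋ : ℝ) + 1 := by
          exact_mod_cast h1
        rw [h2]
        linarith [Int.floor_le T₁]
      refine le_trans (Nat.cast_le.2 ?_) hcardG
      · apply Finset.card_le_card_of_injOn (fun x => x.1)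
        · intro x hx
          have hx' := Finset.mem_coe.1 hx
          rw [Finset.mem_filter] at hx'
          obtain ⟨hxS, hxy⟩ := hx'
          rw [hS, Finset.mem_sigma] at hxS
          obtain ⟨hxF, hxp⟩ := hxS
          obtain ⟨hxT, ℓ, hℓ1, hℓ⟩ := Finset.mem_filter.1 hxF
          unfold FlDat.fam at hxp
          obtain ⟨hp1, hp2, hp3⟩ := Finset.mem_filter.1 hxp
          unfold flTys at hxT
          rw [Finset.mem_product, Finset.mem_product, Fintype.mem_piFinset] at hxT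
          subst hxy
          simp only [hf] at *
          rw [Finset.mem_coe, hG, Finset.mem_product, Finset.mem_product, Fintype.mem_piFinset, Finset.mem_singleton,
            Finset.mem_Icc]
          rw [abs_le] at hp2
          refine ⟨⟨?_, ?_⟩, ?_, ?_⟩
          · have h1 : ((x.2.2.2 - x.1.1 : ℤ) : ℝ) ≤ T₁ := by push_cast; linarith [hp2.2]
            have := Int.le_floor.2 h1
            linarith
          · have h1 : ((x.1.1 - x.2.2.2 : ℤ) : ℝ) ≤ T₁ := by push_cast; linarith [hp2.1]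
            have := Int.le_floor.2 h1
            linarith
          · intro j
            by_cases hj : j = i
            · rw [if_pos hj, hj]; exact Finset.mem_singleton_self _
            · rw [if_neg hj]; exact hxT.2.1 j
          · funext j
            rw [hp3, hℓ j, hℓ i]
        · intro x hx x' hx' hxx
          have h1 := Finset.mem_coe.1 hx
          have h2 := Finset.mem_coe.1 hx'
          rw [Finset.mem_filter] at h1 h2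
          have h3 : f x = f x' := h1.2.trans h2.2.symm
          simp only [hf, Sigma.mk.injEq, heq_eq_eq] at h3
          exact Sigma.ext hxx (heq_of_eq h3.2)
  calc ∑ t ∈ F, ((1 / 2 : ℝ) ^ (t.2.2 i₀)) ^ bet n * ∑ i, Dt.en T₁ t i
      = ∑ i : Fin n, ∑ t ∈ F, ((1 / 2 : ℝ) ^ (t.2.2 i₀)) ^ bet n * Dt.en T₁ t i := by
        rw [Finset.sum_comm]
        apply Finset.sum_congr rfl
        intro t _
        rw [Finset.mul_sum]
    _ ≤ ∑ _i : Fin n, K * ∑ y ∈ T, w y := Finset.sum_le_sum fun i _ => hone i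
    _ = (n : ℝ) * (K * ∑ y ∈ T, w y) := by simp
    _ = (n : ℝ) * (2 * T₁ + 1) * (Bn.card : ℝ) ^ (n - 1) * ∑ y ∈ T, w y := by rw [hK]; ring

open scoped Classical in
/-- **L-FLD-U6** (~150 l.)  THE WEIGHTED BUDGET IN REAL FORM.   `col_ge`: `(C m h^{n+1} 2^{-col})^β ≤ 2^β flMom^β` (`ENNReal.rpow_le_rpow`, `ENNReal.mul_rpow_of_nonneg`, `ENNReal.ofReal_rpow_of_nonneg`);  sum, `FlatOut.weighted`;  divide by `(C m h^{n+1})^β > 0`;  `2^β C^{1-β} ≤ 2 C`. -/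
theorem fld_weighted_real (hn : 1 ≤ n) (Dt : FlDat n) (A : Arr n ι) (s' : Finset ι) (c : ι → ℂ) (μ : Measure (ST n)) (m D R h : ℝ) (Kf : Cls) (P : ℕ) (cs τ C : ℝ) (Nc : ℕ)
    (hOk : Dt.Ok A s' c μ m D R h Kf P cs τ C Nc) (hC : 1 ≤ C) (hm : 0 < m) (hh : 0 < h) (hL : 0 < A.L) (hD : 0 < D) (h1 : (A.L / h) ^ τ ≤ D) (h2 : D ≤ A.L / h) (b : BI n) :
    ∑ p ∈ (Dt.Pk b).filter (fun p => Dt.col b p + 1 < Nc), ((1 / 2 : ℝ) ^ (Dt.col b p)) ^ bet n * ‖Dt.cf b p‖ ^ 2 ≤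
      2 * C * (A.L / h) ^ (2 * (n : ℝ) / ((n : ℝ) + 1)) * D ^ (-cs) * energy (selS A s' R {b}) c := by
  have hn1 : (1 : ℝ) ≤ n := by exact_mod_cast hn
  have hb0 : 0 < bet n := by unfold bet; positivity
  have hb1 : bet n ≤ 1 := by unfold bet; rw [div_le_one (by positivity)]; linarith
  have hC0 : 0 < C := by linarith
  set M₁ : ℝ := m * h ^ (n + 1) with hM₁
  have hM₁0 : 0 < M₁ := by positivity
  set X : ℝ := (A.L / h) ^ (2 * (n : ℝ) / ((n : ℝ) + 1)) * D ^ (-cs) * energy (selS A s' R {b}) c with hX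
  have hen0 : 0 ≤ energy (selS A s' R {b}) c := by
    unfold energy; exact Finset.sum_nonneg fun _ _ => by positivity
  have hX0 : 0 ≤ X := by positivity
  set Pk' := (Dt.Pk b).filter (fun p => Dt.col b p + 1 < Nc) with hPk'
  set S : ℝ := ∑ p ∈ Pk', ((1 / 2 : ℝ) ^ (Dt.col b p)) ^ bet n * ‖Dt.cf b p‖ ^ 2 with hS
  have hw := (hOk.out b).weighted h1 h2
  -- termwise
  have hterm : ∀ p ∈ Pk', ENNReal.ofReal ((C * M₁) ^ bet n * (((1 / 2 : ℝ) ^ (Dt.col b p)) ^ bet n * ‖Dt.cf b p‖ ^ 2))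
      ≤ (2 : ℝ≥0∞) ^ bet n * (flMom μ (flArr h (Dt.pf b)) P p ^ bet n * ENNReal.ofReal (‖Dt.cf b p‖ ^ 2)) := by
    intro p hp
    rw [hPk', Finset.mem_filter] at hp
    have hge := hOk.col_ge b p hp.1 hp.2
    have hd0 : (0 : ℝ) ≤ (1 / 2 : ℝ) ^ (Dt.col b p) := by positivity
    have e1 : C * m * h ^ (n + 1) * (1 / 2) ^ Dt.col b p = C * M₁ * (1 / 2) ^ Dt.col b p := by rw [hM₁]; ring
    rw [e1] at hge
    have h3 := ENNReal.rpow_le_rpow hge hb0.le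
    rw [ENNReal.mul_rpow_of_nonneg _ _ hb0.le, ENNReal.ofReal_rpow_of_nonneg (by positivity) hb0.le,
      Real.mul_rpow (by positivity) hd0] at h3
    calc ENNReal.ofReal ((C * M₁) ^ bet n * (((1 / 2 : ℝ) ^ (Dt.col b p)) ^ bet n * ‖Dt.cf b p‖ ^ 2))
        = ENNReal.ofReal ((C * M₁) ^ bet n * ((1 / 2 : ℝ) ^ (Dt.col b p)) ^ bet n) * ENNReal.ofReal (‖Dt.cf b p‖ ^ 2) := by
          rw [← mul_assoc, ENNReal.ofReal_mul (by positivity)]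
      _ ≤ ((2 : ℝ≥0∞) ^ bet n * flMom μ (flArr h (Dt.pf b)) P p ^ bet n) * ENNReal.ofReal (‖Dt.cf b p‖ ^ 2) := by
          gcongr
      _ = _ := by rw [mul_assoc]
  have hsum : ENNReal.ofReal ((C * M₁) ^ bet n * S) ≤ ENNReal.ofReal (2 ^ bet n * (C * M₁ ^ bet n * X)) := by
    calc ENNReal.ofReal ((C * M₁) ^ bet n * S)
        = ∑ p ∈ Pk', ENNReal.ofReal ((C * M₁) ^ bet n * (((1 / 2 : ℝ) ^ (Dt.col b p)) ^ bet n * ‖Dt.cf b p‖ ^ 2)) := by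
          rw [hS, Finset.mul_sum, ENNReal.ofReal_sum_of_nonneg (fun p _ => by positivity)]
      _ ≤ ∑ p ∈ Pk', (2 : ℝ≥0∞) ^ bet n * (flMom μ (flArr h (Dt.pf b)) P p ^ bet n * ENNReal.ofReal (‖Dt.cf b p‖ ^ 2)) :=
          Finset.sum_le_sum hterm
      _ = (2 : ℝ≥0∞) ^ bet n * ∑ p ∈ Pk', flMom μ (flArr h (Dt.pf b)) P p ^ bet n * ENNReal.ofReal (‖Dt.cf b p‖ ^ 2) := by
          rw [Finset.mul_sum]
      _ ≤ (2 : ℝ≥0∞) ^ bet n * ∑ p ∈ Dt.Pk b, flMom μ (flArr h (Dt.pf b)) P p ^ bet n * ENNReal.ofReal (‖Dt.cf b p‖ ^ 2) := by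
          gcongr
          exact Finset.filter_subset _ _
      _ ≤ (2 : ℝ≥0∞) ^ bet n * ENNReal.ofReal (C * M₁ ^ bet n * X) := by
          gcongr
          refine hw.trans_eq ?_
          congr 1
          rw [hX, hM₁]; ring
      _ = ENNReal.ofReal (2 ^ bet n * (C * M₁ ^ bet n * X)) := by
          rw [ENNReal.ofReal_mul (p := (2 : ℝ) ^ bet n) (by positivity),
            ← ENNReal.ofReal_rpow_of_nonneg (by norm_num) hb0.le]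
          norm_num
  have hreal : (C * M₁) ^ bet n * S ≤ 2 ^ bet n * (C * M₁ ^ bet n * X) :=
    (ENNReal.ofReal_le_ofReal_iff (by positivity)).1 hsum
  rw [Real.mul_rpow hC0.le hM₁0.le] at hreal
  have hMb : 0 < M₁ ^ bet n := Real.rpow_pos_of_pos hM₁0 _
  have hCb : 0 < C ^ bet n := Real.rpow_pos_of_pos hC0 _
  have hCb1 : 1 ≤ C ^ bet n := Real.one_le_rpow hC hb0.le
  have h2b : (2 : ℝ) ^ bet n ≤ 2 := by
    calc (2 : ℝ) ^ bet n ≤ (2 : ℝ) ^ (1 : ℝ) := Real.rpow_le_rpow_of_exponent_le (by norm_num) hb1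
      _ = 2 := Real.rpow_one _
  have hS0 : 0 ≤ S := Finset.sum_nonneg fun p _ => by positivity
  have h4 : M₁ ^ bet n * S ≤ M₁ ^ bet n * (2 * C * X) := by
    calc M₁ ^ bet n * S = 1 * (M₁ ^ bet n * S) := (one_mul _).symm
      _ ≤ C ^ bet n * (M₁ ^ bet n * S) := mul_le_mul_of_nonneg_right hCb1 (by positivity)
      _ = C ^ bet n * M₁ ^ bet n * S := by ring
      _ ≤ 2 ^ bet n * (C * M₁ ^ bet n * X) := hreal
      _ ≤ 2 * (C * M₁ ^ bet n * X) := mul_le_mul_of_nonneg_right h2b (by positivity)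
      _ = M₁ ^ bet n * (2 * C * X) := by ring
  have h5 : S ≤ 2 * C * X := le_of_mul_le_mul_left h4 hMb
  calc S ≤ 2 * C * X := h5
    _ = _ := by rw [hX]; ring

/-- **L-FLD-U7** (~50 l.)  the coarse bins partition the labels (`Finset.sum_fiberwise_of_maps_to`) -/
theorem fld_energy_bins (A : Arr n ι) (s' : Finset ι) (c : ι → ℂ) (R : ℝ) : ∑ b ∈ flBins A s' R, energy (selS A s' R {b}) c = energy s' c := by
  classical
  have hmem : ∀ α ∈ s', fbin R (A.om α) ∈ flBins A s' R := by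
    intro α hα
    simp only [flBins, Finset.mem_image]
    exact ⟨α, hα, rfl⟩
  unfold energy
  refine Eq.trans (Finset.sum_congr rfl fun b _ => ?_)
    (Finset.sum_fiberwise_of_maps_to (g := fun α => fbin R (A.om α)) hmem (fun α => ‖c α‖ ^ 2))
  refine Finset.sum_congr ?_ fun _ _ => rfl
  ext α
  simp only [selS, Finset.mem_filter, Finset.mem_singleton]

/-- **L-FLD-U8** (~60 l.)  number of types (`Finset.card_product`, `Fintype.card_piFinset`, `Int.card_Icc`) and of bins (`wh_card_bins` for the `WH` with `A, s', R`; `fbin = wbin` by `rfl`) -/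
theorem fld_card_tys (Nτ : ℕ) (Bn : Finset (BI n)) (Nc : ℕ) : ((flTys Nτ Bn Nc).card : ℝ) = (2 * (Nτ : ℝ) + 1) * (Bn.card : ℝ) ^ n * (Nc : ℝ) ^ n := by
  unfold flTys
  rw [Finset.card_product, Finset.card_product, Fintype.card_piFinset, Fintype.card_piFinset, Int.card_Icc]
  simp only [Finset.prod_const, Finset.card_univ, Fintype.card_fin, Finset.card_range]
  have : ((Nτ : ℤ) + 1 - -(Nτ : ℤ)).toNat = 2 * Nτ + 1 := by omega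
  rw [this]
  push_cast
  ring

theorem fld_card_bins (A : Arr n ι) (s' : Finset ι) (R Rω : ℝ) (hR : 0 ≤ R) (hRω : 0 ≤ Rω) (hfreq : ∀ α ∈ s', ‖A.om α‖ ≤ Rω) : ((flBins A s' R).card : ℝ) ≤ whNb n Rω R := by
  exact wh_card_bins (⟨A, s', fun _ => 0, 0, R, 0, 0, 0⟩ : WH n ι) hR hRω hfreq

/-- upper bound of the number of types -/
noncomputable def fldNT (n : ℕ) (Rω R : ℝ) (Nc Nτ : ℕ) : ℝ := (2 * (Nτ : ℝ) + 1) * whNb n Rω R ^ n * (Nc : ℝ) ^ n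

/-- the transversality constant -/
noncomputable def fldQt (n : ℕ) (Rω Cw R : ℝ) : ℝ := 2 ^ (n + 3) * (1 + (Rω + Real.sqrt n)) / (Cw / R)

theorem fld_cluster_sum {T : Type} (Ty : Finset T) (x φ : T → ℝ) (A0 KT NT : ℝ) (hA0 : 0 ≤ A0) (hx : ∀ t ∈ Ty, x t ≤ A0 + KT * φ t)
    (hc : (Ty.card : ℝ) ≤ NT) : ∑ t ∈ Ty, x t ≤ KT * ∑ t ∈ Ty, φ t + NT * A0 := by
  calc ∑ t ∈ Ty, x t ≤ ∑ t ∈ Ty, (A0 + KT * φ t) := Finset.sum_le_sum hx
    _ = (Ty.card : ℝ) * A0 + KT * ∑ t ∈ Ty, φ t := by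
        rw [Finset.sum_add_distrib, Finset.sum_const, nsmul_eq_mul, Finset.mul_sum]
    _ ≤ KT * ∑ t ∈ Ty, φ t + NT * A0 := by
        have := mul_le_mul_of_nonneg_right hc hA0
        linarith

/-- **L-FLD-U9** (~400 l.)  **ONE CLUSTER** (assembly).   `Dt` from `fld_dat`;  `fld_valid` at every `z ∈ Z`;  `fld_partition` with `V Q τ t := t.1 = τ ∧ FlVal … Q t`, `a₁ = R⁴`, `a₂ = h²`;  `(μ Z).toReal ≤ ∑_t (μ (Zt t)).toReal`;  `fld_type` for every `t`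
(for `Zt t = ∅` use `0 ≤ …`; only the types with `Zt t ≠ ∅` have the property `kind`);   tiny types: `fld_phi_le` with `t.2.2 i₀ = Nc - 1`;   common colour: `fld_phi_common`, `fld_sum_common`, `fld_weighted_real`, `fld_energy_bins`;   (B): `fld_phi_le` and `(1/2)^ℓ ≤ 1`. -/
theorem fld_cluster (k : ℕ) (hk : 1 ≤ k) (W : WCon) (N : ℕ) (bb : ℝ) (P : ℕ) (cs τ Cfl c₃ c4 C₁ Cw Cq cq Cf : ℝ)
    (hF : FlatFrameWith k c₃ (flCls (k + 1) N bb W.K.Rω) (Real.sqrt (k + 1 : ℕ) + 2) (C₁ + Real.sqrt (k + 1 : ℕ)) P Cf)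
    (hFl : FlattenWith (k + 1) W (flCls (k + 1) N bb W.K.Rω) P cs τ Cfl)
    (A : Arr (k + 1) ι) (s' : Finset ι) (c : ι → ℂ) (μ : Measure (ST (k + 1))) (m χ D R h th : ℝ) (Nc Nτ : ℕ)
    (hnum : FldLoc (k + 1) W.K.R W.K.Rω C₁ Cw Cf Cfl c₃ c4 P A.L R h (th / Nc) Nc Nτ) (hRω : 0 ≤ W.K.Rω)
    (hIn : A.In s' W.K) (htc : ∀ α ∈ s', A.tc α = 0) (hE : energy s' c ≤ 1) (hm : 0 < m) (hχ : 0 < χ) (hD : 1 ≤ D)
    (hG : Grow μ m (k + 1 : ℕ)) (hS : Slab μ (W.T₀ * A.L ^ 2)) (hdens : Dens μ m χ) (hT : TubeMom μ A s' m D W.M)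
    (e : E (k + 1)) (β₀ : ℝ) (he : ‖e‖ = 1) (hβ : |β₀| ≤ C₁) (hflat : ∀ α ∈ s', |⟪e, A.om α⟫_ℝ - β₀| ≤ C₁ / h)
    (Z : Set (ST (k + 1))) (hZ : MeasurableSet Z) (hfin : μ Z ≠ ⊤)
    (hbroad : ∀ z ∈ Z, ¬ AngCover Cw Cq cq R Nc (flSig A s' c R th (bigc (R ^ 4) z))) :
    ((A.L / h) ^ τ ≤ D → D ≤ A.L / h →
      (th / Nc) ^ 2 * (μ Z).toReal ≤
        fldKt (k + 1) P Cf Cfl (Real.sqrt (k + 1 : ℕ) * R ^ 4 * fldQt (k + 1) W.K.Rω Cw R) * m * χ ^ (1 - bet (k + 1)) * h ^ (2 * ((k + 1 : ℕ) : ℝ) / (((k + 1 : ℕ) : ℝ) + 1)) *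
          (((k + 1 : ℕ) : ℝ) * (2 * (Real.sqrt (k + 1 : ℕ) + 2) + 1) * whNb (k + 1) W.K.Rω R ^ k * (2 * Cfl * (A.L / h) ^ (2 * ((k + 1 : ℕ) : ℝ) / (((k + 1 : ℕ) : ℝ) + 1)) * D ^ (-cs) * energy s' c)
            + fldNT (k + 1) W.K.Rω R Nc Nτ * (((k + 1 : ℕ) : ℝ) * fldE1 (k + 1) Cfl (A.L / h) * ((1 / 2 : ℝ) ^ (Nc - 1)) ^ (bet (k + 1) / ((k + 1 : ℕ) : ℝ))))
        + (th / Nc) ^ 2 * (fldNT (k + 1) W.K.Rω R Nc Nτ * (m * h ^ (2 * ((k + 1 : ℕ) : ℝ) - c4)))) ∧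
    (th / Nc) ^ 2 * (μ Z).toReal ≤
        fldKt (k + 1) P Cf Cfl (Real.sqrt (k + 1 : ℕ) * R ^ 4 * fldQt (k + 1) W.K.Rω Cw R) * m * χ ^ (1 - bet (k + 1)) * h ^ (2 * ((k + 1 : ℕ) : ℝ) / (((k + 1 : ℕ) : ℝ) + 1)) *
          (fldNT (k + 1) W.K.Rω R Nc Nτ * (((k + 1 : ℕ) : ℝ) * fldE1 (k + 1) Cfl (A.L / h)))
        + (th / Nc) ^ 2 * (fldNT (k + 1) W.K.Rω R Nc Nτ * (m * h ^ (2 * ((k + 1 : ℕ) : ℝ) - c4))) := by
  classical
  have hR0 : 0 < R := lt_of_lt_of_le one_pos hnum.R1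
  have hh0 : 0 < h := lt_of_lt_of_le one_pos hnum.h1
  have hC0 : 0 < Cfl := lt_of_lt_of_le one_pos hnum.Cfl1
  have hL0 : 0 < A.L := lt_of_lt_of_le one_pos hIn.one_le
  have hNc0 : (0 : ℝ) < Nc := by exact_mod_cast hnum.Nc1
  have hth : 0 < th := by
    have h1 := mul_pos hnum.a0 hNc0
    rwa [div_mul_cancel₀ _ hNc0.ne'] at h1
  have hs0 : 0 ≤ Real.sqrt (k + 1 : ℕ) := Real.sqrt_nonneg _
  have hn0 : (0 : ℝ) < ((k + 1 : ℕ) : ℝ) := by positivity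
  have hbet0 : 0 ≤ bet (k + 1) := by
    unfold bet
    positivity
  obtain ⟨Dt, hOk⟩ := fld_dat W (flCls (k + 1) N bb W.K.Rω) P cs τ Cfl hFl A s' c μ m D R h Nc hnum.Nc1 hC0.le hIn htc hm.le hD hnum.h1
    hnum.fl hG hS hT
  have hw0 : 0 < Cw / R := div_pos hnum.Cw0 hR0
  have hw1 : Cw / R ≤ 1 := (div_le_one hR0).2 hnum.CwR
  have hQt : 1 ≤ fldQt (k + 1) W.K.Rω Cw R := by
    unfold fldQt
    rw [one_le_div hw0]
    have h1 : (1 : ℝ) ≤ 2 ^ (k + 1 + 3) := one_le_pow₀ (by norm_num)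
    have h2 : (1 : ℝ) ≤ 1 + (W.K.Rω + Real.sqrt (k + 1 : ℕ)) := by linarith
    calc Cw / R ≤ 1 * 1 := by linarith
      _ ≤ _ := mul_le_mul h1 h2 zero_le_one (by positivity)
  obtain ⟨Ty, hTy⟩ : ∃ Ty, Ty = flTys Nτ (flBins A s' R) Nc := ⟨_, rfl⟩
  have hvalid : ∀ z ∈ Z, ∃ t ∈ Ty, t.1 = ⌊z.2 / h ^ 2⌋ ∧ FlVal Dt h R (th / Nc) (Real.sqrt (k + 1 : ℕ) + 2) (Cw / R / 2 ^ (k + 1 + 3))
      (fldQt (k + 1) W.K.Rω Cw R) e Nc 0 (bigc (R ^ 4) z) t := by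
    intro z hz
    rw [hTy]
    exact fld_valid (by omega) W.K Dt A s' c μ m D R h N bb P cs τ Cfl Nc hOk hnum.Nc1 hIn htc e β₀ C₁ Cw Cq cq th he hflat hth hnum.R1
      hnum.h1 hnum.Rh hnum.Cw0 hnum.CwR hnum.flat Nτ hnum.Nτ 0 rfl z (hbroad z hz)
  obtain ⟨Zt, hZm, hZs, hZV, hZsum⟩ := fld_partition μ Z hZ (R ^ 4) (h ^ 2) Ty
    (fun Q τ' t => t.1 = τ' ∧ FlVal Dt h R (th / Nc) (Real.sqrt (k + 1 : ℕ) + 2) (Cw / R / 2 ^ (k + 1 + 3))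
      (fldQt (k + 1) W.K.Rω Cw R) e Nc 0 Q t) hvalid
  have hfinT : ∀ t, μ (Zt t) ≠ ⊤ := fun t => ne_top_of_le_ne_top hfin (measure_mono (hZs t))
  have hsumR : (μ Z).toReal ≤ ∑ t ∈ Ty, (μ (Zt t)).toReal := by
    rw [← ENNReal.toReal_sum (fun t _ => hfinT t)]
    exact ENNReal.toReal_mono (ENNReal.sum_ne_top.2 fun t _ => hfinT t) hZsum
  have hEn : ∀ t i, Dt.en (Real.sqrt (k + 1 : ℕ) + 2) t i ≤ fldE1 (k + 1) Cfl (A.L / h) := fun t i =>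
    fld_en_le Dt A s' c μ m D R h _ P cs τ Cfl Nc hOk hC0.le hL0 hh0 hE t i
  obtain ⟨KT, hKT⟩ : ∃ KT, KT = fldKt (k + 1) P Cf Cfl (Real.sqrt (k + 1 : ℕ) * R ^ 4 * fldQt (k + 1) W.K.Rω Cw R) * m * χ ^ (1 - bet (k + 1))
      * h ^ (2 * ((k + 1 : ℕ) : ℝ) / (((k + 1 : ℕ) : ℝ) + 1)) := ⟨_, rfl⟩
  obtain ⟨A0, hA0⟩ : ∃ A0, A0 = (th / Nc) ^ 2 * (m * h ^ (2 * ((k + 1 : ℕ) : ℝ) - c4)) := ⟨_, rfl⟩
  obtain ⟨E₁, hE₁⟩ : ∃ E₁, E₁ = fldE1 (k + 1) Cfl (A.L / h) := ⟨_, rfl⟩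
  obtain ⟨NT, hNT⟩ : ∃ NT, NT = fldNT (k + 1) W.K.Rω R Nc Nτ := ⟨_, rfl⟩
  have htype : ∀ t, (th / Nc) ^ 2 * (μ (Zt t)).toReal ≤ A0 + KT * Dt.phi (Real.sqrt (k + 1 : ℕ) + 2) t := by
    intro t
    rw [hA0, hKT]
    exact fld_type k hk Dt A s' c μ m χ D R h N bb W.K.R W.K.Rω P cs τ Cfl Nc Nτ c₃ c4 C₁ Cw Cf (th / Nc) (fldQt (k + 1) W.K.Rω Cw R) hF hOk
      hnum hQt e β₀ he hβ hflat hm hχ hdens 0 t (hEn t) (Zt t) (hZm t) (hfinT t) (fun z hz => (hZV t z hz).2)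
  have hKT0 : 0 ≤ KT := by
    rw [hKT]
    have h1 := fld_Kt_nonneg (k + 1) P hnum.Cf0 hC0.le (by positivity : 0 ≤ Real.sqrt (k + 1 : ℕ) * R ^ 4 * fldQt (k + 1) W.K.Rω Cw R)
    have h2 := Real.rpow_pos_of_pos hχ (1 - bet (k + 1))
    have h3 := Real.rpow_pos_of_pos hh0 (2 * ((k + 1 : ℕ) : ℝ) / (((k + 1 : ℕ) : ℝ) + 1))
    positivity
  have hA00 : 0 ≤ A0 := by
    rw [hA0]
    have := Real.rpow_pos_of_pos hh0 (2 * ((k + 1 : ℕ) : ℝ) - c4)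
    positivity
  have hE₁0 : 0 ≤ E₁ := by
    rw [hE₁]
    unfold fldE1
    have : 0 < A.L / h := div_pos hL0 hh0
    positivity
  have hbins : ((flBins A s' R).card : ℝ) ≤ whNb (k + 1) W.K.Rω R := fld_card_bins A s' R W.K.Rω hR0.le hRω hIn.freq
  have hcard : (Ty.card : ℝ) ≤ NT := by
    rw [hTy, hNT, fld_card_tys]
    unfold fldNT
    gcongr
  have hstart : (th / Nc) ^ 2 * (μ Z).toReal ≤ ∑ t ∈ Ty, (th / Nc) ^ 2 * (μ (Zt t)).toReal := by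
    rw [← Finset.mul_sum]
    exact mul_le_mul_of_nonneg_left hsumR (sq_nonneg _)
  have hhalf : ∀ (ℓ : ℕ) (x : ℝ), 0 ≤ x → ((1 / 2 : ℝ) ^ ℓ) ^ x ≤ 1 := fun ℓ x hx =>
    Real.rpow_le_one (by positivity) (pow_le_one₀ (by norm_num) (by norm_num)) hx
  rw [← hKT, ← hE₁, ← hNT]
  have eA0 : (th / Nc) ^ 2 * (NT * (m * h ^ (2 * ((k + 1 : ℕ) : ℝ) - c4))) = NT * A0 := by
    rw [hA0]
    ring
  rw [eA0]
  rw [← hE₁] at hEn
  refine ⟨fun hD1 hD2 => ?_, ?_⟩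
  · -- (A)
    obtain ⟨tiny, htiny⟩ : ∃ tiny, tiny = ((k + 1 : ℕ) : ℝ) * E₁ * ((1 / 2 : ℝ) ^ (Nc - 1)) ^ (bet (k + 1) / ((k + 1 : ℕ) : ℝ)) := ⟨_, rfl⟩
    have htiny0 : 0 ≤ tiny := by
      rw [htiny]
      have := Real.rpow_nonneg (by positivity : (0 : ℝ) ≤ (1 / 2 : ℝ) ^ (Nc - 1)) (bet (k + 1) / ((k + 1 : ℕ) : ℝ))
      positivity
    have hcm0 : ∀ t : FlTy (k + 1), 0 ≤ ((1 / 2 : ℝ) ^ (t.2.2 0)) ^ bet (k + 1) * ∑ i, Dt.en (Real.sqrt (k + 1 : ℕ) + 2) t i := fun t =>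
      mul_nonneg (Real.rpow_nonneg (by positivity) _) (Finset.sum_nonneg fun i _ => fld_en_nonneg Dt _ t i)
    have hx : ∀ t ∈ Ty, (th / Nc) ^ 2 * (μ (Zt t)).toReal ≤ A0 + KT * ((if (∃ ℓ, ℓ + 1 < Nc ∧ ∀ i, t.2.2 i = ℓ) then
        ((1 / 2 : ℝ) ^ (t.2.2 0)) ^ bet (k + 1) * ∑ i, Dt.en (Real.sqrt (k + 1 : ℕ) + 2) t i else 0) + tiny) := by
      intro t _
      have hif0 : 0 ≤ (if (∃ ℓ, ℓ + 1 < Nc ∧ ∀ i, t.2.2 i = ℓ) then
          ((1 / 2 : ℝ) ^ (t.2.2 0)) ^ bet (k + 1) * ∑ i, Dt.en (Real.sqrt (k + 1 : ℕ) + 2) t i else 0) := by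
        split_ifs
        · exact hcm0 t
        · exact le_rfl
      by_cases hne : (Zt t).Nonempty
      · obtain ⟨z, hz⟩ := hne
        refine (htype t).trans ?_
        have hle : Dt.phi (Real.sqrt (k + 1 : ℕ) + 2) t ≤ (if (∃ ℓ, ℓ + 1 < Nc ∧ ∀ i, t.2.2 i = ℓ) then
            ((1 / 2 : ℝ) ^ (t.2.2 0)) ^ bet (k + 1) * ∑ i, Dt.en (Real.sqrt (k + 1 : ℕ) + 2) t i else 0) + tiny := by
          by_cases hcom : ∃ ℓ, ℓ + 1 < Nc ∧ ∀ i, t.2.2 i = ℓ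
          · rw [if_pos hcom]
            obtain ⟨ℓ, -, hℓ⟩ := hcom
            have h1 := fld_phi_common (by omega) Dt (Real.sqrt (k + 1 : ℕ) + 2) t ℓ hℓ
            rw [hℓ 0]
            linarith
          · rw [if_neg hcom, zero_add]
            rcases (hZV t z hz).2.kind with h1 | h1
            · have h2 := fld_phi_le (by omega) Dt (Real.sqrt (k + 1 : ℕ) + 2) E₁ t (hEn t) 0
              have h3 : t.2.2 0 = Nc - 1 := by omega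
              rw [h3] at h2
              rw [htiny]
              exact h2
            · exact absurd h1 hcom
        have := mul_le_mul_of_nonneg_left hle hKT0
        linarith
      · rw [Set.not_nonempty_iff_eq_empty] at hne
        rw [hne, measure_empty, ENNReal.toReal_zero, mul_zero]
        have := mul_nonneg hKT0 (add_nonneg hif0 htiny0)
        linarith
    have hS1 := fld_cluster_sum Ty _ _ A0 KT NT hA00 hx hcard
    refine hstart.trans (hS1.trans ?_)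
    have hsum : ∑ t ∈ Ty, ((if (∃ ℓ, ℓ + 1 < Nc ∧ ∀ i, t.2.2 i = ℓ) then
        ((1 / 2 : ℝ) ^ (t.2.2 0)) ^ bet (k + 1) * ∑ i, Dt.en (Real.sqrt (k + 1 : ℕ) + 2) t i else 0) + tiny)
        ≤ ((k + 1 : ℕ) : ℝ) * (2 * (Real.sqrt (k + 1 : ℕ) + 2) + 1) * whNb (k + 1) W.K.Rω R ^ k *
            (2 * Cfl * (A.L / h) ^ (2 * ((k + 1 : ℕ) : ℝ) / (((k + 1 : ℕ) : ℝ) + 1)) * D ^ (-cs) * energy s' c) + NT * tiny := by
      rw [Finset.sum_add_distrib, Finset.sum_const, nsmul_eq_mul, ← Finset.sum_filter]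
      refine add_le_add ?_ (mul_le_mul_of_nonneg_right hcard htiny0)
      have h1 := fld_sum_common (by omega : 1 ≤ k + 1) Dt (Real.sqrt (k + 1 : ℕ) + 2) (by positivity) Nτ (flBins A s' R) Nc 0
      rw [← hTy, Nat.add_sub_cancel] at h1
      refine h1.trans ?_
      have h2 : ∑ b ∈ flBins A s' R, ∑ p ∈ (Dt.Pk b).filter (fun p => Dt.col b p + 1 < Nc), ((1 / 2 : ℝ) ^ (Dt.col b p)) ^ bet (k + 1) * ‖Dt.cf b p‖ ^ 2
          ≤ 2 * Cfl * (A.L / h) ^ (2 * ((k + 1 : ℕ) : ℝ) / (((k + 1 : ℕ) : ℝ) + 1)) * D ^ (-cs) * energy s' c := by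
        rw [← fld_energy_bins A s' c R, Finset.mul_sum]
        exact Finset.sum_le_sum fun b _ =>
          fld_weighted_real (by omega) Dt A s' c μ m D R h _ P cs τ Cfl Nc hOk hnum.Cfl1 hm hh0 hL0 (by linarith) hD1 hD2 b
      have h3 : 0 ≤ ∑ b ∈ flBins A s' R, ∑ p ∈ (Dt.Pk b).filter (fun p => Dt.col b p + 1 < Nc), ((1 / 2 : ℝ) ^ (Dt.col b p)) ^ bet (k + 1) * ‖Dt.cf b p‖ ^ 2 :=
        Finset.sum_nonneg fun b _ => Finset.sum_nonneg fun p _ => mul_nonneg (Real.rpow_nonneg (by positivity) _) (by positivity)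
      have h4 : ((flBins A s' R).card : ℝ) ^ k ≤ whNb (k + 1) W.K.Rω R ^ k := pow_le_pow_left₀ (Nat.cast_nonneg _) hbins k
      have h5 : 0 ≤ whNb (k + 1) W.K.Rω R := (Nat.cast_nonneg _).trans hbins
      exact mul_le_mul (mul_le_mul_of_nonneg_left h4 (by positivity)) h2 h3 (by positivity)
    have := mul_le_mul_of_nonneg_left hsum hKT0
    rw [htiny] at this ⊢
    linarith
  · -- (B)
    have hx : ∀ t ∈ Ty, (th / Nc) ^ 2 * (μ (Zt t)).toReal ≤ A0 + KT * (((k + 1 : ℕ) : ℝ) * E₁) := by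
      intro t _
      refine (htype t).trans ?_
      have h2 := fld_phi_le (by omega) Dt (Real.sqrt (k + 1 : ℕ) + 2) E₁ t (hEn t) 0
      have h3 := hhalf (t.2.2 0) (bet (k + 1) / ((k + 1 : ℕ) : ℝ)) (by positivity)
      have h4 : ((k + 1 : ℕ) : ℝ) * E₁ * ((1 / 2 : ℝ) ^ (t.2.2 0)) ^ (bet (k + 1) / ((k + 1 : ℕ) : ℝ)) ≤ ((k + 1 : ℕ) : ℝ) * E₁ :=
        mul_le_of_le_one_right (by positivity) h3
      have := mul_le_mul_of_nonneg_left (h2.trans h4) hKT0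
      linarith
    have hS1 := fld_cluster_sum Ty _ _ A0 KT NT hA00 hx hcard
    refine hstart.trans (hS1.trans ?_)
    rw [Finset.sum_const, nsmul_eq_mul]
    have h5 : (Ty.card : ℝ) * (((k + 1 : ℕ) : ℝ) * E₁) ≤ NT * (((k + 1 : ℕ) : ℝ) * E₁) := mul_le_mul_of_nonneg_right hcard (by positivity)
    have := mul_le_mul_of_nonneg_left h5 hKT0
    linarith

end Claimed.Agent.R257
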