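import Claimed.Agent.R257.Fl.D3

/-!
# R257 / Fl / D4 : SUM OVER THE CLUSTERS, NUMERICS, EXIT OF FL (H flattening.tex l.326-372, weak.tex l.56-110)            (captain helper263)

* `ClusterStmt`      EXIT OF FL-A in the order of the constants (producer: helper18, `fla_main`).
* `FldCon`, `FldGlob`      the constants of FL-D and the numerical inequalities at `(B, L, D)`;   `fld_num` (`Fl/D5.lean`): they hold for a suitable choice of the constants (PURE REAL ARITHMETIC).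
* `fld_final`      `ClusterWith + GeoWith + FlattenWith + FlatFrameWith + FldGlob ⟹ FinalWith`.
* `fl_exit` (`Fl/Main.lean`)        `ClusterStmt + FlattenStmt + FlatFrameStmt ⟹ FlStmt`      (PROVED from the statements above: order of the constants).
-/

set_option autoImplicit false

namespace Claimed.Agent.R257

open MeasureTheory Metric Set
open scoped ENNReal InnerProductSpace

variable {n : ℕ} {ι : Type}

/-- the width constant of the excluded strips -/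
noncomputable def flCw (n : ℕ) : ℝ := 2 ^ (n + 3) * Real.sqrt n

/-- the exponent of the frame cutoff and of the discarded mass -/
noncomputable def flC3 (n : ℕ) : ℝ := ((n : ℝ) - 1) / (16 * ((n : ℝ) + 1))

/-- the exponent `v₀` -/
noncomputable def flV0 (n : ℕ) : ℝ := ((n : ℝ) - 1) / (8 * ((n : ℝ) + 1))

/-- **EXIT OF FL-A, order of the constants.**   `C₁, cth, Ja` depend only on `n, W` (and on AN);  `u` is prescribed by FL-D;  `C10, Ck, cM` are chosen by FL-A after the geometric exponents;  `C11` is prescribed by FL-D after `C10`. -/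
def ClusterStmt (n : ℕ) (W : WCon) (a pmax : ℝ) : Prop :=
  ∃ (C₁ cth : ℝ) (Ja : ℕ), 0 ≤ C₁ ∧ 0 < cth ∧ 1 ≤ Ja ∧ ∀ u : ℝ, 0 < u → ∃ σ₀ : ℝ, 0 < σ₀ ∧
  ∀ v₀ σ : ℝ, 0 < v₀ → v₀ ≤ 1 → 0 < σ → σ ≤ σ₀ → ∀ Cgeo Cp cg c₀ : ℝ, 0 ≤ Cgeo → 0 ≤ Cp → 0 < cg → 0 < c₀ →
  ∃ C10 Ck cM : ℝ, 1 ≤ C10 ∧ 0 ≤ Ck ∧ 0 < cM ∧ ∀ C11 : ℝ, 0 ≤ C11 → ∃ κ₀ : ℝ, 0 < κ₀ ∧ ∀ κ : ℝ, 0 < κ → κ ≤ κ₀ → ∀ p : ℝ, 2 < p → p ≤ pmax →
  ∃ J : ℕ, ∀ J' : ℕ, J ≤ J' → ∀ Bp : ℝ, ∃ B₀ : ℝ, ∀ B : ℝ, B₀ ≤ B → ∃ L₀ : ℝ, ∀ Cind : ℝ, 1 ≤ Cind → ∀ L₁ : ℝ, L₀ ≤ L₁ →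
    GeoWith n (W.wJB J' Bp) ⟨p, σ, a, Cind⟩ κ v₀ L₁ B cg Cgeo → PlateWith n (W.wJB J' Bp) ⟨p, σ, a, Cind⟩ κ v₀ L₁ B c₀ Cp →
      ClusterWith n (W.wJB J' Bp) ⟨p, σ, a, Cind⟩ κ v₀ L₁ B ⟨flCw n, 1, 1, 0, 0, 0, 0⟩ Ja u C10 C11 C₁ cth Ck cM

/-- the constants of FL-D -/
structure FldCon where
  /-- `W.K.R` -/
  KR : ℝ
  /-- `W.K.Rω` -/
  Rω : ℝ
  u : ℝ
  Ja : ℕ
  C10 : ℝ
  C11 : ℝ
  C₁ : ℝ
  cth : ℝ
  Ck : ℝ
  cM : ℝ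
  cg : ℝ
  Cgeo : ℝ
  Cf : ℝ
  Cfl : ℝ
  /-- `L^{-Cl} ≤ λ` -/
  Cl : ℝ
  cs : ℝ
  P : ℕ
  CB : ℝ

namespace FldCon

variable (Γ : FldCon)

/-- `Nτ` -/
noncomputable def Nt (X L : ℝ) : ℕ := ⌈Γ.KR * (L / flH Γ.C10 X L) ^ 2⌉₊ + 2

/-- the constant `Kt` of the tuple bound -/
noncomputable def Kt (n : ℕ) (X : ℝ) : ℝ :=
  fldKt n Γ.P Γ.Cf Γ.Cfl (Real.sqrt n * wdR X Γ.u Γ.Ja ^ 4 * fldQt n Γ.Rω (flCw n) (wdR X Γ.u Γ.Ja))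

/-- the number of types -/
noncomputable def NT (n : ℕ) (X L : ℝ) : ℝ := fldNT n Γ.Rω (wdR X Γ.u Γ.Ja) (flNc Γ.C11 X) (Γ.Nt X L)

/-- `λ/a = (number of bins)(number of colours)/cth` -/
noncomputable def ra (n : ℕ) (X : ℝ) : ℝ := whNb n Γ.Rω (wdR X Γ.u Γ.Ja) * (flNc Γ.C11 X : ℝ) / Γ.cth

end FldCon

/-- **the numerical inequalities of FL-D at `(B, L, D)`**, `X = B D`, `R = wdR X u Ja`, `h = flH C10 X L` -/
structure FldGlob (n : ℕ) (Γ : FldCon) (B L D : ℝ) : Prop where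
  loc : ∀ lam : ℝ, L ^ (-Γ.Cl) ≤ lam → FldLoc n Γ.KR Γ.Rω Γ.C₁ (flCw n) Γ.Cf Γ.Cfl (flC3 n) (flC3 n) Γ.P L (wdR (B * D) Γ.u Γ.Ja) (flH Γ.C10 (B * D) L)
    (flTh n Γ.cth Γ.Rω (wdR (B * D) Γ.u Γ.Ja) lam / (flNc Γ.C11 (B * D) : ℝ)) (flNc Γ.C11 (B * D)) (Γ.Nt (B * D) L)
  rng : B ≤ D → (L / flH Γ.C10 (B * D) L) ^ (1 / (2 * Γ.C10)) ≤ D ∧ D ≤ L / flH Γ.C10 (B * D) L
  /-- the discarded types -/
  disc : (B * D) ^ Γ.Ck * (Γ.NT n (B * D) L * flH Γ.C10 (B * D) L ^ (2 * (n : ℝ) - flC3 n)) ≤ Γ.cM / 2 * (Γ.cg * L ^ (2 * (n : ℝ)) * (B * D) ^ (-Γ.Cgeo))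
  /-- `D ≥ B`: weighted budget + tiny types -/
  mainA : B ≤ D → 2 / Γ.cM * Γ.ra n (B * D) ^ 2 * (Γ.Kt n (B * D) * flH Γ.C10 (B * D) L ^ (2 * (n : ℝ) / ((n : ℝ) + 1)) *
      ((n : ℝ) * (2 * (Real.sqrt n + 2) + 1) * whNb n Γ.Rω (wdR (B * D) Γ.u Γ.Ja) ^ (n - 1) * (2 * Γ.Cfl * (L / flH Γ.C10 (B * D) L) ^ (2 * (n : ℝ) / ((n : ℝ) + 1)) * D ^ (-Γ.cs))
        + (B * D) ^ Γ.Ck * (Γ.NT n (B * D) L * ((n : ℝ) * fldE1 n Γ.Cfl (L / flH Γ.C10 (B * D) L) * ((1 / 2 : ℝ) ^ (flNc Γ.C11 (B * D) - 1)) ^ (bet n / (n : ℝ))))))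
      ≤ Γ.CB * L ^ (2 * (n : ℝ) / ((n : ℝ) + 1)) * D ^ (-(Γ.cs / 2))
  /-- `D < B`: everything is bounded in terms of `B` -/
  mainB : D < B → 2 / Γ.cM * Γ.ra n (B * D) ^ 2 * (Γ.Kt n (B * D) * flH Γ.C10 (B * D) L ^ (2 * (n : ℝ) / ((n : ℝ) + 1)) *
      ((B * D) ^ Γ.Ck * (Γ.NT n (B * D) L * ((n : ℝ) * fldE1 n Γ.Cfl (L / flH Γ.C10 (B * D) L)))))
      ≤ Γ.CB * L ^ (2 * (n : ℝ) / ((n : ℝ) + 1)) * D ^ (-(Γ.cs / 2))

/-- **L-FLD-F1** (~40 l.)  the level is not too small: `χ > L^{-v₀}`, `g ≥ 1/D > L^{-κ}`. -/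
theorem fld_lev {W : WCon} {X : WExp} {κ v₀ L₀ : ℝ} {A : Arr n ι} {s : Finset ι} {c : ι → ℂ} {μ : Measure (ST n)} {m χ g D : ℝ}
    (h : Act n W X κ v₀ L₀ A s c μ m χ g D) (ha : 0 ≤ X.a) : A.L ^ (-(X.a * v₀ + κ + eex n)) ≤ wlev n X.a χ g A.L := by
  have hL1 : 1 ≤ A.L := h.cls.one_le
  have hL0 : 0 < A.L := by linarith
  have h1 : A.L ^ (-(X.a * v₀)) ≤ χ ^ X.a := by
    have : (A.L ^ (-v₀)) ^ X.a ≤ χ ^ X.a := Real.rpow_le_rpow (Real.rpow_nonneg hL0.le _) h.hχ.le ha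
    rwa [← Real.rpow_mul hL0.le, show -v₀ * X.a = -(X.a * v₀) by ring] at this
  have h2 : A.L ^ (-κ) ≤ g := by
    refine le_trans ?_ h.hg
    rw [Real.rpow_neg hL0.le, ← one_div]
    exact one_div_le_one_div_of_le (by linarith [h.hD1]) h.hDκ.le
  unfold wlev
  have e : A.L ^ (-(X.a * v₀ + κ + eex n)) = A.L ^ (-(X.a * v₀)) * A.L ^ (-κ) * A.L ^ (-eex n) := by
    rw [← Real.rpow_add hL0, ← Real.rpow_add hL0]
    congr 1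
    ring
  rw [e]
  exact mul_le_mul_of_nonneg_right (mul_le_mul h1 h2 (Real.rpow_nonneg hL0.le _)
    (le_trans (Real.rpow_nonneg hL0.le _) h1)) (Real.rpow_nonneg hL0.le _)

/-- auxiliary to `fld_final`: the sum over the clusters in abstract real form -/
theorem fld_final_sum {J : Type} (I : Finset J) (z e : J → ℝ) (a2 K c12 T2 Dd Nk cM MY : ℝ)
    (ha2 : 0 ≤ a2) (hK : 0 ≤ K) (hc12 : 0 ≤ c12) (hT2 : 0 ≤ T2) (hDd : 0 ≤ Dd)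
    (h1 : ∀ κ ∈ I, a2 * z κ ≤ K * (c12 * e κ + T2) + a2 * Dd)
    (he : ∑ κ ∈ I, e κ ≤ 1) (hcard : (I.card : ℝ) ≤ Nk) (hmass : cM * MY ≤ ∑ κ ∈ I, z κ) (hdisc : Nk * Dd ≤ cM / 2 * MY) :
    a2 * (cM / 2 * MY) ≤ K * (c12 + Nk * T2) := by
  have h2 : a2 * ∑ κ ∈ I, z κ ≤ K * (c12 * ∑ κ ∈ I, e κ + I.card * T2) + a2 * (I.card * Dd) := by
    rw [Finset.mul_sum]
    refine (Finset.sum_le_sum h1).trans (le_of_eq ?_)
    rw [Finset.sum_add_distrib, ← Finset.mul_sum, Finset.sum_add_distrib, ← Finset.mul_sum, Finset.sum_const, Finset.sum_const, nsmul_eq_mul, nsmul_eq_mul]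
    ring
  have h3 : a2 * (cM * MY) ≤ a2 * ∑ κ ∈ I, z κ := mul_le_mul_of_nonneg_left hmass ha2
  have h4 : c12 * ∑ κ ∈ I, e κ ≤ c12 * 1 := mul_le_mul_of_nonneg_left he hc12
  have h5 : (I.card : ℝ) * T2 ≤ Nk * T2 := mul_le_mul_of_nonneg_right hcard hT2
  have h6 : (I.card : ℝ) * Dd ≤ Nk * Dd := mul_le_mul_of_nonneg_right hcard hDd
  have h7 : K * (c12 * ∑ κ ∈ I, e κ + I.card * T2) ≤ K * (c12 + Nk * T2) := mul_le_mul_of_nonneg_left (by linarith) hK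
  have h8 : a2 * (I.card * Dd) ≤ a2 * (cM / 2 * MY) := mul_le_mul_of_nonneg_left (h6.trans hdisc) ha2
  have h9 : a2 * (cM * MY) = 2 * (a2 * (cM / 2 * MY)) := by ring
  linarith

/-- **L-FLD-F2** (~400 l.)  **THE SUM OVER THE CLUSTERS.**   Data from `hClu`;  `fld_cluster` for every `κ ∈ I` (`s' = (Cl κ).s`: `ww_In_mono`, `ww_energy_mono`, `TubeMom` is monotone, `μ Z ≠ ⊤` from `ww_total`);   `a = th/Nc`, `λ = Γ.ra · a`;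
`cM M_Y ≤ ∑ μ Z_κ`;   `∑_κ energy (Cl κ).s ≤ energy s = 1` (disjoint subsets: `Finset.sum_biUnion`/`Finset.sum_le_sum_of_subset`), `|I| ≤ X^{Ck}`;
`a² |I| NT m h^{2n-c4} ≤ a² (cM/2) M_Y` by `FldGlob.disc` and `hGeo`;   so `a² (cM/2) M_Y ≤ Kt m χ^{1-β} h^q […]`;   multiply by `(2/cM) Γ.ra²`: `FldGlob.mainA` (if `B ≤ D`, with `FldGlob.rng`), `FldGlob.mainB` (if `D < B`);   back to `ℝ≥0∞`. -/
theorem fld_final (k : ℕ) (hk : 1 ≤ k) (W : WCon) (X : WExp) (κ v₀ L₀ B : ℝ) (Γ : FldCon) (N : ℕ) (bb : ℝ)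
    (hKR : Γ.KR = W.K.R) (hRω : Γ.Rω = W.K.Rω) (hRω0 : 0 ≤ W.K.Rω) (ha : 0 ≤ X.a) (hCl : Γ.Cl = X.a * v₀ + κ + eex (k + 1)) (hcM : 0 < Γ.cM) (hcth : 0 < Γ.cth) (hB : 1 ≤ B)
    (hClu : ClusterWith (k + 1) W X κ v₀ L₀ B ⟨flCw (k + 1), 1, 1, 0, 0, 0, 0⟩ Γ.Ja Γ.u Γ.C10 Γ.C11 Γ.C₁ Γ.cth Γ.Ck Γ.cM)
    (hGeo : GeoWith (k + 1) W X κ v₀ L₀ B Γ.cg Γ.Cgeo)
    (hFl : FlattenWith (k + 1) W (flCls (k + 1) N bb W.K.Rω) Γ.P Γ.cs (1 / (2 * Γ.C10)) Γ.Cfl)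
    (hF : FlatFrameWith k (flC3 (k + 1)) (flCls (k + 1) N bb W.K.Rω) (Real.sqrt (k + 1 : ℕ) + 2) (Γ.C₁ + Real.sqrt (k + 1 : ℕ)) Γ.P Γ.Cf)
    (hnum : ∀ L D : ℝ, L₀ < L → 1 ≤ D → D < L ^ κ → FldGlob (k + 1) Γ B L D) :
    FinalWith (k + 1) W X κ v₀ L₀ Γ.cs Γ.CB := by
  classical
  intro ι A s c μ m χ g D hAct
  have hGl := hnum A.L D hAct.hL hAct.hD1 hAct.hDκ
  have hlev : A.L ^ (-Γ.Cl) ≤ wlev (k + 1) X.a χ g A.L := by rw [hCl]; exact fld_lev hAct ha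
  obtain ⟨I, Cl, hO⟩ := hClu ι A s c μ m χ g D hAct
  have hGeo' := hGeo ι A s c μ m χ g D hAct
  have hloc := hGl.loc _ hlev
  have hdisc := hGl.disc
  have hmA := hGl.mainA
  have hmB := hGl.mainB
  have hrng := hGl.rng
  rw [hKR, hRω] at hloc
  simp only [FldCon.NT, hRω] at hdisc
  simp only [FldCon.Kt, FldCon.NT, FldCon.ra, hRω, Nat.add_sub_cancel] at hmA
  simp only [FldCon.Kt, FldCon.NT, FldCon.ra, hRω] at hmB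
  show ENNReal.ofReal (wlev (k + 1) X.a χ g A.L ^ 2) * μ (wset A s c (wlev (k + 1) X.a χ g A.L)) ≤
      ENNReal.ofReal (Γ.CB * m * χ ^ (1 - bet (k + 1)) * A.L ^ (2 * ((k + 1 : ℕ) : ℝ) / (((k + 1 : ℕ) : ℝ) + 1)) * D ^ (-(Γ.cs / 2)))
  generalize hlam : wlev (k + 1) X.a χ g A.L = lam at *
  generalize hY : wset A s c lam = Y at *
  generalize hNτ : Γ.Nt (B * D) A.L = Nτ at *
  generalize hR : wdR (B * D) Γ.u Γ.Ja = R at *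
  generalize hh : flH Γ.C10 (B * D) A.L = h at *
  generalize hNc : flNc Γ.C11 (B * D) = Nc at *
  generalize hq : 2 * ((k + 1 : ℕ) : ℝ) / (((k + 1 : ℕ) : ℝ) + 1) = q at *
  generalize hKt : fldKt (k + 1) Γ.P Γ.Cf Γ.Cfl (Real.sqrt ((k + 1 : ℕ) : ℝ) * R ^ 4 * fldQt (k + 1) W.K.Rω (flCw (k + 1)) R) = Kt at *
  have hL1 : 1 ≤ A.L := hAct.cls.one_le
  have hL0 : 0 < A.L := by linarith
  have hR1 := hloc.R1
  have hR0 : 0 < R := by linarith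
  have hh1 := hloc.h1
  have hh0 : 0 < h := by linarith
  have hm := hAct.hm
  have hχ : 0 < χ := lt_trans (Real.rpow_pos_of_pos hL0 _) hAct.hχ
  have hD1 := hAct.hD1
  have hD0 : 0 < D := by linarith
  have hB0 : 0 < B := by linarith
  have hX0 : 0 < B * D := by positivity
  have hCfl0 : 0 < Γ.Cfl := by linarith [hloc.Cfl1]
  have hCw0 := hloc.Cw0
  have hNc0 : (0 : ℝ) < Nc := by exact_mod_cast hloc.Nc1
  have hNb0 : 0 < whNb (k + 1) W.K.Rω R := by unfold whNb; positivity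
  have hNT0 : 0 ≤ fldNT (k + 1) W.K.Rω R Nc Nτ := by unfold fldNT; positivity
  have hE10 : 0 ≤ fldE1 (k + 1) Γ.Cfl (A.L / h) := by unfold fldE1; positivity
  have hKt0 : 0 ≤ Kt := by
    rw [← hKt]
    unfold fldKt
    have hQ : 0 ≤ fldQt (k + 1) W.K.Rω (flCw (k + 1)) R := by unfold fldQt; positivity
    have hCf0 := hloc.Cf0
    apply mul_nonneg <;> apply Real.rpow_nonneg <;> positivity
  have hfinU : μ univ ≠ ⊤ := ne_top_of_le_ne_top ENNReal.ofReal_ne_top (ww_total hL1 hAct.adm)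
  have hfin : ∀ Z : Set (ST (k + 1)), μ Z ≠ ⊤ := fun Z => ne_top_of_le_ne_top hfinU (measure_mono (subset_univ _))
  have hMY0 : 0 ≤ (μ Y).toReal := ENNReal.toReal_nonneg
  have hmass : Γ.cM * (μ Y).toReal ≤ ∑ κ' ∈ I, (μ (Cl κ').Z).toReal := by
    have h1 := ENNReal.toReal_mono (ENNReal.sum_ne_top.2 fun κ' _ => hfin _) hO.mass
    rw [ENNReal.toReal_mul, ENNReal.toReal_ofReal hcM.le, ENNReal.toReal_sum (fun κ' _ => hfin _)] at h1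
    exact h1
  have hgeo : Γ.cg * m * A.L ^ (2 * ((k + 1 : ℕ) : ℝ)) * (B * D) ^ (-Γ.Cgeo) ≤ (μ Y).toReal :=
    (ENNReal.ofReal_le_iff_le_toReal (hfin Y)).1 hGeo'
  have hen : ∑ κ' ∈ I, energy (Cl κ').s c ≤ 1 := by
    have h1 : ∑ κ' ∈ I, energy (Cl κ').s c = energy (I.biUnion fun κ' => (Cl κ').s) c := by
      unfold energy
      rw [Finset.sum_biUnion]
      intro a ha b hb hab
      exact hO.disj a ha b hb hab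
    rw [h1, ← hAct.en]
    exact ww_energy_mono c (Finset.biUnion_subset.2 hO.sub)
  have hcl := fun κ' (hκ' : κ' ∈ I) => fld_cluster k hk W N bb Γ.P Γ.cs (1 / (2 * Γ.C10)) Γ.Cfl (flC3 (k + 1)) (flC3 (k + 1)) Γ.C₁ (flCw (k + 1)) 1 1 Γ.Cf hF hFl
    A (Cl κ').s c μ m χ D R h (flTh (k + 1) Γ.cth W.K.Rω R lam) Nc Nτ hloc hRω0 (ww_In_mono hAct.cls (hO.sub κ' hκ')) (fun α hα => hAct.tc0 α (hO.sub κ' hκ' hα))
    ((ww_energy_mono c (hO.sub κ' hκ')).trans hAct.en.le) hm hχ hD1 hAct.adm.grow hAct.adm.slab hAct.adm.dens (fun α hα => hAct.adm.mom α (hO.sub κ' hκ' hα))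
    (Cl κ').e (Cl κ').b (hO.unit κ' hκ') (hO.hb κ' hκ') (hO.flat κ' hκ') (Cl κ').Z (hO.meas κ' hκ') (hfin _) (hO.broad κ' hκ')
  simp only [hq, hKt] at hcl
  have hla : lam = whNb (k + 1) W.K.Rω R * Nc / Γ.cth * (flTh (k + 1) Γ.cth W.K.Rω R lam / Nc) := by
    unfold flTh
    field_simp
  generalize flTh (k + 1) Γ.cth W.K.Rω R lam / Nc = a at hla hcl
  generalize whNb (k + 1) W.K.Rω R * Nc / Γ.cth = ra at hla hmA hmB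
  generalize hMY : (μ Y).toReal = MY at hMY0 hmass hgeo
  have hdisc' : (B * D) ^ Γ.Ck * (fldNT (k + 1) W.K.Rω R Nc Nτ * (m * h ^ (2 * ((k + 1 : ℕ) : ℝ) - flC3 (k + 1)))) ≤ Γ.cM / 2 * MY := by
    calc (B * D) ^ Γ.Ck * (fldNT (k + 1) W.K.Rω R Nc Nτ * (m * h ^ (2 * ((k + 1 : ℕ) : ℝ) - flC3 (k + 1))))
        = m * ((B * D) ^ Γ.Ck * (fldNT (k + 1) W.K.Rω R Nc Nτ * h ^ (2 * ((k + 1 : ℕ) : ℝ) - flC3 (k + 1)))) := by ring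
      _ ≤ m * (Γ.cM / 2 * (Γ.cg * A.L ^ (2 * ((k + 1 : ℕ) : ℝ)) * (B * D) ^ (-Γ.Cgeo))) := mul_le_mul_of_nonneg_left hdisc hm.le
      _ = Γ.cM / 2 * (Γ.cg * m * A.L ^ (2 * ((k + 1 : ℕ) : ℝ)) * (B * D) ^ (-Γ.Cgeo)) := by ring
      _ ≤ Γ.cM / 2 * MY := mul_le_mul_of_nonneg_left hgeo (by positivity)
  have hfinal : lam ^ 2 * MY ≤ Γ.CB * m * χ ^ (1 - bet (k + 1)) * A.L ^ q * D ^ (-(Γ.cs / 2)) := by
    have e1 : lam ^ 2 * MY = 2 / Γ.cM * ra ^ 2 * (a ^ 2 * (Γ.cM / 2 * MY)) := by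
      rw [hla]
      field_simp
    rw [e1]
    rcases le_or_gt B D with hBD | hBD
    · obtain ⟨r1, r2⟩ := hrng hBD
      have key := fld_final_sum I (fun κ' => (μ (Cl κ').Z).toReal) (fun κ' => energy (Cl κ').s c) (a ^ 2) (Kt * m * χ ^ (1 - bet (k + 1)) * h ^ q)
        (((k + 1 : ℕ) : ℝ) * (2 * (Real.sqrt ((k + 1 : ℕ) : ℝ) + 2) + 1) * whNb (k + 1) W.K.Rω R ^ k * (2 * Γ.Cfl * (A.L / h) ^ q * D ^ (-Γ.cs)))
        (fldNT (k + 1) W.K.Rω R Nc Nτ * (((k + 1 : ℕ) : ℝ) * fldE1 (k + 1) Γ.Cfl (A.L / h) * ((1 / 2 : ℝ) ^ (Nc - 1)) ^ (bet (k + 1) / ((k + 1 : ℕ) : ℝ))))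
        (fldNT (k + 1) W.K.Rω R Nc Nτ * (m * h ^ (2 * ((k + 1 : ℕ) : ℝ) - flC3 (k + 1)))) ((B * D) ^ Γ.Ck) Γ.cM MY
        (sq_nonneg _) (by positivity) (by positivity) (by positivity) (by positivity)
        (fun κ' hκ' => ((hcl κ' hκ').1 r1 r2).trans (le_of_eq (by ring))) hen hO.card hmass hdisc'
      have hA := hmA hBD
      calc 2 / Γ.cM * ra ^ 2 * (a ^ 2 * (Γ.cM / 2 * MY))
          ≤ 2 / Γ.cM * ra ^ 2 * (Kt * m * χ ^ (1 - bet (k + 1)) * h ^ q *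
            (((k + 1 : ℕ) : ℝ) * (2 * (Real.sqrt ((k + 1 : ℕ) : ℝ) + 2) + 1) * whNb (k + 1) W.K.Rω R ^ k * (2 * Γ.Cfl * (A.L / h) ^ q * D ^ (-Γ.cs))
              + (B * D) ^ Γ.Ck * (fldNT (k + 1) W.K.Rω R Nc Nτ * (((k + 1 : ℕ) : ℝ) * fldE1 (k + 1) Γ.Cfl (A.L / h) * ((1 / 2 : ℝ) ^ (Nc - 1)) ^ (bet (k + 1) / ((k + 1 : ℕ) : ℝ)))))) :=
            mul_le_mul_of_nonneg_left key (by positivity)
        _ = m * χ ^ (1 - bet (k + 1)) * (2 / Γ.cM * ra ^ 2 * (Kt * h ^ q *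
            (((k + 1 : ℕ) : ℝ) * (2 * (Real.sqrt ((k + 1 : ℕ) : ℝ) + 2) + 1) * whNb (k + 1) W.K.Rω R ^ k * (2 * Γ.Cfl * (A.L / h) ^ q * D ^ (-Γ.cs))
              + (B * D) ^ Γ.Ck * (fldNT (k + 1) W.K.Rω R Nc Nτ * (((k + 1 : ℕ) : ℝ) * fldE1 (k + 1) Γ.Cfl (A.L / h) * ((1 / 2 : ℝ) ^ (Nc - 1)) ^ (bet (k + 1) / ((k + 1 : ℕ) : ℝ))))))) := by ring
        _ ≤ m * χ ^ (1 - bet (k + 1)) * (Γ.CB * A.L ^ q * D ^ (-(Γ.cs / 2))) := mul_le_mul_of_nonneg_left hA (by positivity)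
        _ = Γ.CB * m * χ ^ (1 - bet (k + 1)) * A.L ^ q * D ^ (-(Γ.cs / 2)) := by ring
    · have key := fld_final_sum I (fun κ' => (μ (Cl κ').Z).toReal) (fun κ' => energy (Cl κ').s c) (a ^ 2) (Kt * m * χ ^ (1 - bet (k + 1)) * h ^ q)
        0 (fldNT (k + 1) W.K.Rω R Nc Nτ * (((k + 1 : ℕ) : ℝ) * fldE1 (k + 1) Γ.Cfl (A.L / h)))
        (fldNT (k + 1) W.K.Rω R Nc Nτ * (m * h ^ (2 * ((k + 1 : ℕ) : ℝ) - flC3 (k + 1)))) ((B * D) ^ Γ.Ck) Γ.cM MY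
        (sq_nonneg _) (by positivity) le_rfl (by positivity) (by positivity)
        (fun κ' hκ' => ((hcl κ' hκ').2).trans (le_of_eq (by ring))) hen hO.card hmass hdisc'
      have hB' := hmB hBD
      calc 2 / Γ.cM * ra ^ 2 * (a ^ 2 * (Γ.cM / 2 * MY))
          ≤ 2 / Γ.cM * ra ^ 2 * (Kt * m * χ ^ (1 - bet (k + 1)) * h ^ q *
            (0 + (B * D) ^ Γ.Ck * (fldNT (k + 1) W.K.Rω R Nc Nτ * (((k + 1 : ℕ) : ℝ) * fldE1 (k + 1) Γ.Cfl (A.L / h))))) :=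
            mul_le_mul_of_nonneg_left key (by positivity)
        _ = m * χ ^ (1 - bet (k + 1)) * (2 / Γ.cM * ra ^ 2 * (Kt * h ^ q *
            ((B * D) ^ Γ.Ck * (fldNT (k + 1) W.K.Rω R Nc Nτ * (((k + 1 : ℕ) : ℝ) * fldE1 (k + 1) Γ.Cfl (A.L / h)))))) := by ring
        _ ≤ m * χ ^ (1 - bet (k + 1)) * (Γ.CB * A.L ^ q * D ^ (-(Γ.cs / 2))) := mul_le_mul_of_nonneg_left hB' (by positivity)
        _ = Γ.CB * m * χ ^ (1 - bet (k + 1)) * A.L ^ q * D ^ (-(Γ.cs / 2)) := by ring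
  rw [← ENNReal.ofReal_toReal (hfin Y), hMY, ← ENNReal.ofReal_mul (sq_nonneg _)]
  exact ENNReal.ofReal_le_ofReal hfinal

/-- **L-FLD-F3** (~40 l.)  `FlatFrameWith` is monotone in the constant -/
theorem fld_frame_mono {k : ℕ} {c : ℝ} {K : Cls} {T₁ C₂ : ℝ} {P : ℕ} {C C' : ℝ} (h : FlatFrameWith k c K T₁ C₂ P C) (hC : C ≤ C') (hC' : 0 ≤ C') :
    FlatFrameWith k c K T₁ C₂ P C' := by
  intro ι A s cf h' Q ρ a e β₀ τ₀ Y wz hL hIn htc he hβ hflat hQ htr hρ hρh ha hY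
  have hρ0 : 0 ≤ ρ := by linarith
  have h1 := h ι A s cf h' Q ρ a e β₀ τ₀ Y wz hL hIn htc he hβ hflat hQ htr hρ
    ((mul_le_mul_of_nonneg_right hC hρ0).trans hρh) ha hY
  refine h1.trans ?_
  have hh0 : 0 ≤ h' := (mul_nonneg hC' hρ0).trans hρh
  have ha0 : ∀ i, 0 ≤ a i := fun i => (Real.rpow_nonneg hh0 c).trans (ha i)
  have hX : 0 ≤ (∏ i, a i) ^ (-(4 / ((k : ℝ) * ((k : ℝ) + 1)))) :=
    Real.rpow_nonneg (Finset.prod_nonneg fun i _ => ha0 i) _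
  have hYs : 0 ≤ ∑ i, h' ^ 2 * energy (s i) (cf i) / a i ^ 2 :=
    Finset.sum_nonneg fun i _ => div_nonneg (mul_nonneg (sq_nonneg _)
      (Finset.sum_nonneg fun _ _ => sq_nonneg _)) (sq_nonneg _)
  have hρQ : 1 ≤ ρ * Q := one_le_mul_of_one_le_of_one_le hρ hQ
  have h2 : C * (ρ * Q) ^ C ≤ C' * (ρ * Q) ^ C' := by
    rcases le_total 0 C with h0 | h0
    · exact mul_le_mul hC (Real.rpow_le_rpow_of_exponent_le hρQ hC) (Real.rpow_nonneg (by linarith) _) hC'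
    · exact (mul_nonpos_of_nonpos_of_nonneg h0 (Real.rpow_nonneg (by linarith) _)).trans
        (mul_nonneg hC' (Real.rpow_nonneg (by linarith) _))
  exact mul_le_mul_of_nonneg_right (mul_le_mul_of_nonneg_right h2 hX) hYs

/-- **L-FLD-F4** (~80 l.)  `FlattenWith` is monotone in the constant and in the derivative order of the class of the input -/
theorem fld_flatten_mono {W : WCon} {Kf : Cls} {P : ℕ} {cs τ C C' Bp : ℝ} {J J' : ℕ} (h : FlattenWith n (W.wJB J Bp) Kf P cs τ C) (hJ : J ≤ J') (hC : C ≤ C') (hC' : 0 ≤ C') :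
    FlattenWith n (W.wJB J' Bp) Kf P cs τ C' := by
  intro ι A s' c μ m D h' hIn htc hm hD hh hCh hG hS hT
  have hIn' : A.In s' (W.wJB J Bp).K :=
    ⟨hIn.one_le, fun α hα => ⟨(hIn.prof α hα).smooth, (hIn.prof α hα).supp,
      fun j hj z => (hIn.prof α hα).bound j (hj.trans hJ) z⟩, hIn.freq, hIn.mult⟩
  have hh0 : 0 < h' := by linarith
  obtain ⟨pf, cf, Pk, hO⟩ := h ι A s' c μ m D h' hIn' htc hm hD hh
    ((mul_le_mul_of_nonneg_right hC hh0.le).trans hCh) hG hS hT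
  have hL0 : 0 < A.L := lt_of_lt_of_le one_pos hIn.one_le
  have hEn : 0 ≤ energy s' c := Finset.sum_nonneg fun _ _ => sq_nonneg _
  have hLh : 0 ≤ A.L / h' := (div_pos hL0 hh0).le
  have hD0 : 0 ≤ D := by linarith
  refine ⟨pf, cf, Pk, hO.cls, hO.fld, hO.occ, fun j => (hO.crude j).trans ?_,
    fun p hp => (hO.dmax p hp).trans (ENNReal.ofReal_le_ofReal ?_),
    fun h1 h2 => (hO.weighted h1 h2).trans (ENNReal.ofReal_le_ofReal ?_)⟩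
  · exact mul_le_mul_of_nonneg_right (mul_le_mul_of_nonneg_right hC (pow_nonneg hLh _)) hEn
  · exact mul_le_mul_of_nonneg_right (mul_le_mul_of_nonneg_right hC hm) (pow_nonneg hh0.le _)
  · exact mul_le_mul_of_nonneg_right (mul_le_mul_of_nonneg_right (mul_le_mul_of_nonneg_right
      (mul_le_mul_of_nonneg_right hC (Real.rpow_nonneg (mul_nonneg hm (pow_nonneg hh0.le _)) _))
      (Real.rpow_nonneg hLh _)) (Real.rpow_nonneg hD0 _)) hEn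

end Claimed.Agent.R257
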