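import Claimed.Agent.R257.Fl.D4

/-!
# R257 / Fl / D5 : THE NUMERICS OF FL-D            (contract helper263; owner: see the subtask FL-D-NUM)

`fld_num`: choice of `u, C11, κ₀, B₀, L₀, CB` such that `FldGlob` (`Fl/D4.lean`) holds in the active range.   PURE REAL ARITHMETIC.   Auxiliary lemmas (prefix `fldn_`) go ABOVE the theorem in this file.
-/

set_option autoImplicit false

namespace Claimed.Agent.R257

open MeasureTheory Metric Set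
open scoped ENNReal InnerProductSpace

/-! ### CUT (helper147).      Everything is a function of `X = B D ≥ 1` (after `L / flH C10 X L = X^{C10}`: `fldn_Lh`).
* s0  CALCULUS `FldPB E F`: `0 ≤ F X ≤ K X^E` for `X ≥ 1` (the EXPONENT `E` is explicit, the constant `K` is existential); `FldPB.absorb`: `F X ≤ L^δ` if `X ≤ L^{2κ}`, `4 κ E ≤ δ`, `L ≥ L₁`.
* s1  the basic quantities `R, Nb, Nc, (1/2)^{Nc-1}, Nτ, Kt, E₁, NT, ra` are `FldPB` with explicit exponents.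
* s2  the five fields of `FldGlob` in raw form: `fldn_loc`, `fldn_rng`, `fldn_disc`, `fldn_mainA`, `fldn_mainB`;   `fld_num` is the glue. -/

/-! ## 0. The calculus -/

/-- `F` is nonnegative and `≤ K X^E` on `X ≥ 1` -/
def FldPB (E : ℝ) (F : ℝ → ℝ) : Prop := ∃ K : ℝ, 0 ≤ K ∧ ∀ X : ℝ, 1 ≤ X → 0 ≤ F X ∧ F X ≤ K * X ^ E

theorem fldPB_const {c : ℝ} (hc : 0 ≤ c) : FldPB 0 (fun _ => c) :=
  ⟨c, hc, fun X _ => ⟨hc, by rw [Real.rpow_zero, mul_one]⟩⟩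

theorem fldPB_rpow (E : ℝ) : FldPB E (fun X => X ^ E) :=
  ⟨1, zero_le_one, fun X hX => ⟨Real.rpow_nonneg (by linarith) _, by rw [one_mul]⟩⟩

theorem FldPB.mono {E E' : ℝ} {F : ℝ → ℝ} (h : FldPB E F) (hE : E ≤ E') : FldPB E' F := by
  obtain ⟨K, hK, hF⟩ := h
  exact ⟨K, hK, fun X hX => ⟨(hF X hX).1, (hF X hX).2.trans (mul_le_mul_of_nonneg_left (Real.rpow_le_rpow_of_exponent_le hX hE) hK)⟩⟩

theorem FldPB.of_le {E : ℝ} {F G : ℝ → ℝ} (h : FldPB E F) (hG : ∀ X : ℝ, 1 ≤ X → 0 ≤ G X ∧ G X ≤ F X) : FldPB E G := by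
  obtain ⟨K, hK, hF⟩ := h
  exact ⟨K, hK, fun X hX => ⟨(hG X hX).1, (hG X hX).2.trans (hF X hX).2⟩⟩

theorem FldPB.mul {E E' : ℝ} {F G : ℝ → ℝ} (h : FldPB E F) (h' : FldPB E' G) : FldPB (E + E') (fun X => F X * G X) := by
  obtain ⟨K, hK, hF⟩ := h
  obtain ⟨K', hK', hG⟩ := h'
  refine ⟨K * K', mul_nonneg hK hK', fun X hX => ⟨mul_nonneg (hF X hX).1 (hG X hX).1, ?_⟩⟩
  have hX0 : 0 < X := by linarith
  calc F X * G X ≤ (K * X ^ E) * (K' * X ^ E') := mul_le_mul (hF X hX).2 (hG X hX).2 (hG X hX).1 (mul_nonneg hK (Real.rpow_nonneg hX0.le _))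
    _ = K * K' * X ^ (E + E') := by
        rw [Real.rpow_add hX0]
        ring

theorem FldPB.add {E : ℝ} {F G : ℝ → ℝ} (h : FldPB E F) (h' : FldPB E G) : FldPB E (fun X => F X + G X) := by
  obtain ⟨K, hK, hF⟩ := h
  obtain ⟨K', hK', hG⟩ := h'
  refine ⟨K + K', add_nonneg hK hK', fun X hX => ⟨add_nonneg (hF X hX).1 (hG X hX).1, ?_⟩⟩
  rw [add_mul]
  exact add_le_add (hF X hX).2 (hG X hX).2

theorem FldPB.const_mul {E : ℝ} {F : ℝ → ℝ} (h : FldPB E F) {c : ℝ} (hc : 0 ≤ c) : FldPB E (fun X => c * F X) := by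
  have := (fldPB_const hc).mul h
  rwa [zero_add] at this

theorem FldPB.mul_const {E : ℝ} {F : ℝ → ℝ} (h : FldPB E F) {c : ℝ} (hc : 0 ≤ c) : FldPB E (fun X => F X * c) := by
  have := h.mul (fldPB_const hc)
  rwa [add_zero] at this

theorem FldPB.div_const {E : ℝ} {F : ℝ → ℝ} (h : FldPB E F) {c : ℝ} (hc : 0 ≤ c) : FldPB E (fun X => F X / c) := by
  simp only [div_eq_mul_inv]
  exact h.mul_const (inv_nonneg.2 hc)

theorem FldPB.add_const {E : ℝ} {F : ℝ → ℝ} (h : FldPB E F) (hE : 0 ≤ E) {c : ℝ} (hc : 0 ≤ c) : FldPB E (fun X => F X + c) :=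
  h.add ((fldPB_const hc).mono hE)

theorem FldPB.rpow {E : ℝ} {F : ℝ → ℝ} (h : FldPB E F) {s : ℝ} (hs : 0 ≤ s) : FldPB (s * E) (fun X => F X ^ s) := by
  obtain ⟨K, hK, hF⟩ := h
  refine ⟨K ^ s, Real.rpow_nonneg hK _, fun X hX => ⟨Real.rpow_nonneg (hF X hX).1 _, ?_⟩⟩
  have hX0 : 0 ≤ X := by linarith
  calc F X ^ s ≤ (K * X ^ E) ^ s := Real.rpow_le_rpow (hF X hX).1 (hF X hX).2 hs
    _ = K ^ s * X ^ (s * E) := by rw [Real.mul_rpow hK (Real.rpow_nonneg hX0 _), ← Real.rpow_mul hX0, mul_comm E s]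

theorem FldPB.pow {E : ℝ} {F : ℝ → ℝ} (h : FldPB E F) (k : ℕ) : FldPB (k * E) (fun X => F X ^ k) := by
  have := h.rpow (Nat.cast_nonneg k)
  simpa only [Real.rpow_natCast] using this

/-- **absorption**: a polynomially bounded function of `X ≤ L^{2κ}` is `≤ L^δ` -/
theorem FldPB.absorb {E : ℝ} {F : ℝ → ℝ} (h : FldPB E F) {δ κ : ℝ} (hδ : 0 < δ) (hE : 4 * κ * E ≤ δ) :
    ∃ L₁ : ℝ, 1 ≤ L₁ ∧ ∀ L X : ℝ, L₁ ≤ L → 1 ≤ X → X ≤ L ^ (2 * κ) → F X ≤ L ^ δ := by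
  obtain ⟨K, hK, hF⟩ := h
  refine ⟨max 1 (K ^ (2 / δ)), le_max_left _ _, fun L X hL hX hXL => ?_⟩
  have hL1 : 1 ≤ L := (le_max_left _ _).trans hL
  have hL0 : 0 < L := by linarith
  have hX0 : 0 < X := by linarith
  have h1 : K ≤ L ^ (δ / 2) := by
    calc K = (K ^ (2 / δ)) ^ (δ / 2) := by
          rw [← Real.rpow_mul hK]
          have : 2 / δ * (δ / 2) = 1 := by field_simp
          rw [this, Real.rpow_one]
      _ ≤ L ^ (δ / 2) := Real.rpow_le_rpow (Real.rpow_nonneg hK _) ((le_max_right _ _).trans hL) (by positivity)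
  have h2 : X ^ E ≤ L ^ (δ / 2) := by
    rcases le_total 0 E with hE0 | hE0
    · calc X ^ E ≤ (L ^ (2 * κ)) ^ E := Real.rpow_le_rpow hX0.le hXL hE0
        _ = L ^ (2 * κ * E) := by rw [← Real.rpow_mul hL0.le]
        _ ≤ L ^ (δ / 2) := Real.rpow_le_rpow_of_exponent_le hL1 (by linarith)
    · calc X ^ E ≤ 1 := Real.rpow_le_one_of_one_le_of_nonpos hX hE0
        _ ≤ L ^ (δ / 2) := Real.one_le_rpow hL1 (by positivity)
  calc F X ≤ K * X ^ E := (hF X hX).2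
    _ ≤ L ^ (δ / 2) * L ^ (δ / 2) := mul_le_mul h1 h2 (Real.rpow_nonneg hX0.le _) (Real.rpow_nonneg hL0.le _)
    _ = L ^ δ := by
        rw [← Real.rpow_add hL0]
        congr 1
        ring


/-! ## 1. The basic quantities -/

theorem fldn_Lh {C10 X L : ℝ} (hX : 0 < X) (hL : 0 < L) : L / flH C10 X L = X ^ C10 := by
  unfold flH
  have := Real.rpow_pos_of_pos hX C10
  field_simp

theorem fldn_h_le {C10 X L : ℝ} (hX : 1 ≤ X) (hC : 0 ≤ C10) (hL : 0 < L) : 0 < flH C10 X L ∧ flH C10 X L ≤ L := by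
  unfold flH
  have h1 : 1 ≤ X ^ C10 := Real.one_le_rpow hX hC
  exact ⟨by positivity, div_le_self hL.le h1⟩

theorem fldn_R_ge {X u : ℝ} (hX : 1 ≤ X) {Ja : ℕ} (hJ : 1 ≤ Ja) : X ^ u ≤ wdR X u Ja := by
  have hX0 : 0 ≤ X := by linarith
  have hJR : (0 : ℝ) < Ja := by exact_mod_cast hJ
  unfold wdR wdK
  calc X ^ u = (X ^ (u / (Ja : ℝ))) ^ Ja := by
        rw [← Real.rpow_natCast (X ^ (u / (Ja : ℝ))), ← Real.rpow_mul hX0, div_mul_cancel₀ _ hJR.ne']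
    _ ≤ _ := pow_le_pow_left₀ (Real.rpow_nonneg hX0 _) (Nat.le_ceil _) _

theorem fldn_R_one {X u : ℝ} (hX : 1 ≤ X) (hu : 0 ≤ u) {Ja : ℕ} (hJ : 1 ≤ Ja) : 1 ≤ wdR X u Ja :=
  (Real.one_le_rpow hX hu).trans (fldn_R_ge hX hJ)

theorem fldn_R {u : ℝ} (hu : 0 ≤ u) {Ja : ℕ} (hJ : 1 ≤ Ja) : FldPB u (fun X => wdR X u Ja) := by
  refine ⟨2 ^ Ja, by positivity, fun X hX => ⟨zero_le_one.trans (fldn_R_one hX hu hJ), ?_⟩⟩
  have hX0 : 0 ≤ X := by linarith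
  have hJR : (0 : ℝ) < Ja := by exact_mod_cast hJ
  have h1 : 1 ≤ X ^ (u / (Ja : ℝ)) := Real.one_le_rpow hX (by positivity)
  have h2 : ((wdK X u Ja : ℕ) : ℝ) ≤ 2 * X ^ (u / (Ja : ℝ)) := by
    have := (Nat.ceil_lt_add_one (show 0 ≤ X ^ (u / (Ja : ℝ)) by linarith)).le
    unfold wdK
    linarith
  unfold wdR
  calc ((wdK X u Ja : ℕ) : ℝ) ^ Ja ≤ (2 * X ^ (u / (Ja : ℝ))) ^ Ja := pow_le_pow_left₀ (Nat.cast_nonneg _) h2 _
    _ = 2 ^ Ja * X ^ u := by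
        rw [mul_pow, ← Real.rpow_natCast (X ^ (u / (Ja : ℝ))), ← Real.rpow_mul hX0, div_mul_cancel₀ _ hJR.ne']

theorem fldn_Nb (n : ℕ) {Rω u : ℝ} (hRω : 0 ≤ Rω) (hu : 0 ≤ u) {Ja : ℕ} (hJ : 1 ≤ Ja) : FldPB (n * u) (fun X => whNb n Rω (wdR X u Ja)) := by
  unfold whNb
  exact (((fldn_R hu hJ).const_mul (c := 2 * Rω) (by positivity)).add_const hu (by norm_num : (0 : ℝ) ≤ 2)).pow n

theorem fldn_Nb_one (n : ℕ) {Rω R : ℝ} (hRω : 0 ≤ Rω) (hR : 0 ≤ R) : 1 ≤ whNb n Rω R := by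
  unfold whNb
  have : 0 ≤ 2 * Rω * R := by positivity
  exact one_le_pow₀ (by linarith)

theorem fldn_Nc_one (C11 X : ℝ) : (1 : ℝ) ≤ (flNc C11 X : ℝ) := by
  unfold flNc
  push_cast
  linarith [Nat.cast_nonneg (α := ℝ) ⌈C11 * Real.logb 2 X⌉₊]

theorem fldn_Nc {C11 : ℝ} (hC : 0 ≤ C11) {ε : ℝ} (hε : 0 < ε) : FldPB ε (fun X => (flNc C11 X : ℝ)) := by
  have hl2 : 0 < Real.log 2 := Real.log_pos one_lt_two
  refine ⟨C11 / (ε * Real.log 2) + 2, by positivity, fun X hX => ⟨Nat.cast_nonneg _, ?_⟩⟩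
  have hX0 : 0 ≤ X := by linarith
  have h1 : 1 ≤ X ^ ε := Real.one_le_rpow hX hε.le
  have hlog0 : 0 ≤ Real.logb 2 X := Real.logb_nonneg one_lt_two hX
  have hlog : Real.logb 2 X ≤ X ^ ε / (ε * Real.log 2) := by
    unfold Real.logb
    rw [← div_div]
    exact div_le_div_of_nonneg_right (Real.log_le_rpow_div hX0 hε) hl2.le
  have h2 : (flNc C11 X : ℝ) ≤ C11 * Real.logb 2 X + 2 := by
    unfold flNc
    push_cast
    linarith [(Nat.ceil_lt_add_one (mul_nonneg hC hlog0)).le]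
  calc (flNc C11 X : ℝ) ≤ C11 * Real.logb 2 X + 2 := h2
    _ ≤ C11 * (X ^ ε / (ε * Real.log 2)) + 2 * X ^ ε := by
        have := mul_le_mul_of_nonneg_left hlog hC
        linarith
    _ = (C11 / (ε * Real.log 2) + 2) * X ^ ε := by ring

theorem fldn_half {C11 : ℝ} : FldPB (-C11) (fun X => (1 / 2 : ℝ) ^ (flNc C11 X - 1)) := by
  refine ⟨1, zero_le_one, fun X hX => ⟨by positivity, ?_⟩⟩
  have hX0 : 0 < X := by linarith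
  have e1 : flNc C11 X - 1 = ⌈C11 * Real.logb 2 X⌉₊ := by
    unfold flNc
    exact Nat.add_sub_cancel _ _
  show (1 / 2 : ℝ) ^ (flNc C11 X - 1) ≤ 1 * X ^ (-C11)
  rw [e1, one_mul]
  calc (1 / 2 : ℝ) ^ ⌈C11 * Real.logb 2 X⌉₊ = (2 : ℝ) ^ (-((⌈C11 * Real.logb 2 X⌉₊ : ℕ) : ℝ)) := by
        rw [Real.rpow_neg (by norm_num), Real.rpow_natCast, one_div, inv_pow]
    _ ≤ (2 : ℝ) ^ (-(C11 * Real.logb 2 X)) := Real.rpow_le_rpow_of_exponent_le one_le_two (neg_le_neg (Nat.le_ceil _))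
    _ = X ^ (-C11) := by
        have : -(C11 * Real.logb 2 X) = Real.logb 2 X * (-C11) := by ring
        rw [this, Real.rpow_mul (by norm_num), Real.rpow_logb (by norm_num) (by norm_num) hX0]

theorem fldn_Nt {KR C10 : ℝ} (hKR : 0 ≤ KR) (hC : 0 ≤ C10) : FldPB (2 * C10) (fun X => ((⌈KR * (X ^ C10) ^ 2⌉₊ + 2 : ℕ) : ℝ)) := by
  have h := ((((fldPB_rpow C10).pow 2).const_mul hKR).mono (E' := 2 * C10) (le_of_eq (by push_cast; ring))).add_const (by positivity) (by norm_num : (0 : ℝ) ≤ 3)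
  refine h.of_le fun X hX => ⟨Nat.cast_nonneg _, ?_⟩
  have hX0 : 0 ≤ X := by linarith
  push_cast
  linarith [(Nat.ceil_lt_add_one (show 0 ≤ KR * (X ^ C10) ^ 2 by positivity)).le]

theorem fldn_bet {n : ℕ} (hn : 2 ≤ n) : 0 < bet n ∧ bet n ≤ 1 := by
  have hn' : (2 : ℝ) ≤ n := by exact_mod_cast hn
  unfold bet
  exact ⟨by positivity, by rw [div_le_one (by linarith)]; linarith⟩

theorem fldn_Kt {n : ℕ} (hn : 2 ≤ n) (P : ℕ) {Cf Cfl Rω Cw u : ℝ} (hCf : 0 ≤ Cf) (hCfl : 0 ≤ Cfl) (hRω : 0 ≤ Rω) (hCw : 0 ≤ Cw) (hu : 0 ≤ u) {Ja : ℕ} (hJ : 1 ≤ Ja) :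
    FldPB (5 * Cf * u) (fun X => fldKt n P Cf Cfl (Real.sqrt n * wdR X u Ja ^ 4 * fldQt n Rω Cw (wdR X u Ja))) := by
  obtain ⟨hb0, hb1⟩ := fldn_bet hn
  have hR := fldn_R hu hJ
  have hQ : FldPB u (fun X => fldQt n Rω Cw (wdR X u Ja)) := by
    unfold fldQt
    simp only [div_div_eq_mul_div]
    exact (hR.const_mul (c := 2 ^ (n + 3) * (1 + (Rω + Real.sqrt n))) (by positivity)).div_const hCw
  have hρ := ((hR.pow 4).const_mul (Real.sqrt_nonneg n)).mul hQ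
  have h1 := ((((hρ.rpow hCf).const_mul hCf).mul_const (c := (n : ℝ) ^ n) (by positivity)).const_mul (c := 2) (by norm_num)).rpow (s := 1 - bet n) (by linarith)
  have h2 := h1.mul_const (c := (2 ^ (P + 1) * (n : ℝ) * Cfl) ^ bet n) (by positivity)
  unfold fldKt
  refine h2.mono ?_
  have h3 : 0 ≤ 5 * Cf * u := by positivity
  have e : (1 - bet n) * (Cf * (((4 : ℕ) : ℝ) * u + u)) = (1 - bet n) * (5 * Cf * u) := by push_cast; ring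
  rw [e]
  nlinarith

theorem fldn_E1 (n : ℕ) {Cfl : ℝ} (hCfl : 0 ≤ Cfl) (C10 : ℝ) : FldPB (n * C10) (fun X => fldE1 n Cfl (X ^ C10)) := by
  unfold fldE1
  exact ((fldPB_rpow C10).pow n).const_mul (by positivity)

theorem fldn_NT (n : ℕ) {KR Rω u C10 C11 ε : ℝ} (hKR : 0 ≤ KR) (hRω : 0 ≤ Rω) (hu : 0 ≤ u) (hC10 : 0 ≤ C10) (hC11 : 0 ≤ C11) (hε : 0 < ε) {Ja : ℕ} (hJ : 1 ≤ Ja) :
    FldPB (2 * C10 + n * (n * u) + n * ε) (fun X => fldNT n Rω (wdR X u Ja) (flNc C11 X) (⌈KR * (X ^ C10) ^ 2⌉₊ + 2)) := by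
  unfold fldNT
  exact ((((fldn_Nt hKR hC10).const_mul (c := 2) (by norm_num)).add_const (by positivity) zero_le_one).mul ((fldn_Nb n hRω hu hJ).pow n)).mul ((fldn_Nc hC11 hε).pow n)

theorem fldn_ra (n : ℕ) {Rω u C11 ε cth : ℝ} (hRω : 0 ≤ Rω) (hu : 0 ≤ u) (hC11 : 0 ≤ C11) (hε : 0 < ε) (hcth : 0 ≤ cth) {Ja : ℕ} (hJ : 1 ≤ Ja) :
    FldPB (n * u + ε) (fun X => whNb n Rω (wdR X u Ja) * (flNc C11 X : ℝ) / cth) :=
  ((fldn_Nb n hRω hu hJ).mul (fldn_Nc hC11 hε)).div_const hcth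


/-! ## 2. The fields of `FldGlob` in raw form -/

theorem fldn_rng {C10 B D L : ℝ} (hC : 1 ≤ C10) (hB : 1 ≤ B) (hD : 1 ≤ D) (hL : 0 < L) (hBD : B ≤ D) :
    (L / flH C10 (B * D) L) ^ (1 / (2 * C10)) ≤ D ∧ D ≤ L / flH C10 (B * D) L := by
  have hX0 : 0 < B * D := by positivity
  have hX1 : 1 ≤ B * D := by nlinarith
  have hD0 : 0 ≤ D := by linarith
  rw [fldn_Lh hX0 hL]
  constructor
  · rw [← Real.rpow_mul hX0.le]
    have e : C10 * (1 / (2 * C10)) = 1 / 2 := by field_simp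
    rw [e]
    calc (B * D) ^ (1 / 2 : ℝ) ≤ (D * D) ^ (1 / 2 : ℝ) := Real.rpow_le_rpow hX0.le (by gcongr) (by norm_num)
      _ = D := by rw [← Real.sqrt_eq_rpow, Real.sqrt_mul_self hD0]
  · calc D ≤ B * D := le_mul_of_one_le_left hD0 hB
      _ = (B * D) ^ (1 : ℝ) := (Real.rpow_one _).symm
      _ ≤ (B * D) ^ C10 := Real.rpow_le_rpow_of_exponent_le hX1 hC

theorem fldn_disc (n : ℕ) {KR Rω u C10 C11 Ck Cgeo c : ℝ} {Ja : ℕ} (hKR : 0 ≤ KR) (hRω : 0 ≤ Rω) (hu : 0 ≤ u) (hJ : 1 ≤ Ja) (hC10 : 0 ≤ C10) (hC11 : 0 ≤ C11)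
    (hCk : 0 ≤ Ck) (hCgeo : 0 ≤ Cgeo) (hc : 0 < c) (hc2 : c ≤ 2 * n) :
    ∃ κ₀ : ℝ, 0 < κ₀ ∧ ∀ κ : ℝ, 0 < κ → κ ≤ κ₀ → ∀ cM cg : ℝ, 0 < cM → 0 < cg → ∃ L₁ : ℝ, 1 ≤ L₁ ∧ ∀ L X : ℝ, L₁ ≤ L → 1 ≤ X → X ≤ L ^ (2 * κ) →
      X ^ Ck * (fldNT n Rω (wdR X u Ja) (flNc C11 X) (⌈KR * (L / flH C10 X L) ^ 2⌉₊ + 2) * flH C10 X L ^ (2 * (n : ℝ) - c))
        ≤ cM / 2 * (cg * L ^ (2 * (n : ℝ)) * X ^ (-Cgeo)) := by
  obtain ⟨E, hE⟩ : ∃ E, E = Ck + Cgeo + (2 * C10 + n * (n * u) + n * 1) := ⟨_, rfl⟩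
  have hE0 : 0 ≤ E := by
    rw [hE]
    positivity
  refine ⟨c / (4 * (E + 1)), by positivity, fun κ hκ hκ' cM cg hcM hcg => ?_⟩
  have hNTpb := fldn_NT n hKR hRω hu hC10 hC11 one_pos hJ
  have hPB : FldPB E (fun X => 2 / (cM * cg) * (X ^ Ck * X ^ Cgeo * fldNT n Rω (wdR X u Ja) (flNc C11 X) (⌈KR * (X ^ C10) ^ 2⌉₊ + 2))) := by
    rw [hE]
    exact (((fldPB_rpow Ck).mul (fldPB_rpow Cgeo)).mul hNTpb).const_mul (by positivity)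
  have h4 : 4 * κ * E ≤ c := by
    have : κ * (4 * (E + 1)) ≤ c := by rwa [le_div_iff₀ (by positivity)] at hκ'
    nlinarith
  obtain ⟨L₁, hL₁, hab⟩ := hPB.absorb hc h4
  refine ⟨L₁, hL₁, fun L X hL hX hXL => ?_⟩
  have hL0 : 0 < L := by linarith
  have hX0 : 0 < X := by linarith
  rw [fldn_Lh hX0 hL0]
  have h1 := hab L X hL hX hXL
  obtain ⟨_, _, hNTn⟩ := hNTpb
  have hNT0 := (hNTn X hX).1
  obtain ⟨NT, hNT⟩ : ∃ NT, NT = fldNT n Rω (wdR X u Ja) (flNc C11 X) (⌈KR * (X ^ C10) ^ 2⌉₊ + 2) := ⟨_, rfl⟩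
  simp only [← hNT] at h1 hNT0 ⊢
  obtain ⟨hh0, hhL⟩ := fldn_h_le hX hC10 hL0
  have h2 : flH C10 X L ^ (2 * (n : ℝ) - c) ≤ L ^ (2 * (n : ℝ) - c) := Real.rpow_le_rpow hh0.le hhL (by linarith)
  have hXk : 0 < X ^ Ck := Real.rpow_pos_of_pos hX0 _
  have hXg : 0 < X ^ Cgeo := Real.rpow_pos_of_pos hX0 _
  have h3 : X ^ Ck * X ^ Cgeo * NT ≤ cM * cg / 2 * L ^ c := by
    have e : 2 / (cM * cg) * (X ^ Ck * X ^ Cgeo * NT) = (X ^ Ck * X ^ Cgeo * NT) / (cM * cg / 2) := by field_simp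
    rw [e, div_le_iff₀ (by positivity)] at h1
    linarith
  calc X ^ Ck * (NT * flH C10 X L ^ (2 * (n : ℝ) - c)) ≤ X ^ Ck * (NT * L ^ (2 * (n : ℝ) - c)) := by gcongr
    _ = (X ^ Ck * X ^ Cgeo * NT) * (L ^ (2 * (n : ℝ) - c) * X ^ (-Cgeo)) := by
        rw [Real.rpow_neg hX0.le]
        field_simp
    _ ≤ (cM * cg / 2 * L ^ c) * (L ^ (2 * (n : ℝ) - c) * X ^ (-Cgeo)) := by
        have : 0 ≤ L ^ (2 * (n : ℝ) - c) * X ^ (-Cgeo) := by positivity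
        gcongr
    _ = cM / 2 * (cg * L ^ (2 * (n : ℝ)) * X ^ (-Cgeo)) := by
        have : L ^ (2 * (n : ℝ)) = L ^ c * L ^ (2 * (n : ℝ) - c) := by
          rw [← Real.rpow_add hL0]
          congr 1
          ring
        rw [this]
        ring

theorem fldn_mainA (n : ℕ) (hn : 2 ≤ n) {KR Rω Cf cs u C10 C11 Ck Cfl cth cM Cw : ℝ} (P : ℕ) {Ja : ℕ} (hKR : 0 ≤ KR) (hRω : 0 ≤ Rω) (hCf : 0 ≤ Cf) (hcs : 0 < cs)
    (hJ : 1 ≤ Ja) (hu : 0 ≤ u) (hC10 : 0 ≤ C10) (hC11 : 0 ≤ C11) (hCfl : 0 ≤ Cfl) (hcth : 0 < cth) (hcM : 0 < cM) (hCw : 0 ≤ Cw)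
    (hu' : u * ((n : ℝ) ^ 2 + n + 5 * Cf) = cs / 8)
    (hC11' : bet n / (n : ℝ) * C11 = u * ((n : ℝ) ^ 2 + 2 * n + 5 * Cf) + Ck + ((n : ℝ) + 2) * C10 + 1 + cs) {B : ℝ} (hB : 1 ≤ B) :
    ∃ CA : ℝ, 0 ≤ CA ∧ ∀ L D : ℝ, 0 < L → 1 ≤ D →
      2 / cM * (whNb n Rω (wdR (B * D) u Ja) * (flNc C11 (B * D) : ℝ) / cth) ^ 2 *
        (fldKt n P Cf Cfl (Real.sqrt n * wdR (B * D) u Ja ^ 4 * fldQt n Rω Cw (wdR (B * D) u Ja)) * flH C10 (B * D) L ^ (2 * (n : ℝ) / ((n : ℝ) + 1)) *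
      ((n : ℝ) * (2 * (Real.sqrt n + 2) + 1) * whNb n Rω (wdR (B * D) u Ja) ^ (n - 1) * (2 * Cfl * (L / flH C10 (B * D) L) ^ (2 * (n : ℝ) / ((n : ℝ) + 1)) * D ^ (-cs))
        + (B * D) ^ Ck * (fldNT n Rω (wdR (B * D) u Ja) (flNc C11 (B * D)) (⌈KR * (L / flH C10 (B * D) L) ^ 2⌉₊ + 2) *
          ((n : ℝ) * fldE1 n Cfl (L / flH C10 (B * D) L) * ((1 / 2 : ℝ) ^ (flNc C11 (B * D) - 1)) ^ (bet n / (n : ℝ))))))
      ≤ CA * L ^ (2 * (n : ℝ) / ((n : ℝ) + 1)) * D ^ (-(cs / 2)) := by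
  have hn' : (2 : ℝ) ≤ n := by exact_mod_cast hn
  obtain ⟨hb0, hb1⟩ := fldn_bet hn
  have hKt := fldn_Kt hn P hCf hCfl hRω hCw hu hJ
  have hNb := fldn_Nb n hRω hu hJ
  -- the two polynomially bounded factors
  have hG1 : FldPB (cs / 4) (fun X => 2 / cM * (whNb n Rω (wdR X u Ja) * (flNc C11 X : ℝ) / cth) ^ 2 *
      fldKt n P Cf Cfl (Real.sqrt n * wdR X u Ja ^ 4 * fldQt n Rω Cw (wdR X u Ja)) *
      ((n : ℝ) * (2 * (Real.sqrt n + 2) + 1) * whNb n Rω (wdR X u Ja) ^ (n - 1) * (2 * Cfl))) := by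
    have h := ((((fldn_ra n hRω hu hC11 (ε := cs / 16) (by positivity) hcth.le hJ).pow 2).const_mul (c := 2 / cM) (by positivity)).mul hKt).mul
      (((hNb.pow (n - 1)).const_mul (c := (n : ℝ) * (2 * (Real.sqrt n + 2) + 1)) (by positivity)).mul_const (c := 2 * Cfl) (by positivity))
    refine h.mono (le_of_eq ?_)
    rw [Nat.cast_sub (by omega : 1 ≤ n)]
    push_cast
    linear_combination hu'
  have hG2 : FldPB (-cs) (fun X => 2 / cM * (whNb n Rω (wdR X u Ja) * (flNc C11 X : ℝ) / cth) ^ 2 *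
      fldKt n P Cf Cfl (Real.sqrt n * wdR X u Ja ^ 4 * fldQt n Rω Cw (wdR X u Ja)) *
      (X ^ Ck * (fldNT n Rω (wdR X u Ja) (flNc C11 X) (⌈KR * (X ^ C10) ^ 2⌉₊ + 2) *
          ((n : ℝ) * fldE1 n Cfl (X ^ C10) * ((1 / 2 : ℝ) ^ (flNc C11 X - 1)) ^ (bet n / (n : ℝ)))))) := by
    have hε : (0 : ℝ) < 1 / ((n : ℝ) + 2) := by positivity
    have h := ((((fldn_ra n hRω hu hC11 hε hcth.le hJ).pow 2).const_mul (c := 2 / cM) (by positivity)).mul hKt).mul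
      ((fldPB_rpow Ck).mul ((fldn_NT n hKR hRω hu hC10 hC11 hε hJ).mul
        (((fldn_E1 n hCfl C10).const_mul (c := (n : ℝ)) (by positivity)).mul ((fldn_half (C11 := C11)).rpow (s := bet n / (n : ℝ)) (by positivity)))))
    refine h.mono (le_of_eq ?_)
    have e : ((n : ℝ) + 2) * (1 / ((n : ℝ) + 2)) = 1 := by field_simp
    push_cast
    linear_combination (-1 : ℝ) * hC11' + e
  obtain ⟨K1, hK1, h1⟩ := hG1
  obtain ⟨K2, hK2, h2⟩ := hG2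
  refine ⟨K1 * B ^ (cs / 4) + K2, by positivity, fun L D hL hD => ?_⟩
  have hD0 : 0 < D := by linarith
  have hB0 : 0 < B := by linarith
  have hX0 : 0 < B * D := by positivity
  have hX1 : 1 ≤ B * D := by nlinarith
  obtain ⟨hh0, hhL⟩ := fldn_h_le hX1 hC10 hL
  obtain ⟨q, hq⟩ : ∃ q, q = 2 * (n : ℝ) / ((n : ℝ) + 1) := ⟨_, rfl⟩
  have hq0 : 0 ≤ q := by
    rw [hq]
    positivity
  rw [← hq]
  have hLq : flH C10 (B * D) L ^ q * (L / flH C10 (B * D) L) ^ q = L ^ q := by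
    rw [← Real.mul_rpow hh0.le (div_nonneg hL.le hh0.le), mul_div_cancel₀ _ hh0.ne']
  have hhq : flH C10 (B * D) L ^ q ≤ L ^ q := Real.rpow_le_rpow hh0.le hhL hq0
  have hhq0 : 0 ≤ flH C10 (B * D) L ^ q := Real.rpow_nonneg hh0.le _
  have g1 := h1 (B * D) hX1
  have g2 := h2 (B * D) hX1
  have hLh := fldn_Lh (C10 := C10) hX0 hL
  have hLq0 : 0 ≤ L ^ q := Real.rpow_nonneg hL.le _
  have d1 : (B * D) ^ (cs / 4) * D ^ (-cs) ≤ B ^ (cs / 4) * D ^ (-(cs / 2)) := by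
    rw [Real.mul_rpow hB0.le hD0.le, mul_assoc, ← Real.rpow_add hD0]
    exact mul_le_mul_of_nonneg_left (Real.rpow_le_rpow_of_exponent_le hD (by linarith)) (Real.rpow_nonneg hB0.le _)
  have d2 : (B * D) ^ (-cs) ≤ D ^ (-(cs / 2)) := by
    calc (B * D) ^ (-cs) ≤ D ^ (-cs) := Real.rpow_le_rpow_of_nonpos hD0 (le_mul_of_one_le_left hD0.le hB) (by linarith)
      _ ≤ D ^ (-(cs / 2)) := Real.rpow_le_rpow_of_exponent_le hD (by linarith)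
  have hDc : 0 ≤ D ^ (-cs) := Real.rpow_nonneg hD0.le _
  calc _ = (2 / cM * (whNb n Rω (wdR (B * D) u Ja) * (flNc C11 (B * D) : ℝ) / cth) ^ 2 *
      fldKt n P Cf Cfl (Real.sqrt n * wdR (B * D) u Ja ^ 4 * fldQt n Rω Cw (wdR (B * D) u Ja)) *
      ((n : ℝ) * (2 * (Real.sqrt n + 2) + 1) * whNb n Rω (wdR (B * D) u Ja) ^ (n - 1) * (2 * Cfl))) *
        (flH C10 (B * D) L ^ q * (L / flH C10 (B * D) L) ^ q) * D ^ (-cs)
      + (2 / cM * (whNb n Rω (wdR (B * D) u Ja) * (flNc C11 (B * D) : ℝ) / cth) ^ 2 *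
      fldKt n P Cf Cfl (Real.sqrt n * wdR (B * D) u Ja ^ 4 * fldQt n Rω Cw (wdR (B * D) u Ja)) *
      ((B * D) ^ Ck * (fldNT n Rω (wdR (B * D) u Ja) (flNc C11 (B * D)) (⌈KR * ((B * D) ^ C10) ^ 2⌉₊ + 2) *
          ((n : ℝ) * fldE1 n Cfl ((B * D) ^ C10) * ((1 / 2 : ℝ) ^ (flNc C11 (B * D) - 1)) ^ (bet n / (n : ℝ)))))) * flH C10 (B * D) L ^ q := by
        rw [← hLh]
        ring
    _ ≤ (K1 * (B * D) ^ (cs / 4)) * L ^ q * D ^ (-cs) + (K2 * (B * D) ^ (-cs)) * L ^ q := by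
        rw [hLq]
        refine add_le_add ?_ ?_
        · exact mul_le_mul_of_nonneg_right (mul_le_mul_of_nonneg_right g1.2 hLq0) hDc
        · exact mul_le_mul g2.2 hhq hhq0 (by positivity)
    _ = K1 * L ^ q * ((B * D) ^ (cs / 4) * D ^ (-cs)) + K2 * L ^ q * (B * D) ^ (-cs) := by ring
    _ ≤ K1 * L ^ q * (B ^ (cs / 4) * D ^ (-(cs / 2))) + K2 * L ^ q * D ^ (-(cs / 2)) := by gcongr
    _ = (K1 * B ^ (cs / 4) + K2) * L ^ q * D ^ (-(cs / 2)) := by ring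

theorem fldn_mainB (n : ℕ) (hn : 2 ≤ n) {KR Rω Cf cs u C10 C11 Ck Cfl cth cM Cw : ℝ} (P : ℕ) {Ja : ℕ} (hKR : 0 ≤ KR) (hRω : 0 ≤ Rω) (hCf : 0 ≤ Cf) (hcs : 0 < cs)
    (hJ : 1 ≤ Ja) (hu : 0 ≤ u) (hC10 : 0 ≤ C10) (hC11 : 0 ≤ C11) (hCk : 0 ≤ Ck) (hCfl : 0 ≤ Cfl) (hcth : 0 < cth) (hcM : 0 < cM) (hCw : 0 ≤ Cw) {B : ℝ} (hB : 1 ≤ B) :
    ∃ CA : ℝ, 0 ≤ CA ∧ ∀ L D : ℝ, 0 < L → 1 ≤ D → D < B →
      2 / cM * (whNb n Rω (wdR (B * D) u Ja) * (flNc C11 (B * D) : ℝ) / cth) ^ 2 *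
        (fldKt n P Cf Cfl (Real.sqrt n * wdR (B * D) u Ja ^ 4 * fldQt n Rω Cw (wdR (B * D) u Ja)) * flH C10 (B * D) L ^ (2 * (n : ℝ) / ((n : ℝ) + 1)) *
      ((B * D) ^ Ck * (fldNT n Rω (wdR (B * D) u Ja) (flNc C11 (B * D)) (⌈KR * (L / flH C10 (B * D) L) ^ 2⌉₊ + 2) * ((n : ℝ) * fldE1 n Cfl (L / flH C10 (B * D) L)))))
      ≤ CA * L ^ (2 * (n : ℝ) / ((n : ℝ) + 1)) * D ^ (-(cs / 2)) := by
  have hn' : (2 : ℝ) ≤ n := by exact_mod_cast hn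
  have hKt := fldn_Kt hn P hCf hCfl hRω hCw hu hJ
  obtain ⟨E, hE⟩ : ∃ E, E = ((2 : ℕ) : ℝ) * (n * u + 1) + 5 * Cf * u + (Ck + (2 * C10 + n * (n * u) + n * 1 + n * C10)) := ⟨_, rfl⟩
  have hE0 : 0 ≤ E := by
    rw [hE]
    positivity
  have hG : FldPB E (fun X => 2 / cM * (whNb n Rω (wdR X u Ja) * (flNc C11 X : ℝ) / cth) ^ 2 *
      fldKt n P Cf Cfl (Real.sqrt n * wdR X u Ja ^ 4 * fldQt n Rω Cw (wdR X u Ja)) *
      (X ^ Ck * (fldNT n Rω (wdR X u Ja) (flNc C11 X) (⌈KR * (X ^ C10) ^ 2⌉₊ + 2) * ((n : ℝ) * fldE1 n Cfl (X ^ C10))))) := by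
    rw [hE]
    exact ((((fldn_ra n hRω hu hC11 one_pos hcth.le hJ).pow 2).const_mul (c := 2 / cM) (by positivity)).mul hKt).mul
      ((fldPB_rpow Ck).mul ((fldn_NT n hKR hRω hu hC10 hC11 one_pos hJ).mul ((fldn_E1 n hCfl C10).const_mul (c := (n : ℝ)) (by positivity))))
  obtain ⟨K, hK, h⟩ := hG
  refine ⟨K * (B * B) ^ E * B ^ (cs / 2), by positivity, fun L D hL hD hDB => ?_⟩
  have hD0 : 0 < D := by linarith
  have hB0 : 0 < B := by linarith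
  have hX0 : 0 < B * D := by positivity
  have hX1 : 1 ≤ B * D := by nlinarith
  obtain ⟨hh0, hhL⟩ := fldn_h_le hX1 hC10 hL
  obtain ⟨q, hq⟩ : ∃ q, q = 2 * (n : ℝ) / ((n : ℝ) + 1) := ⟨_, rfl⟩
  have hq0 : 0 ≤ q := by
    rw [hq]
    positivity
  rw [← hq]
  have hhq : flH C10 (B * D) L ^ q ≤ L ^ q := Real.rpow_le_rpow hh0.le hhL hq0
  have hhq0 : 0 ≤ flH C10 (B * D) L ^ q := Real.rpow_nonneg hh0.le _
  have g := h (B * D) hX1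
  have hLh := fldn_Lh (C10 := C10) hX0 hL
  have d1 : (B * D) ^ E ≤ (B * B) ^ E := Real.rpow_le_rpow hX0.le (by gcongr) hE0
  have d2 : 1 ≤ B ^ (cs / 2) * D ^ (-(cs / 2)) := by
    calc (1 : ℝ) = B ^ (cs / 2) * B ^ (-(cs / 2)) := by
          rw [← Real.rpow_add hB0]
          simp
      _ ≤ B ^ (cs / 2) * D ^ (-(cs / 2)) :=
          mul_le_mul_of_nonneg_left (Real.rpow_le_rpow_of_nonpos hD0 hDB.le (by linarith)) (Real.rpow_nonneg hB0.le _)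
  have hLq0 : 0 ≤ L ^ q := Real.rpow_nonneg hL.le _
  calc _ = (2 / cM * (whNb n Rω (wdR (B * D) u Ja) * (flNc C11 (B * D) : ℝ) / cth) ^ 2 *
      fldKt n P Cf Cfl (Real.sqrt n * wdR (B * D) u Ja ^ 4 * fldQt n Rω Cw (wdR (B * D) u Ja)) *
      ((B * D) ^ Ck * (fldNT n Rω (wdR (B * D) u Ja) (flNc C11 (B * D)) (⌈KR * ((B * D) ^ C10) ^ 2⌉₊ + 2) * ((n : ℝ) * fldE1 n Cfl ((B * D) ^ C10))))) *
        flH C10 (B * D) L ^ q := by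
        rw [← hLh]
        ring
    _ ≤ (K * (B * D) ^ E) * L ^ q := mul_le_mul g.2 hhq hhq0 (by positivity)
    _ ≤ (K * (B * B) ^ E) * L ^ q * 1 := by
        rw [mul_one]
        gcongr
    _ ≤ (K * (B * B) ^ E) * L ^ q * (B ^ (cs / 2) * D ^ (-(cs / 2))) := by gcongr
    _ = K * (B * B) ^ E * B ^ (cs / 2) * L ^ q * D ^ (-(cs / 2)) := by ring


/-- the cutoff inequality in abstract form -/
theorem fldn_cut {KE Z γ NN cth M Lγ lam hh c e2 : ℝ} (_hKE : 0 ≤ KE) (hNN : 0 < NN) (hcth : 0 < cth) (hM : 0 < M) (hlam : M ≤ lam) (hh0 : 0 < hh)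
    (hZ : 0 < Z) (hLγ : 0 < Lγ) (hhγ : hh ^ γ = Lγ / Z) (he2 : e2 = 1 + 2 * c + γ) (hmain : KE * Z * NN ^ 2 / cth ^ 2 ≤ Lγ * M ^ 2) :
    hh ^ c * Real.sqrt (KE * hh / hh ^ e2) ≤ cth * lam / NN := by
  have hc0 : 0 < hh ^ c := Real.rpow_pos_of_pos hh0 _
  have hlam0 : 0 < lam := lt_of_lt_of_le hM hlam
  rw [← le_div_iff₀' hc0]
  refine Real.sqrt_le_iff.2 ⟨by positivity, ?_⟩
  have e : hh ^ e2 = hh * (hh ^ c) ^ 2 * (Lγ / Z) := by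
    rw [he2, Real.rpow_add hh0, Real.rpow_add hh0, Real.rpow_one, hhγ, mul_comm 2 c, Real.rpow_mul hh0.le]
    norm_cast
  rw [e, div_pow, div_pow, div_le_div_iff₀ (by positivity) (by positivity)]
  have h1 : KE * Z * NN ^ 2 ≤ Lγ * M ^ 2 * cth ^ 2 := by rwa [div_le_iff₀ (by positivity)] at hmain
  have h2 : M ^ 2 ≤ lam ^ 2 := pow_le_pow_left₀ hM.le hlam 2
  have h3 : KE * Z * NN ^ 2 ≤ Lγ * lam ^ 2 * cth ^ 2 := h1.trans (by gcongr)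
  have h4 : KE * NN ^ 2 ≤ (cth * lam) ^ 2 * (Lγ / Z) := by
    rw [mul_div_assoc', le_div_iff₀ hZ]
    nlinarith
  have h5 : KE ≤ (cth * lam) ^ 2 / NN ^ 2 * (Lγ / Z) := by
    rw [div_mul_eq_mul_div, le_div_iff₀ (by positivity)]
    exact h4
  calc KE * hh * (hh ^ c) ^ 2 = KE * (hh * (hh ^ c) ^ 2) := by ring
    _ ≤ ((cth * lam) ^ 2 / NN ^ 2 * (Lγ / Z)) * (hh * (hh ^ c) ^ 2) := by gcongr
    _ = (cth * lam) ^ 2 / NN ^ 2 * (hh * (hh ^ c) ^ 2 * (Lγ / Z)) := by ring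

theorem fldn_loc (n : ℕ) (hn : 2 ≤ n) {KR Rω C₁ Cf a u C10 C11 : ℝ} (P : ℕ) {Ja : ℕ} (hRω : 0 ≤ Rω) (hC₁ : 0 ≤ C₁) (hCf : 0 ≤ Cf)
    (ha : 0 < a) (ha2 : 2 * a < 1) (hJ : 1 ≤ Ja) (hu : 0 < u) (hC10 : 1 ≤ C10) (hC11 : 0 ≤ C11) :
    ∃ κ₀ : ℝ, 0 < κ₀ ∧ ∀ κ : ℝ, 0 < κ → κ ≤ κ₀ → ∀ Cfl cth : ℝ, 1 ≤ Cfl → 0 < cth → ∃ B₀ L₁ : ℝ, 1 ≤ B₀ ∧ 1 ≤ L₁ ∧
      ∀ L X lam : ℝ, L₁ ≤ L → B₀ ≤ X → X ≤ L ^ (2 * κ) → L ^ (-(a * (((n : ℝ) - 1) / (8 * ((n : ℝ) + 1))) + κ + eex n)) ≤ lam →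
        FldLoc n KR Rω C₁ (2 ^ (n + 3) * Real.sqrt n) Cf Cfl (((n : ℝ) - 1) / (16 * ((n : ℝ) + 1))) (((n : ℝ) - 1) / (16 * ((n : ℝ) + 1))) P L (wdR X u Ja) (flH C10 X L)
          (flTh n cth Rω (wdR X u Ja) lam / (flNc C11 X : ℝ)) (flNc C11 X) (⌈KR * (L / flH C10 X L) ^ 2⌉₊ + 2) := by
  have hn' : (2 : ℝ) ≤ n := by exact_mod_cast hn
  have hC100 : 0 ≤ C10 := by linarith
  have hsn : 1 ≤ Real.sqrt n := by
    rw [show (1 : ℝ) = Real.sqrt 1 by simp]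
    exact Real.sqrt_le_sqrt (by linarith)
  -- `w = (n-1)/(n+1)`
  obtain ⟨w, hw⟩ : ∃ w, w = ((n : ℝ) - 1) / ((n : ℝ) + 1) := ⟨_, rfl⟩
  have hw0 : 0 < w := by
    rw [hw]
    apply div_pos <;> linarith
  have hw1 : w ≤ 1 := by
    rw [hw, div_le_one (by linarith)]
    linarith
  have hc : ((n : ℝ) - 1) / (16 * ((n : ℝ) + 1)) = w / 16 := by
    rw [hw]
    field_simp
  have hv : ((n : ℝ) - 1) / (8 * ((n : ℝ) + 1)) = w / 8 := by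
    rw [hw]
    field_simp
  have hee : 2 * (n : ℝ) - 1 - 2 * eex n = w := by
    rw [hw]
    unfold eex
    field_simp
    ring
  rw [hc, hv]
  obtain ⟨γ, hγ⟩ : ∃ γ, γ = 2 * (n : ℝ) - 1 - 3 * (w / 16) := ⟨_, rfl⟩
  have hγ0 : 0 ≤ γ := by
    rw [hγ]
    linarith
  obtain ⟨E1, hE1⟩ : ∃ E, E = ((4 : ℕ) : ℝ) * u + C10 := ⟨_, rfl⟩
  obtain ⟨E2, hE2⟩ : ∃ E, E = n * C10 + γ * C10 + ((2 : ℕ) : ℝ) * (n * u + 1) := ⟨_, rfl⟩
  have hE10 : 0 ≤ E1 := by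
    rw [hE1]
    positivity
  have hE20 : 0 ≤ E2 := by
    rw [hE2]
    positivity
  refine ⟨w / (16 * (E1 + E2 + 1)), by positivity, fun κ hκ hκ' Cfl cth hCfl hcth => ?_⟩
  have hκ2 : κ * (16 * (E1 + E2 + 1)) ≤ w := by rwa [le_div_iff₀ (by positivity)] at hκ'
  have hκE1 : 0 ≤ κ * E1 := by positivity
  have hκE2 : 0 ≤ κ * E2 := by positivity
  have hκ3 : κ * (16 * (E1 + E2 + 1)) = 16 * (κ * E1) + 16 * (κ * E2) + 16 * κ := by ring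
  have hCfl0 : 0 ≤ Cfl := by linarith
  obtain ⟨K0, hK0⟩ : ∃ K, K = 1 + C₁ + Cf * Real.sqrt n + (1 + 2 * (Rω + Real.sqrt n)) * Real.sqrt n := ⟨_, rfl⟩
  have hK00 : 0 ≤ K0 := by
    rw [hK0]
    positivity
  have hF1 : FldPB E1 (fun X => K0 * (wdR X u Ja ^ 4 * X ^ C10)) := by
    rw [hE1]
    exact (((fldn_R hu.le hJ).pow 4).mul (fldPB_rpow C10)).const_mul hK00
  have hF2 : FldPB E2 (fun X => 2 ^ (P + 1) * (n : ℝ) * Cfl * fldE1 n Cfl (X ^ C10) * (X ^ C10) ^ γ * (whNb n Rω (wdR X u Ja) * (flNc C11 X : ℝ)) ^ 2 / cth ^ 2) := by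
    rw [hE2]
    exact (((((fldn_E1 n hCfl0 C10).const_mul (c := 2 ^ (P + 1) * (n : ℝ) * Cfl) (by positivity)).mul ((fldPB_rpow C10).rpow hγ0)).mul
      (((fldn_Nb n hRω hu.le hJ).mul (fldn_Nc hC11 one_pos)).pow 2)).div_const (by positivity))
  obtain ⟨L1, hL1, hab1⟩ := hF1.absorb (δ := 1) (κ := κ) one_pos (by rw [mul_assoc]; linarith)
  obtain ⟨L2, hL2, hab2⟩ := hF2.absorb (δ := w / 4) (κ := κ) (by positivity) (by rw [mul_assoc]; linarith)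
  obtain ⟨Cw, hCw⟩ : ∃ Cw, Cw = 2 ^ (n + 3) * Real.sqrt n := ⟨_, rfl⟩
  rw [← hCw]
  have h2n : (8 : ℝ) ≤ 2 ^ (n + 3) := by
    calc (8 : ℝ) = 2 ^ 3 := by norm_num
      _ ≤ 2 ^ (n + 3) := pow_le_pow_right₀ one_le_two (by omega)
  have hCw0 : 0 < Cw := by
    rw [hCw]
    positivity
  refine ⟨max (max 1 Cfl) (Cw ^ (1 / u)), max L1 L2, (le_max_left _ _).trans (le_max_left _ _), hL1.trans (le_max_left _ _), fun L X lam hL hX hXL hlam => ?_⟩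
  have hX1 : 1 ≤ X := ((le_max_left _ _).trans (le_max_left _ _)).trans hX
  have hXC : Cfl ≤ X := ((le_max_right _ _).trans (le_max_left _ _)).trans hX
  have hXw : Cw ^ (1 / u) ≤ X := (le_max_right _ _).trans hX
  have hX0 : 0 < X := by linarith
  have hLL1 : 1 ≤ L := hL1.trans ((le_max_left _ _).trans hL)
  have hL0 : 0 < L := by linarith
  have g1 := hab1 L X ((le_max_left _ _).trans hL) hX1 hXL
  have g2 := hab2 L X ((le_max_right _ _).trans hL) hX1 hXL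
  rw [Real.rpow_one] at g1
  have hLh := fldn_Lh (C10 := C10) hX0 hL0
  obtain ⟨hh0, hhL⟩ := fldn_h_le hX1 hC100 hL0
  have hR1 := fldn_R_one hX1 hu.le hJ
  have hRge := fldn_R_ge (u := u) hX1 hJ
  obtain ⟨R, hR⟩ : ∃ R, R = wdR X u Ja := ⟨_, rfl⟩
  rw [← hR] at g1 g2 hR1 hRge ⊢
  have hZ1 : 1 ≤ X ^ C10 := Real.one_le_rpow hX1 hC100
  have hZ0 : 0 < X ^ C10 := by linarith
  have hhdef : flH C10 X L = L / X ^ C10 := rfl
  obtain ⟨hh, hhh⟩ : ∃ hh, hh = flH C10 X L := ⟨_, rfl⟩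
  rw [← hhh] at hLh hh0 hhL hhdef ⊢
  have hR0 : 0 < R := by linarith
  have hR4 : 1 ≤ R ^ 4 := one_le_pow₀ hR1
  have hRR4 : R ≤ R ^ 4 := by
    calc R = R ^ 1 := (pow_one R).symm
      _ ≤ R ^ 4 := pow_le_pow_right₀ hR1 (by norm_num)
  -- the master inequality `K0 R⁴ ≤ h`
  have hm : K0 * R ^ 4 ≤ hh := by
    rw [hhdef, le_div_iff₀ hZ0]
    linarith
  have hsn0 : 0 ≤ Real.sqrt n := Real.sqrt_nonneg _
  have p1 : 0 ≤ C₁ * R ^ 4 := by positivity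
  have p2 : 0 ≤ Cf * Real.sqrt n * R ^ 4 := by positivity
  have p3 : 0 ≤ (1 + 2 * (Rω + Real.sqrt n)) * Real.sqrt n * R ^ 4 := by positivity
  have hmexp : K0 * R ^ 4 = R ^ 4 + C₁ * R ^ 4 + Cf * Real.sqrt n * R ^ 4 + (1 + 2 * (Rω + Real.sqrt n)) * Real.sqrt n * R ^ 4 := by
    rw [hK0]
    ring
  have hh1 : 1 ≤ hh := by linarith
  have hRh : R ≤ hh := by linarith
  have hNb1 := fldn_Nb_one n hRω hR0.le
  have hNc1 := fldn_Nc_one C11 X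
  have hlam0 : 0 < lam := lt_of_lt_of_le (Real.rpow_pos_of_pos hL0 _) hlam
  refine ⟨hR1, hh1, hCw0, ?_, ?_, ?_, ?_, hCf, ?_, ?_, hCfl, ?_, ?_, ?_, ?_, ?_⟩
  · -- CwR
    calc Cw = (Cw ^ (1 / u)) ^ u := by
          rw [← Real.rpow_mul hCw0.le, one_div, inv_mul_cancel₀ hu.ne', Real.rpow_one]
      _ ≤ X ^ u := Real.rpow_le_rpow (Real.rpow_nonneg hCw0.le _) hXw hu.le
      _ ≤ R := hRge
  · -- Rh
    calc R ^ 4 ≤ hh := by linarith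
      _ = hh ^ 1 := (pow_one hh).symm
      _ ≤ hh ^ 2 := pow_le_pow_right₀ hh1 (by norm_num)
  · -- flat
    have h1 : C₁ / hh ≤ 1 / R := by
      rw [div_le_div_iff₀ hh0 hR0]
      have : C₁ * R ≤ C₁ * R ^ 4 := mul_le_mul_of_nonneg_left hRR4 hC₁
      linarith
    have h2 : 1 / R + Real.sqrt n / (2 * R) = (1 + Real.sqrt n / 2) / R := by
      field_simp
    calc C₁ / hh + Real.sqrt n / (2 * R) ≤ 1 / R + Real.sqrt n / (2 * R) := by linarith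
      _ = (1 + Real.sqrt n / 2) / R := h2
      _ ≤ Cw / R := by
          refine div_le_div_of_nonneg_right ?_ hR0.le
          rw [hCw]
          calc 1 + Real.sqrt n / 2 ≤ 8 * Real.sqrt n := by linarith
            _ ≤ 2 ^ (n + 3) * Real.sqrt n := mul_le_mul_of_nonneg_right h2n hsn0
  · -- rob
    have e : Cw / R / 2 ^ (n + 3) = Real.sqrt n / R := by
      rw [hCw]
      field_simp
    rw [e]
    have h1 : Real.sqrt n / (2 * hh) ≤ Real.sqrt n / (2 * R) := div_le_div_of_nonneg_left hsn0 (by positivity) (by linarith)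
    have h2 : Real.sqrt n / (2 * R) + Real.sqrt n / (2 * R) = Real.sqrt n / R := by
      field_simp
      ring
    linarith
  · -- fr1
    calc Cf * (Real.sqrt n * R ^ 4) = Cf * Real.sqrt n * R ^ 4 := by ring
      _ ≤ hh := by linarith
  · -- fr2
    calc (1 + 2 * (Rω + Real.sqrt n)) * (Real.sqrt n * R ^ 4) = (1 + 2 * (Rω + Real.sqrt n)) * Real.sqrt n * R ^ 4 := by ring
      _ ≤ hh := by linarith
  · -- fl
    have h1 : Cfl ≤ X ^ C10 := by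
      calc Cfl ≤ X := hXC
        _ = X ^ (1 : ℝ) := (Real.rpow_one _).symm
        _ ≤ X ^ C10 := Real.rpow_le_rpow_of_exponent_le hX1 hC10
    rw [hhdef, mul_div_assoc', div_le_iff₀ hZ0, mul_comm]
    exact mul_le_mul_of_nonneg_left h1 hL0.le
  · -- Nc1
    unfold flNc
    omega
  · -- Nτ
    push_cast
    linarith [Nat.le_ceil (KR * (L / hh) ^ 2)]
  · -- a0
    unfold flTh
    positivity
  · -- cut
    have e1 : flTh n cth Rω R lam / (flNc C11 X : ℝ) = cth * lam / (whNb n Rω R * (flNc C11 X : ℝ)) := by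
      unfold flTh
      rw [div_div]
    have e2 : 2 ^ (P + 1) * (n : ℝ) * Cfl * hh * fldE1 n Cfl (L / hh) = (2 ^ (P + 1) * (n : ℝ) * Cfl * fldE1 n Cfl (X ^ C10)) * hh := by
      rw [hLh]
      ring
    rw [e1, e2]
    have hE1n : 0 ≤ fldE1 n Cfl (X ^ C10) := by
      unfold fldE1
      positivity
    obtain ⟨Cl, hCl⟩ : ∃ Cl, Cl = a * (w / 8) + κ + eex n := ⟨_, rfl⟩
    rw [← hCl] at hlam
    refine fldn_cut (Z := (X ^ C10) ^ γ) (γ := γ) (M := L ^ (-Cl)) (Lγ := L ^ γ) (by positivity) (by positivity) hcth (Real.rpow_pos_of_pos hL0 _) hlam hh0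
      (Real.rpow_pos_of_pos hZ0 _) (Real.rpow_pos_of_pos hL0 _) ?_ ?_ ?_
    · rw [hhdef, Real.div_rpow hL0.le hZ0.le]
    · rw [hγ]
      ring
    · refine g2.trans ?_
      have e3 : L ^ γ * (L ^ (-Cl)) ^ 2 = L ^ (γ - 2 * Cl) := by
        rw [← Real.rpow_natCast (L ^ (-Cl)), ← Real.rpow_mul hL0.le, ← Real.rpow_add hL0]
        congr 1
        push_cast
        ring
      rw [e3]
      refine Real.rpow_le_rpow_of_exponent_le hLL1 ?_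
      have h5 : a * w ≤ w / 2 := by
        have := mul_le_mul_of_nonneg_right (show a ≤ 1 / 2 by linarith) hw0.le
        linarith
      have h6 : κ ≤ w / 16 := by linarith
      rw [hγ, hCl]
      linarith

/-- **FL-D-NUM**  (pure real arithmetic; to be cut by its owner).      PLAN.   `X = B D ≥ B ≥ B₀ ≥ 1`;  `B ≤ L₀^κ` gives `X ≤ L^{2κ}`.   `T₁ = √n + 2`, `β = bet n`, `q = 2n/(n+1)`, `c = flC3 n`.
BASIC BOUNDS (`X ≥ 1`):  `X^u ≤ R ≤ 2^{Ja} X^u` (`Nat.le_ceil`, `Nat.ceil_lt_add_one`; cf. `wad_num_R_le` in `Weak/Adapt.lean`, do not import it: reprove);   `L/h = X^{C10}`, `h = L X^{-C10} ≤ L`;   `Nb = whNb n Rω R ≤ (2Rω+2)^n R^n`;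
 `Nc - 1 = ⌈C11 log₂ X⌉₊`, so `(1/2)^{Nc-1} ≤ X^{-C11}` and `Nc ≤ C11 log₂ X + 2 ≤ K_ε X^ε` (`Real.add_one_le_exp` / `Real.log_le_rpow_div`);   `Nτ ≤ KR X^{2 C10} + 3`;   `fldE1 = (2T₁+1) Cfl X^{n C10}`;
 `ρQ = √n R⁴ · 2^{n+3}(1+Rω+√n) R / flCw n = K R⁵`;   `fldKt ≤ 2 Cf (ρQ)^{Cf} n^n · 2^{P+1} n Cfl` (both factors are `≥ 1`, exponents `1-β, β ∈ [0,1]`).
CHOICES.   `u = cs / (8 (n² + n + 5 Cf))`.      `C11 = (n/β) (u (n² + 2n + 5 Cf) + Ck + (n+2) C10 + 1 + cs)`.      `κ₀`: small, depending only on the EXPONENTS `u, C10, C11, Ck, Cgeo, Cf, n` (every requirement below of the form `2 κ E ≤ δ`).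
 `B₀`: `≥ 1`, `≥ Cfl`, `B₀^u ≥ flCw n`.      `L₀`: `≥ 1`, `B ≤ L₀^κ`, and `K ≤ L₀^{δ}` for the finitely many multiplicative constants `K` below.      `CB`: last.
`loc`:  every field except `cut` has the form `K X^E ≤ h = L X^{-C10}` or is trivial (`flat`: `C₁ R ≤ h` and `1 + √n/2 ≤ flCw n`;  `rob`: `R ≤ h`;  `Nτ`: `Nat.le_ceil`).
 `cut`: square it.   `h^{2c} · 2^{P+1} n Cfl · E₁ · h^{1-2n+c} ≤ (cth λ/(Nb Nc))²`, `λ ≥ L^{-Cl}`:  `K X^{E} ≤ L^{η}`, `η = 2n - 1 - 3c - 2Cl = (n-1)/(n+1) - 3c - 2 a v₀ - 2κ ≥ (11/16)(n-1)/(n+1) - 2κ` (`2n - 1 - 2 eex n = (n-1)/(n+1)`, `2a < 1`).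
`rng`:  `(X^{C10})^{1/(2C10)} = X^{1/2} ≤ D ⟺ B ≤ D`;   `D ≤ X ≤ X^{C10}`.
`disc`: `h^{2n-c} ≤ L^{2n} L^{-c}`;   `(2/(cM cg)) X^{Ck+Cgeo} NT ≤ L^{c}`.
`mainA`: first term: `h^q (L/h)^q = L^q`;  `K Nc² X^{u(n²+n+5Cf)} D^{-cs} ≤ K Nc² B^{cs/8} D^{-7cs/8}`, `Nc² ≤ K(B) D^{cs/8}`.   Second term: `h^q ≤ L^q`, total power of `X` is `≤ -cs` by the choice of `C11` (`Nc^{n+2} ≤ K X`), `X^{-cs} ≤ D^{-cs/2}`.
`mainB`: `X < B²`: all factors are bounded by constants depending on `B`;  `D^{-cs/2} ≥ B^{-cs/2}`. -/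
theorem fld_num (n : ℕ) (hn : 2 ≤ n) (KR Rω C₁ Cf cs a : ℝ) (P Ja : ℕ) (hKR : 0 ≤ KR) (hRω : 0 ≤ Rω) (hC₁ : 0 ≤ C₁) (hCf : 1 ≤ Cf) (hcs : 0 < cs)
    (ha : 0 < a) (ha2 : 2 * a < 1) (hJa : 1 ≤ Ja) :
    ∃ u : ℝ, 0 < u ∧ ∀ C10 Ck Cgeo : ℝ, 1 ≤ C10 → 0 ≤ Ck → 0 ≤ Cgeo → ∃ C11 : ℝ, 0 ≤ C11 ∧ ∃ κ₀ : ℝ, 0 < κ₀ ∧ ∀ κ : ℝ, 0 < κ → κ ≤ κ₀ →
      ∀ Cfl cth cM cg : ℝ, 1 ≤ Cfl → 0 < cth → 0 < cM → 0 < cg → ∃ B₀ : ℝ, ∀ B : ℝ, B₀ ≤ B → ∃ L₀ CB : ℝ, 0 < CB ∧ 1 ≤ L₀ ∧ ∀ L D : ℝ, L₀ < L → 1 ≤ D → D < L ^ κ →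
        FldGlob n ⟨KR, Rω, u, Ja, C10, C11, C₁, cth, Ck, cM, cg, Cgeo, Cf, Cfl, a * flV0 n + κ + eex n, cs, P, CB⟩ B L D := by
  have hn' : (2 : ℝ) ≤ n := by exact_mod_cast hn
  obtain ⟨hb0, hb1⟩ := fldn_bet hn
  have hCf0 : 0 ≤ Cf := by linarith
  obtain ⟨u, hu⟩ : ∃ u, u = cs / (8 * ((n : ℝ) ^ 2 + n + 5 * Cf)) := ⟨_, rfl⟩
  have hu0 : 0 < u := by
    rw [hu]
    positivity
  have hu' : u * ((n : ℝ) ^ 2 + n + 5 * Cf) = cs / 8 := by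
    rw [hu]
    field_simp
  refine ⟨u, hu0, fun C10 Ck Cgeo hC10 hCk hCgeo => ?_⟩
  have hC100 : 0 ≤ C10 := by linarith
  obtain ⟨C11, hC11⟩ : ∃ C, C = (n : ℝ) / bet n * (u * ((n : ℝ) ^ 2 + 2 * n + 5 * Cf) + Ck + ((n : ℝ) + 2) * C10 + 1 + cs) := ⟨_, rfl⟩
  have hC110 : 0 ≤ C11 := by
    rw [hC11]
    positivity
  have hC11' : bet n / (n : ℝ) * C11 = u * ((n : ℝ) ^ 2 + 2 * n + 5 * Cf) + Ck + ((n : ℝ) + 2) * C10 + 1 + cs := by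
    rw [hC11]
    field_simp
  have hc3 : 0 < flC3 n := by
    unfold flC3
    apply div_pos <;> linarith
  have hc3' : flC3 n ≤ 2 * n := by
    unfold flC3
    rw [div_le_iff₀ (by linarith)]
    nlinarith
  have hCw : 0 ≤ flCw n := by
    unfold flCw
    positivity
  obtain ⟨κ1, hκ1, hloc⟩ := fldn_loc n hn (KR := KR) P hRω hC₁ hCf0 ha ha2 hJa hu0 hC10 hC110
  obtain ⟨κ2, hκ2, hdisc⟩ := fldn_disc n (c := flC3 n) hKR hRω hu0.le hJa hC100 hC110 hCk hCgeo hc3 hc3'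
  refine ⟨C11, hC110, min κ1 κ2, lt_min hκ1 hκ2, fun κ hκ hκ' Cfl cth cM cg hCfl hcth hcM hcg => ?_⟩
  have hCfl0 : 0 ≤ Cfl := by linarith
  obtain ⟨B₀, L1, hB₀, hL1, hloc⟩ := hloc κ hκ (hκ'.trans (min_le_left _ _)) Cfl cth hCfl hcth
  obtain ⟨L2, hL2, hdisc⟩ := hdisc κ hκ (hκ'.trans (min_le_right _ _)) cM cg hcM hcg
  refine ⟨B₀, fun B hB => ?_⟩
  have hB1 : 1 ≤ B := hB₀.trans hB
  have hB0 : 0 < B := by linarith
  obtain ⟨CA, hCA, hA⟩ := fldn_mainA n hn (Cw := flCw n) P hKR hRω hCf0 hcs hJa hu0.le hC100 hC110 hCfl0 hcth hcM hCw hu' hC11' hB1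
  obtain ⟨CB', hCB', hBm⟩ := fldn_mainB n hn (Cw := flCw n) (Ck := Ck) P hKR hRω hCf0 hcs hJa hu0.le hC100 hC110 hCk hCfl0 hcth hcM hCw hB1
  refine ⟨max (max L1 L2) (B ^ (1 / κ)), CA + CB' + 1, by positivity, hL1.trans ((le_max_left _ _).trans (le_max_left _ _)), fun L D hL hD hDL => ?_⟩
  have hL1' : L1 ≤ L := ((le_max_left _ _).trans (le_max_left _ _)).trans hL.le
  have hL2' : L2 ≤ L := ((le_max_right _ _).trans (le_max_left _ _)).trans hL.le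
  have hBL : B ^ (1 / κ) ≤ L := (le_max_right _ _).trans hL.le
  have hL0 : 0 < L := by linarith
  have hD0 : 0 < D := by linarith
  have hBκ : B ≤ L ^ κ := by
    calc B = (B ^ (1 / κ)) ^ κ := by rw [← Real.rpow_mul hB0.le, one_div, inv_mul_cancel₀ hκ.ne', Real.rpow_one]
      _ ≤ L ^ κ := Real.rpow_le_rpow (Real.rpow_nonneg hB0.le _) hBL hκ.le
  have hXB : B₀ ≤ B * D := hB.trans (le_mul_of_one_le_right hB0.le hD)
  have hX1 : 1 ≤ B * D := hB₀.trans hXB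
  have hXL : B * D ≤ L ^ (2 * κ) := by
    rw [two_mul, Real.rpow_add hL0]
    exact mul_le_mul hBκ hDL.le hD0.le (Real.rpow_nonneg hL0.le _)
  have hpos : 0 ≤ L ^ (2 * (n : ℝ) / ((n : ℝ) + 1)) * D ^ (-(cs / 2)) := by positivity
  refine ⟨fun lam hlam => hloc L (B * D) lam hL1' hXB hXL hlam, fun hBD => fldn_rng hC10 hB1 hD hL0 hBD, hdisc L (B * D) hL2' hX1 hXL, fun _ => ?_, fun hDB => ?_⟩
  · refine (hA L D hL0 hD).trans ?_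
    rw [mul_assoc, mul_assoc]
    exact mul_le_mul_of_nonneg_right (by linarith) hpos
  · refine (hBm L D hL0 hD hDB).trans ?_
    rw [mul_assoc, mul_assoc]
    exact mul_le_mul_of_nonneg_right (by linarith) hpos

end Claimed.Agent.R257
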