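import Claimed.Agent.R257.Weak.Deep
import Claimed.Agent.R257.Frame.Stmt

/-!
# R257 / Fl / Defs : FLATTENING (H flattening.tex).  SHARED DEFINITIONS AND THE CONTRACTS OF THE BLOCKS            (captain helper263)            -- SHARED, FROZEN

Chain:  `Act` ⟹ `PlateWith` (ENTRY, `Weak/Deep.lean`) ⟹ FL-A `ClusterWith` ⟹ FL-D (with FL-B `FlattenStmt`, FL-C `FlatFrameStmt`) ⟹ `FinalWith`;   EXIT OF FL = `FlStmt` (`Weak/Deep.lean`).      Mathematics of every block: `Fl/Plan.lean`.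
Global quantities (`X = B D`):   `R = wdR X u J = ⌈X^{u/J}⌉^J ≍ X^u` (`K = wdK X u J`),    `h = flH C10 X L = L / X^{C10}` (ANY real: no nesting of the fine bins is needed),    `b₁ = L/h = X^{C10}`,
`flNc C11 X = ⌈C11 log₂ X⌉ + 1` = number of colours = number of strips in the exclusion.

* `flSig`, `FlClu`, `FlCluOut`, `ClusterWith`      EXIT OF FL-A: disjoint clusters of labels, frequencies within `C₁/h` of a hyperplane, tested sets on which the significant bins are NOT covered by `Ns` narrow sets.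
* `FI`, `flArr`, `flMom`, `flCls`, `FlatOut`, `FlattenWith`, `FlattenStmt`      EXIT OF FL-B: a subarray written as a scale-`h` array indexed by (fine bin, unit cell), with its two budgets.
* `flPr`, `TransvF`, `FlatFrameWith`, `FlatFrameStmt`      EXIT OF FL-C: f:frame for `k + 1` families in dimension `k + 1` whose frequencies lie within `C₂/h` of one hyperplane.
* `FlW`      side conditions on the conventions `W`.
-/

set_option autoImplicit false

namespace Claimed.Agent.R257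

open MeasureTheory Metric Set
open scoped ENNReal InnerProductSpace

variable {n : ℕ} {ι : Type}

/-! ## global quantities -/

/-- inverse side of the fine bins, `h = L / X^{C10}` -/
noncomputable def flH (C10 X L : ℝ) : ℝ := L / X ^ C10

/-- number of colours (dyadic density bands `0, …, ℓmax - 1` and the tiny class), `ℓmax = ⌈C11 log₂ X⌉` -/
noncomputable def flNc (C11 X : ℝ) : ℕ := ⌈C11 * Real.logb 2 X⌉₊ + 1

/-- side conditions on the conventions -/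
structure FlW (n : ℕ) (W : WCon) : Prop where
  R1 : 1 ≤ W.K.R
  RT : W.K.R < W.T₀
  Rω : Real.sqrt n ≤ W.K.Rω
  M : n + 2 ≤ W.M
  Cb : Real.sqrt n ≤ W.Cb

/-! ## ENTRY = `PlateWith` of `Weak/Deep.lean`;   EXIT = `FlStmt` of `Weak/Deep.lean` -/

/-- the linear functional with the normal `ν = (ν_x, ν_t)` -/
noncomputable def flF (ν z : ST n) : ℝ := ⟪ν.1, z.1⟫_ℝ + ν.2 * z.2

/-! ## FL-A : clusters -/

open scoped Classical in
/-- the bins (side `1/R`, original grid) of the subarray `s'` which are SIGNIFICANT on the big cube `Q` (side `R⁴`): the field of the bin has a witness `≥ th` in the cube -/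
noncomputable def flSig (A : Arr n ι) (s' : Finset ι) (c : ι → ℂ) (R th : ℝ) (Q : MI n) : Finset (BI n) :=
  (s'.image fun α => fbin R (A.om α)).filter fun b => ∃ z ∈ cubeS (R ^ 4) Q, th ≤ ‖A.fld (selS A s' R {b}) c z‖

/-- a cluster: labels, unit normal and height of the frequency hyperplane, tested set -/
structure FlClu (n : ℕ) (ι : Type) where
  /-- the labels -/
  s : Finset ι
  /-- unit normal of the frequency hyperplane -/
  e : E n
  /-- the hyperplane is `{⟪e, ω⟫ = b}` -/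
  b : ℝ
  /-- the tested set -/
  Z : Set (ST n)

/-- **THE OUTPUT OF FL-A** -/
structure FlCluOut (A : Arr n ι) (s : Finset ι) (c : ι → ℂ) (μ : Measure (ST n)) (Y : Set (ST n)) (R h C₁ th : ℝ) (G : ACon) (Ns : ℕ) (Nk cM : ℝ)
    (I : Finset (MI n)) (Cl : MI n → FlClu n ι) : Prop where
  sub : ∀ κ ∈ I, (Cl κ).s ⊆ s
  disj : ∀ κ ∈ I, ∀ κ' ∈ I, κ ≠ κ' → Disjoint (Cl κ).s (Cl κ').s
  card : (I.card : ℝ) ≤ Nk
  unit : ∀ κ ∈ I, ‖(Cl κ).e‖ = 1
  hb : ∀ κ ∈ I, |(Cl κ).b| ≤ C₁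
  flat : ∀ κ ∈ I, ∀ α ∈ (Cl κ).s, |⟪(Cl κ).e, A.om α⟫_ℝ - (Cl κ).b| ≤ C₁ / h
  meas : ∀ κ ∈ I, MeasurableSet (Cl κ).Z
  subY : ∀ κ ∈ I, (Cl κ).Z ⊆ Y
  mass : ENNReal.ofReal cM * μ Y ≤ ∑ κ ∈ I, μ (Cl κ).Z
  broad : ∀ κ ∈ I, ∀ z ∈ (Cl κ).Z, ¬ AngCover G.Cw G.Cq G.cq R Ns (flSig A (Cl κ).s c R th (bigc (R ^ 4) z))

/-- the threshold of significance `cth λ / (number of bins)` -/
noncomputable def flTh (n : ℕ) (cth Rω R lam : ℝ) : ℝ := cth * lam / whNb n Rω R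

/-- **EXIT OF FL-A** (flattening.tex l.1-83) -/
def ClusterWith (n : ℕ) (W : WCon) (X : WExp) (κ v₀ L₀ B : ℝ) (G : ACon) (J : ℕ) (u C10 C11 C₁ cth Ck cM : ℝ) : Prop :=
  ∀ (ι : Type) (A : Arr n ι) (s : Finset ι) (c : ι → ℂ) (μ : Measure (ST n)) (m χ g D : ℝ), Act n W X κ v₀ L₀ A s c μ m χ g D →
    ∃ (I : Finset (MI n)) (Cl : MI n → FlClu n ι),
      FlCluOut A s c μ (wset A s c (wlev n X.a χ g A.L)) (wdR (B * D) u J) (flH C10 (B * D) A.L) C₁
        (flTh n cth W.K.Rω (wdR (B * D) u J) (wlev n X.a χ g A.L)) G (flNc C11 (B * D)) ((B * D) ^ Ck) cM I Cl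

/-! ## FL-B : flattening of a subarray -/

/-- indices of the flattened packets: (fine bin `θ`, unit cell `T` of the native space-time of the bin) -/
abbrev FI (n : ℕ) : Type := BI n × MI n

/-- integer vector as a point of `E n` -/
noncomputable def flLat (k : Fin n → ℤ) : E n := WithLp.toLp 2 fun i => (k i : ℝ)

/-- the flattened array: scale `h`, frequency = centre of the fine bin, native coordinates `pmap h (bcen h θ) z - T` -/
noncomputable def flArr (h : ℝ) (pf : FI n → ST n → ℂ) : Arr n (FI n) where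
  L := h
  om p := bcen h p.1
  y p := h • flLat p.2.1
  tc p := (p.2.2 : ℝ)
  pf := pf

/-- the moment `∫ w_p dμ` of the packet weight (`= m h^{n+1} d_p`, (w:eq-flatdensity)) -/
noncomputable def flMom {κ : Type} (μ : Measure (ST n)) (F : Arr n κ) (P : ℕ) (p : κ) : ℝ≥0∞ := ∫⁻ z, ENNReal.ofReal (F.wt P p z) ∂μ

/-- the class of the flattened arrays: `N` controlled derivatives, bound `b` -/
noncomputable def flCls (n N : ℕ) (b Rω : ℝ) : Cls := ⟨N, Real.sqrt n, b, Rω + Real.sqrt n, 3 ^ (2 * n + 1)⟩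

/-- **THE OUTPUT OF FL-B** for the subarray `s'` -/
structure FlatOut (A : Arr n ι) (s' : Finset ι) (c : ι → ℂ) (μ : Measure (ST n)) (m D h : ℝ) (Kf : Cls) (P : ℕ) (cs τ C : ℝ)
    (pf : FI n → ST n → ℂ) (cf : FI n → ℂ) (Pk : Finset (FI n)) : Prop where
  cls : (flArr h pf).In Pk Kf
  fld : ∀ z, A.fld s' c z = (flArr h pf).fld Pk cf z
  occ : ∀ p ∈ Pk, ∃ α ∈ s', fbin h (A.om α) = p.1
  /-- (w:eq-flat-unweighted) with the loss `b₁^n` -/
  crude : ∀ j : ℤ, ∑ p ∈ Pk.filter (fun p => p.2.2 = j), ‖cf p‖ ^ 2 ≤ C * (A.L / h) ^ n * energy s' c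
  /-- `d_p ≲ 1` -/
  dmax : ∀ p ∈ Pk, flMom μ (flArr h pf) P p ≤ ENNReal.ofReal (C * m * h ^ (n + 1))
  /-- (w:eq-flat-weighted) -/
  weighted : (A.L / h) ^ τ ≤ D → D ≤ A.L / h →
    ∑ p ∈ Pk, flMom μ (flArr h pf) P p ^ bet n * ENNReal.ofReal (‖cf p‖ ^ 2) ≤
      ENNReal.ofReal (C * (m * h ^ (n + 1)) ^ bet n * (A.L / h) ^ (2 * (n : ℝ) / ((n : ℝ) + 1)) * D ^ (-cs) * energy s' c)

/-- **Lemma w:flatten with explicit constants** -/
def FlattenWith (n : ℕ) (W : WCon) (Kf : Cls) (P : ℕ) (cs τ C : ℝ) : Prop :=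
  ∀ (ι : Type) (A : Arr n ι) (s' : Finset ι) (c : ι → ℂ) (μ : Measure (ST n)) (m D h : ℝ),
    A.In s' W.K → (∀ α ∈ s', A.tc α = 0) → 0 ≤ m → 1 ≤ D → 1 ≤ h → C * h ≤ A.L →
    Grow μ m n → Slab μ (W.T₀ * A.L ^ 2) → TubeMom μ A s' m D W.M →
    ∃ (pf : FI n → ST n → ℂ) (cf : FI n → ℂ) (Pk : Finset (FI n)), FlatOut A s' c μ m D h Kf P cs τ C pf cf Pk

/-- **EXIT OF FL-B** (flattening.tex l.85-168): the derivative order `N`, the bound `b` of the normalised profiles and the order `P` of the weights are prescribed by the consumer -/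
def FlattenStmt (n : ℕ) (W : WCon) (cs : ℝ) : Prop :=
  ∃ P₁ : ℕ, ∀ (N P : ℕ) (b τ : ℝ), P₁ ≤ P → 0 < b → 0 < τ → ∃ J : ℕ, ∀ Bp : ℝ, ∃ C : ℝ,
    FlattenWith n (W.wJB J Bp) (flCls n N b W.K.Rω) P cs τ C

/-! ## FL-C : the frame estimate for flat families -/

/-- orthogonal projection to `e^⊥` (`‖e‖ = 1`) -/
noncomputable def flPr (e x : E n) : E n := x - ⟪e, x⟫_ℝ • e

/-- quantitative affine independence of the projections to `e^⊥` of `n` points of `ℝⁿ` -/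
def TransvF (Q : ℝ) (e : E n) (ξ : Fin n → E n) : Prop :=
  ∀ t : Fin n → ℝ, ∑ i, |t i| ≤ Q * (‖∑ i, t i • flPr e (ξ i)‖ + |∑ i, t i|)

/-- **f:frame for flat families, explicit constants.**   Dimension `k + 1`, `k + 1` families of scale `h`, integer native time centres within `T₁` of `τ₀`, all frequencies within `C₂/h` of the hyperplane `{⟪e,ω⟫ = β₀}`,
projections `Q`-transverse;  `Y` = unit cubes of `ST (k+1)` (original axes) each with one witness per family within the distance `ρ`.   SAME right side as `FrameWith k`. -/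
def FlatFrameWith (k : ℕ) (c : ℝ) (K : Cls) (T₁ C₂ : ℝ) (P : ℕ) (C : ℝ) : Prop :=
  ∀ (ι : Type) (A : Fin (k + 1) → Arr (k + 1) ι) (s : Fin (k + 1) → Finset ι) (cf : Fin (k + 1) → ι → ℂ) (h Q ρ : ℝ) (a : Fin (k + 1) → ℝ)
    (e : E (k + 1)) (β₀ : ℝ) (τ₀ : ℤ) (Y : Finset (MI (k + 1))) (wz : Fin (k + 1) → MI (k + 1) → ST (k + 1)),
    (∀ i, (A i).L = h) → (∀ i, (A i).In (s i) K) → (∀ i, ∀ α ∈ s i, ∃ j : ℤ, (A i).tc α = j ∧ |(j : ℝ) - τ₀| ≤ T₁) →
    ‖e‖ = 1 → |β₀| ≤ C₂ → (∀ i, ∀ α ∈ s i, |⟪e, (A i).om α⟫_ℝ - β₀| ≤ C₂ / h) →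
    1 ≤ Q → (∀ lb : Fin (k + 1) → ι, (∀ i, lb i ∈ s i) → TransvF Q e (fun i => (A i).om (lb i))) →
    1 ≤ ρ → C * ρ ≤ h → (∀ i, h ^ c ≤ a i) →
    (∀ q ∈ Y, ∀ i, (∃ z ∈ cube q, ‖wz i q - z‖ ≤ ρ) ∧ a i ≤ ‖(A i).fld (s i) (cf i) (wz i q)‖ ∧ (A i).env (s i) (cf i) P (wz i q) ≤ 1) →
    (Y.card : ℝ) ≤ C * (ρ * Q) ^ C * (∏ i, a i) ^ (-(4 / ((k : ℝ) * ((k : ℝ) + 1)))) * ∑ i, h ^ 2 * energy (s i) (cf i) / a i ^ 2

/-- **EXIT OF FL-C**: the bound `b > 0` of the profiles is an OUTPUT (in `FrameStmt` the bound of the profiles is fixed before the derivative order; slicing costs a constant depending on that order) -/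
def FlatFrameStmt (k : ℕ) : Prop :=
  ∀ (c R Rw T₁ C₂ : ℝ) (m₀ : ℕ), 0 < c → ∃ P₀ : ℕ, ∀ P : ℕ, P₀ ≤ P → ∃ (J : ℕ) (b C : ℝ), 0 < b ∧ FlatFrameWith k c ⟨J, R, b, Rw, m₀⟩ T₁ C₂ P C

end Claimed.Agent.R257
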