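import Claimed.Agent.R257.Fl.D5
import Claimed.Agent.R257.Fl.A4
import Claimed.Agent.R257.Fl.B3
import Claimed.Agent.R257.Fl.C3

/-!
# R257 / Fl / Main : EXIT OF THE FLATTENING BLOCK            (captain helper263)

* `fl_exit`      `ClusterStmt + FlattenStmt + FlatFrameStmt ⟹ FlStmt`      (order of the constants of FL-D).
* `flm_cluster`     `AngularStmt ⟹ ClusterStmt`      (order of the constants of FL-A: `fla_main`, `fla_num` of `Fl/A4.lean`).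
* `fl_main0`     `SparseStmt + AngularStmt + FlatFrameStmt (n-1) ⟹ FlStmt`.
* `fl_main`      `FrameStmt (n-1) + SparseStmt + AngularStmt ⟹ FlStmt`      **EXIT OF FL**.
-/

set_option autoImplicit false

namespace Claimed.Agent.R257

open MeasureTheory Metric Set
open scoped ENNReal InnerProductSpace

variable {n : ℕ} {ι : Type}

/-- **EXIT OF FL FROM THE EXITS OF THE BLOCKS** (order of the constants) -/
theorem fl_exit (k : ℕ) (hk : 1 ≤ k) (W : WCon) (hW : FlW (k + 1) W) (cs a pmax : ℝ) (hcs : 0 < cs) (ha : 0 < a) (ha2 : 2 * a < 1 - bet (k + 1))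
    (hA : ClusterStmt (k + 1) W a pmax) (hB : FlattenStmt (k + 1) W cs) (hC : FlatFrameStmt k) : FlStmt (k + 1) W cs a pmax := by
  have hk' : (1 : ℝ) ≤ (k : ℝ) := by exact_mod_cast hk
  have hRω0 : 0 ≤ W.K.Rω := (Real.sqrt_nonneg _).trans hW.Rω
  have hKR0 : 0 ≤ W.K.R := zero_le_one.trans hW.R1
  have hc3 : 0 < flC3 (k + 1) := by
    unfold flC3
    push_cast
    apply div_pos <;> linarith
  have hv0 : 0 < flV0 (k + 1) := by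
    unfold flV0
    push_cast
    apply div_pos <;> linarith
  have hv1 : flV0 (k + 1) ≤ 1 := by
    unfold flV0
    push_cast
    rw [div_le_one (by linarith)]
    linarith
  have hbet : 0 < bet (k + 1) := ww_bet_pos _
  obtain ⟨C₁, cth, Ja, hC₁, hcth, hJa, hA⟩ := hA
  obtain ⟨P₁, hB⟩ := hB
  obtain ⟨P₀, hC⟩ := hC (flC3 (k + 1)) (Real.sqrt (k + 1 : ℕ)) (W.K.Rω + Real.sqrt (k + 1 : ℕ)) (Real.sqrt (k + 1 : ℕ) + 2) (C₁ + Real.sqrt (k + 1 : ℕ)) (3 ^ (2 * (k + 1) + 1)) hc3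
  obtain ⟨Jf, bb, Cf, hbb, hC⟩ := hC (max P₀ P₁) (le_max_left _ _)
  have hC' : FlatFrameWith k (flC3 (k + 1)) (flCls (k + 1) Jf bb W.K.Rω) (Real.sqrt (k + 1 : ℕ) + 2) (C₁ + Real.sqrt (k + 1 : ℕ)) (max P₀ P₁) (max Cf 1) :=
    fld_frame_mono hC (le_max_left _ _) (zero_le_one.trans (le_max_right _ _))
  obtain ⟨u, hu, hN⟩ := fld_num (k + 1) (by omega) W.K.R W.K.Rω C₁ (max Cf 1) cs a (max P₀ P₁) Ja hKR0 hRω0 hC₁ (le_max_right _ _) hcs ha (by linarith) hJa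
  obtain ⟨σ₀, hσ₀, hA⟩ := hA u hu
  refine ⟨flV0 (k + 1), σ₀, hv0, hv1, hσ₀, fun σ hσ hσ' Cgeo Cp cg c₀ hCgeo hCp hcg hc₀ => ?_⟩
  obtain ⟨C10, Ck, cM, hC10, hCk, hcM, hA⟩ := hA (flV0 (k + 1)) σ hv0 hv1 hσ hσ' Cgeo Cp cg c₀ hCgeo hCp hcg hc₀
  obtain ⟨C11, hC11, κ₁, hκ₁, hN⟩ := hN C10 Ck Cgeo hC10 hCk hCgeo
  obtain ⟨κ₂, hκ₂, hA⟩ := hA C11 hC11
  refine ⟨min κ₁ κ₂, lt_min hκ₁ hκ₂, fun κ hκ hκ' p hp hp' => ?_⟩
  obtain ⟨J₁, hA⟩ := hA κ hκ (hκ'.trans (min_le_right _ _)) p hp hp'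
  obtain ⟨J₂, hB⟩ := hB Jf (max P₀ P₁) bb (1 / (2 * C10)) (le_max_right _ _) hbb (by positivity)
  refine ⟨max J₁ J₂, fun J' hJ' Bp => ?_⟩
  obtain ⟨B₁, hA⟩ := hA J' ((le_max_left _ _).trans hJ') Bp
  obtain ⟨Cfl, hB⟩ := hB Bp
  have hB' : FlattenWith (k + 1) (W.wJB J' Bp) (flCls (k + 1) Jf bb W.K.Rω) (max P₀ P₁) cs (1 / (2 * C10)) (max Cfl 1) :=
    fld_flatten_mono hB ((le_max_right _ _).trans hJ') (le_max_left _ _) (zero_le_one.trans (le_max_right _ _))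
  obtain ⟨B₂, hN⟩ := hN κ hκ (hκ'.trans (min_le_left _ _)) (max Cfl 1) cth cM cg (le_max_right _ _) hcth hcM hcg
  refine ⟨max 1 (max B₁ B₂), fun B hB₀ => ?_⟩
  obtain ⟨L₁, hA⟩ := hA B ((le_max_left _ _).trans ((le_max_right _ _).trans hB₀))
  obtain ⟨L₂, CB, hCB, hL₂, hN⟩ := hN B ((le_max_right _ _).trans ((le_max_right _ _).trans hB₀))
  refine ⟨max L₁ L₂, CB, hCB, fun Cind hCind L hL hGeo hPl => ?_⟩
  have hClu := hA Cind hCind L ((le_max_left _ _).trans hL) hGeo hPl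
  exact fld_final k hk (W.wJB J' Bp) ⟨p, σ, a, Cind⟩ κ (flV0 (k + 1)) L B
    ⟨W.K.R, W.K.Rω, u, Ja, C10, C11, C₁, cth, Ck, cM, cg, Cgeo, max Cf 1, max Cfl 1, a * flV0 (k + 1) + κ + eex (k + 1), cs, max P₀ P₁, CB⟩ Jf bb
    rfl rfl hRω0 ha.le rfl hcM hcth ((le_max_left _ _).trans hB₀) hClu hGeo hB' hC'
    (fun L' D hL' hD hD' => hN L' D (lt_of_le_of_lt ((le_max_right _ _).trans hL) hL') hD hD')

/-! ## the exit of FL-A -/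

/-- only `G.Cw, G.Cq, G.cq` are read -/
theorem flm_clu_congr {W : WCon} {X : WExp} {κ v₀ L₀ B : ℝ} {G G' : ACon} {J : ℕ} {u C10 C11 C₁ cth Ck cM : ℝ}
    (h : ClusterWith n W X κ v₀ L₀ B G J u C10 C11 C₁ cth Ck cM) (h1 : G'.Cw = G.Cw) (h2 : G'.Cq = G.Cq) (h3 : G'.cq = G.cq) :
    ClusterWith n W X κ v₀ L₀ B G' J u C10 C11 C₁ cth Ck cM := by
  intro ι A s c μ m χ g D hA
  obtain ⟨I, Cl, hO⟩ := h ι A s c μ m χ g D hA
  exact ⟨I, Cl, ⟨hO.sub, hO.disj, hO.card, hO.unit, hO.hb, hO.flat, hO.meas, hO.subY, hO.mass, by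
    rw [h1, h2, h3]
    exact hO.broad⟩⟩

/-- the side conditions do not see the derivative order and the profile bound -/
theorem FlW.wJB {W : WCon} (h : FlW n W) (J : ℕ) (Bp : ℝ) : FlW n (W.wJB J Bp) := ⟨h.R1, h.RT, h.Rω, h.M, h.Cb⟩

/-- the numerical needs do not see the derivative order and the profile bound -/
theorem FlaNum.wJB {W : WCon} {p σ GN : ℝ} {J : ℕ} {u C8 C9 P1 C10 C11 Cp Cgeo c₀ cg K₀ c₂ Ca CN Xv L D : ℝ}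
    (h : FlaNum n W p σ GN J u C8 C9 P1 C10 C11 Cp Cgeo c₀ cg K₀ c₂ Ca CN Xv L D) (J' : ℕ) (Bp : ℝ) :
    FlaNum n (W.wJB J' Bp) p σ GN J u C8 C9 P1 C10 C11 Cp Cgeo c₀ cg K₀ c₂ Ca CN Xv L D :=
  ⟨h.x1, h.d1, h.d1L, h.lam, h.w8, h.mom, h.hv, h.v2, h.h1, h.e1, h.e2, h.e3a, h.e3b, h.k0, h.r2, h.rL⟩

/-- `AngularWith` is monotone in the constants `Ca, CN` (`wrhs ≥ 0` because `0 ≤ X.Cind`, `0 ≤ m`, `0 < g`, `1 ≤ A.L`, energy `≥ 0`; `ENNReal.ofReal_le_ofReal`). -/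
theorem flm_ang_mono {W : WCon} {X : WExp} {G : ACon} {J : ℕ} {K₀ c₂ Ca CN Ca' CN' : ℝ} (h : AngularWith n W X G J K₀ c₂ Ca CN) (hC : 0 ≤ X.Cind)
    (h1 : Ca ≤ Ca') (h2 : CN ≤ CN') : AngularWith n W X G J K₀ c₂ Ca' CN' := by
  intro ι A s c μ m χ g K Ncov Sel a1 a2 a3 a4 a5 a6 a7 a8 a9 a10 a11 a12 a13 a14 a15 a16
  refine (h ι A s c μ m χ g K Ncov Sel a1 a2 a3 a4 a5 a6 a7 a8 a9 a10 a11 a12 a13 a14 a15 a16).trans (ENNReal.ofReal_le_ofReal ?_)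
  have hL : 0 < A.L := lt_of_lt_of_le one_pos a3.one_le
  have hE : 0 ≤ energy s c := ww_energy_nonneg s c
  have hw : 0 ≤ wrhs n X m A.L g 1 (energy s c) := by
    unfold wrhs
    positivity
  have hK : 0 ≤ (K : ℝ) ^ J := by positivity
  gcongr

/-- the active range dominates the powers of `X = B D`:   `(B D)^Γ ≤ B^Γ L^{κΓ} ≤ L^{1/2} L^{1/2}`. -/
theorem flm_dom {B D L κ Γ : ℝ} (hB : 1 ≤ B) (hD : 1 ≤ D) (hΓ : 0 ≤ Γ) (_hκ : 0 < κ) (hκΓ : κ * Γ ≤ 1 / 2) (hL : B ^ (2 * Γ) ≤ L) (hDL : D < L ^ κ) : (B * D) ^ Γ ≤ L := by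
  have hB0 : 0 < B := by linarith
  have hD0 : 0 < D := by linarith
  have hL1 : 1 ≤ L := (Real.one_le_rpow hB (by positivity)).trans hL
  have hL0 : 0 < L := by linarith
  have e1 : B ^ Γ ≤ L ^ (1 / 2 : ℝ) := by
    have : B ^ Γ = (B ^ (2 * Γ)) ^ (1 / 2 : ℝ) := by
      rw [← Real.rpow_mul hB0.le]
      congr 1
      ring
    rw [this]
    exact Real.rpow_le_rpow (by positivity) hL (by norm_num)
  have e2 : D ^ Γ ≤ L ^ (1 / 2 : ℝ) := by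
    calc D ^ Γ ≤ (L ^ κ) ^ Γ := Real.rpow_le_rpow hD0.le hDL.le hΓ
      _ = L ^ (κ * Γ) := by rw [← Real.rpow_mul hL0.le]
      _ ≤ L ^ (1 / 2 : ℝ) := Real.rpow_le_rpow_of_exponent_le hL1 hκΓ
  calc (B * D) ^ Γ = B ^ Γ * D ^ Γ := Real.mul_rpow hB0.le hD0.le
    _ ≤ L ^ (1 / 2 : ℝ) * L ^ (1 / 2 : ℝ) := by gcongr
    _ = L := by
      rw [← Real.rpow_add hL0]
      norm_num

/-- **EXIT OF FL-A** -/
theorem flm_cluster (hn : 2 ≤ n) {W : WCon} (hW : FlW n W) {a pmax : ℝ} (ha : 0 < a) (ha2 : 2 * a < 1 - bet n) (hpm : 2 < pmax) (hAng : AngularStmt n W a pmax) :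
    ClusterStmt n W a pmax := by
  obtain ⟨c₂, Ja, hc₂, hJa, hAng⟩ := hAng
  have hRω0 : 0 ≤ W.K.Rω := (Real.sqrt_nonneg _).trans hW.Rω
  have hbet : 0 < bet n := ww_bet_pos _
  have h3 : (0 : ℝ) < 1 / (8 * 3 ^ (n + 1)) := by positivity
  refine ⟨flaC1 n W.K.Rω, 1 / (8 * 3 ^ (n + 1)), Ja, by unfold flaC1; positivity, h3, hJa, fun u hu => ?_⟩
  refine ⟨u * c₂ / 2, by positivity, fun v₀ σ hv₀ hv₁ hσ hσ' Cgeo Cp cg c₀ hCgeo hCp hcg hc₀ => ?_⟩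
  have hσu : σ < u * c₂ := by
    have : 0 < u * c₂ := by positivity
    linarith
  obtain ⟨C8, C9, P1, C10₀, hnum⟩ := fla_num (by omega) W hW hJa hu hc₂ hσ hσu hpm hCp hCgeo
  refine ⟨max C10₀ 1, Cp, c₀ / 2, le_max_right _ _, hCp, by positivity, fun C11 hC11 => ?_⟩
  obtain ⟨Γ, hΓ, hnum⟩ := hnum (max C10₀ 1) (le_max_left _ _) C11 hC11
  refine ⟨1 / (2 * (Γ + 1)), by positivity, fun κ hκ hκ' p hp hp' => ?_⟩
  have hκΓ : κ * Γ ≤ 1 / 2 := by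
    have h1 : κ * Γ ≤ 1 / (2 * (Γ + 1)) * Γ := mul_le_mul_of_nonneg_right hκ' hΓ
    have h2 : 1 / (2 * (Γ + 1)) * Γ ≤ 1 / 2 := by
      rw [div_mul_eq_mul_div, one_mul, div_le_div_iff₀ (by positivity) (by norm_num)]
      linarith
    exact h1.trans h2
  obtain ⟨J, hAng⟩ := hAng ⟨flCw n, 1, 1, 1 / (8 * 3 ^ (n + 1)), eex n + 2, 0, ww_Cnb n W⟩ p σ
    ⟨by unfold flCw; positivity, le_rfl, one_pos, h3, by have := ww_eex_nonneg n; show 0 ≤ eex n + 2; linarith, le_rfl, ww_Cnb_nonneg n W⟩ hp hp'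
  refine ⟨J, fun J' hJ' Bp => ?_⟩
  obtain ⟨K₀, Ca, CN, hAng⟩ := hAng J' hJ' Bp
  obtain ⟨B₀, hB₀, hnum⟩ := hnum c₀ cg K₀ (max Ca 0) (max CN 0) 0 hc₀ hcg (le_max_right _ _) (le_max_right _ _) le_rfl
  refine ⟨B₀, fun B hB => ⟨B ^ (2 * Γ), fun Cind hCind L₁ hL₁ hGeo hPl => ?_⟩⟩
  have hB1 : 1 ≤ B := hB₀.trans hB
  have hA' := flm_ang_mono (hAng Cind (zero_le_one.trans hCind)) (zero_le_one.trans hCind) (le_max_left Ca 0) (le_max_left CN 0)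
  have hav : a * v₀ ≤ 1 := by
    have : a ≤ 1 := by linarith
    nlinarith
  refine flm_clu_congr (fla_main hn (hW.wJB J' Bp) (X := ⟨p, σ, a, Cind⟩) (κ := κ) (v₀ := v₀) (L₀ := L₁) (B := B) (c₀ := c₀) (Cp := Cp) (cg := cg) (Cgeo := Cgeo)
    (u := u) (C8 := C8) (C9 := C9) (P1 := P1) (C10 := max C10₀ 1) (C11 := C11) (cth := 1 / (8 * 3 ^ (n + 1)))
    hp.le (zero_le_one.trans hCind) ha.le hav hc₀.le (le_max_right _ _) (le_max_right _ _) rfl le_rfl h3.le ?_ ?_ hPl hGeo hA') rfl rfl rfl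
  · show (1 : ℝ) / (8 * 3 ^ (n + 1)) + 1 / (8 * 3 ^ (n + 1)) ≤ 1 / (4 * 3 ^ (n + 1))
    apply le_of_eq
    field_simp
    norm_num
  · intro L D hL hD hDL hDκ
    refine (hnum p (B * D) L D hp.le hp' ?_ ?_ hD ?_).wJB J' Bp
    · nlinarith
    · exact flm_dom hB1 hD hΓ hκ hκΓ (hL₁.trans hL.le) hDκ
    · nlinarith

/-- **EXIT OF FL**, from the exits of AN, SPARSE and FL-C (`flc_main : FrameStmt k → FlatFrameStmt k`, `Fl/C*.lean`) -/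
theorem fl_main0 (hn : 2 ≤ n) {W : WCon} (hW : FlW n W) {cs a pmax : ℝ} (hcs : 0 < cs) (ha : 0 < a) (ha2 : 2 * a < 1 - bet n) (hpm : 2 < pmax)
    (hSp : SparseStmt n W cs) (hAng : AngularStmt n W a pmax) (hFF : FlatFrameStmt (n - 1)) : FlStmt n W cs a pmax := by
  obtain ⟨k, rfl⟩ : ∃ k, n = k + 1 := ⟨n - 1, by omega⟩
  exact fl_exit k (by omega) W hW cs a pmax hcs ha ha2 (flm_cluster hn hW ha ha2 hpm hAng) (flb_main (by omega) hW hSp) hFF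

/-- **EXIT OF THE FLATTENING BLOCK** -/
theorem fl_main (hn : 2 ≤ n) {W : WCon} (hW : FlW n W) {cs a pmax : ℝ} (hcs : 0 < cs) (ha : 0 < a) (ha2 : 2 * a < 1 - bet n) (hpm : 2 < pmax)
    (hFr : FrameStmt (n - 1)) (hSp : SparseStmt n W cs) (hAng : AngularStmt n W a pmax) : FlStmt n W cs a pmax :=
  fl_main0 hn hW hcs ha ha2 hpm hSp hAng (flc_main (n - 1) hFr)

end Claimed.Agent.R257
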