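import Claimed.Agent.R257.Fl.Defs

/-!
# R257 / Fl / Simplex : ROBUST SIMPLICES OR A STRIP (H flattening.tex l.196-212, "successive maximal affine heights"; sparse.tex s:simplex)            (captain helper263)      PAPER FREE: linear algebra in `E n`

`fls_simplex`: a finite set `T` of points within `w` of the hyperplane `{⟪e,ξ⟫ = β₀}` and a prescribed point `ξ₁ ∈ T`.  EITHER `T` lies in a strip of half width `w` about an affine `(n-2)`-plane (`Strip2 w T`),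
OR there are `n` points of `T`, the first one `ξ₁`, such that ALL perturbations by `≤ w/Cs` have `Cs (1+ρ₀)/w`-transverse projections to `e^⊥` (`TransvF`; LINEAR in `1/w`).

PROOF (greedy heights).  `π₁ = flPr e`.  Build by recursion on `j = 1, …, n`: points `ξ₁, …, ξ_j ∈ T`, orthonormal `u₂, …, u_j ⊥ e`, heights `d₂, …, d_j ≥ w` with, for `π_j x := x - ⟪e,x⟫e - ∑_{2 ≤ l ≤ j} ⟪u_l,x⟫u_l`:
   `π_{l-1}(ξ_l - ξ₁) = d_l u_l`,   `‖π_{l-1}(ξ - ξ₁)‖ ≤ d_l` for ALL `ξ ∈ T`   (`ξ_l` maximises `‖π_{l-1}(ξ - ξ₁)‖` over the finite set `T`: `Finset.exists_max_image`).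
 STEP `j → j+1` (`j ≤ n - 1`): `d := max_ξ ‖π_j(ξ - ξ₁)‖`.   If `d < w` (or `≤ w`): `{e, u₂, …, u_j}` are `j ≤ n - 1 < n` orthonormal vectors, so there is a unit `e₂` orthogonal to all of them
   (`Orthonormal.exists_orthonormalBasis_extension`, or: the span has `finrank ≤ n-1 < n`, its orthogonal complement is `≠ ⊥`); `⟪e₂, ξ - ξ₁⟫ = ⟪e₂, π_j(ξ - ξ₁)⟫`, so `|⟪e₂,ξ⟫ - ⟪e₂,ξ₁⟫| ≤ w`: `Strip2 w T` with `(e, e₂, β₀, ⟪e₂,ξ₁⟫)`.   Otherwise `u_{j+1} := π_j(ξ_{j+1} - ξ₁)/d`.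
 TRIANGULAR SYSTEM.  `M_{jl} := ⟪u_j, ξ_l - ξ₁⟫` (`2 ≤ j, l ≤ n`): `M_{jl} = 0` for `l < j` (`ξ_l - ξ₁ ∈ span(e, u₂..u_l)`), `M_{jj} = d_j`, `|M_{jl}| = |⟪u_j, π_{j-1}(ξ_l - ξ₁)⟫| ≤ d_j`.
 Let `‖ξ'_l - ξ_l‖ ≤ ε = w/Cs`, `v = ∑ t_l flPr e ξ'_l`, `τ = ∑ t_l`.   `⟪u_j, v⟫ - τ⟪u_j, ξ'_1⟫ = ∑_{l ≥ 2} t_l ⟪u_j, ξ'_l - ξ'_1⟫ = ∑_{l ≥ j} t_l M_{jl} + err`, `|err| ≤ 2ε ∑_{l≥2}|t_l|`.   Divide by `d_j ≥ w`, back substitution from `j = n` down: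
   `|t_j| ≤ r + ∑_{l > j}|t_l| + η S`, `r = (‖v‖ + (ρ₀ + 1)|τ|)/w`, `η = 2/Cs`, `S = ∑_{l ≥ 2}|t_l|`  ⟹  `|t_j| ≤ 2^{n-j}(r + ηS)`  ⟹  `S ≤ 2^n (r + ηS)`  ⟹  (`2^n η ≤ 1/2`)  `S ≤ 2^{n+1} r`;   `|t_1| ≤ |τ| + S`.      `Cs = 2^{n+3}` is enough (`w ≤ 1`).
ABSTRACT FORM (recommended cut): `fls_tri` = the last paragraph for given `u, d` (pure inequalities on `Fin n`), `fls_greedy` = the recursion.
-/

set_option autoImplicit false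

namespace Claimed.Agent.R257

open Set
open scoped InnerProductSpace

variable {n : ℕ}

/-- back substitution -/
theorem fls_tri_back (n : ℕ) (s : ℕ → ℝ) (a : ℝ) (ha : 0 ≤ a)
    (h : ∀ j, 1 ≤ j → j < n → s j ≤ a + ∑ l ∈ Finset.Ico (j + 1) n, s l) : ∑ l ∈ Finset.Ico 1 n, s l ≤ 2 ^ n * a := by
  have key : ∀ k : ℕ, k + 1 ≤ n → ∑ l ∈ Finset.Ico (n - k) n, s l ≤ (2 ^ k - 1) * a := by
    intro k
    induction k with
    | zero =>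
      intro _
      simp
    | succ k ih =>
      intro hk
      have h1 := ih (by omega)
      have h2 : n - (k + 1) < n := by omega
      rw [Finset.sum_eq_sum_Ico_succ_bot h2]
      have e1 : n - (k + 1) + 1 = n - k := by omega
      have h3 := h (n - (k + 1)) (by omega) h2
      rw [e1] at h3 ⊢
      have e2 : ((2 : ℝ) ^ (k + 1) - 1) * a = a + 2 * ((2 ^ k - 1) * a) := by ring
      rw [e2]
      linarith
  rcases Nat.eq_zero_or_pos n with h0 | h0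
  · subst h0
    simp [ha]
  have h1 := key (n - 1) (by omega)
  have e1 : n - (n - 1) = 1 := by omega
  rw [e1] at h1
  refine h1.trans ?_
  have h2 : (2 : ℝ) ^ (n - 1) ≤ 2 ^ n := pow_le_pow_right₀ (by norm_num) (by omega)
  have h3 : (2 : ℝ) ^ (n - 1) - 1 ≤ 2 ^ n := by linarith
  exact mul_le_mul_of_nonneg_right h3 ha

/-- tail sums over `Fin n` as sums over `ℕ` -/
theorem fls_tri_sum (n : ℕ) (s : Fin n → ℝ) (a : ℕ) :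
    ∑ l : Fin n, (if a ≤ (l : ℕ) then s l else 0) = ∑ k ∈ Finset.Ico a n, (if h : k < n then s ⟨k, h⟩ else 0) := by
  have h1 := Fin.sum_univ_eq_sum_range (fun k => if a ≤ k then (if h : k < n then s ⟨k, h⟩ else 0) else 0) n
  have h2 : ∀ l : Fin n, (if a ≤ (l : ℕ) then s l else 0) = (if a ≤ (l : ℕ) then (if h : (l : ℕ) < n then s ⟨l, h⟩ else 0) else 0) := by
    intro l
    rw [dif_pos l.2]
  rw [Finset.sum_congr rfl (fun l _ => h2 l), h1, ← Finset.sum_filter]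
  congr 1
  ext k
  simp only [Finset.mem_filter, Finset.mem_range, Finset.mem_Ico]
  tauto

/-- one row of the triangular system -/
theorem fls_tri_row (n : ℕ) (e : E n) (w ρ₀ : ℝ) (ξ u : Fin n → E n) (d : Fin n → ℝ) (i₀ : Fin n) (hi₀ : (i₀ : ℕ) = 0)
    (hw : 0 < w) (hρ : ∀ i, ‖ξ i‖ ≤ ρ₀)
    (hu : ∀ j, j ≠ i₀ → ‖u j‖ = 1 ∧ ⟪u j, e⟫_ℝ = 0) (hd : ∀ j, j ≠ i₀ → w ≤ d j)
    (hlow : ∀ j l, j ≠ i₀ → l < j → ⟪u j, ξ l - ξ i₀⟫_ℝ = 0) (hdiag : ∀ j, j ≠ i₀ → ⟪u j, ξ j - ξ i₀⟫_ℝ = d j)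
    (hup : ∀ j l, j ≠ i₀ → |⟪u j, ξ l - ξ i₀⟫_ℝ| ≤ d j)
    (ξ' : Fin n → E n) (ε : ℝ) (hε0 : 0 ≤ ε) (hε : ε ≤ 1) (hξ' : ∀ i, ‖ξ' i - ξ i‖ ≤ ε) (t : Fin n → ℝ) (j : Fin n) (hj : j ≠ i₀) :
    w * |t j| ≤ (‖∑ i, t i • flPr e (ξ' i)‖ + |∑ i, t i| * (ρ₀ + 1) + 2 * ε * ∑ i : Fin n, (if 1 ≤ (i : ℕ) then |t i| else 0))
      + w * ∑ i : Fin n, (if (j : ℕ) + 1 ≤ (i : ℕ) then |t i| else 0) := by
  obtain ⟨hun, hue⟩ := hu j hj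
  have hdj := hd j hj
  have hdj0 : 0 < d j := hw.trans_le hdj
  obtain ⟨v, hv⟩ : ∃ v : E n, v = ∑ i, t i • flPr e (ξ' i) := ⟨_, rfl⟩
  obtain ⟨S, hS⟩ : ∃ S : ℝ, S = ∑ i : Fin n, (if 1 ≤ (i : ℕ) then |t i| else 0) := ⟨_, rfl⟩
  obtain ⟨A, hA⟩ : ∃ A : ℝ, A = ∑ i : Fin n, (if (j : ℕ) + 1 ≤ (i : ℕ) then |t i| else 0) := ⟨_, rfl⟩
  rw [← hv, ← hS, ← hA]
  have hS0 : 0 ≤ S := by
    rw [hS]; exact Finset.sum_nonneg fun i _ => by split_ifs <;> positivity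
  have hA0 : 0 ≤ A := by
    rw [hA]; exact Finset.sum_nonneg fun i _ => by split_ifs <;> positivity
  -- the identity
  have e1 : ⟪u j, v⟫_ℝ = ∑ i, t i * ⟪u j, ξ' i⟫_ℝ := by
    rw [hv, inner_sum]
    refine Finset.sum_congr rfl fun i _ => ?_
    rw [inner_smul_right, flPr, inner_sub_right, inner_smul_right, hue, mul_zero, sub_zero]
  have e2 : ⟪u j, v⟫_ℝ - (∑ i, t i) * ⟪u j, ξ' i₀⟫_ℝ = ∑ i, t i * ⟪u j, ξ' i - ξ' i₀⟫_ℝ := by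
    rw [e1, Finset.sum_mul, ← Finset.sum_sub_distrib]
    refine Finset.sum_congr rfl fun i _ => ?_
    rw [inner_sub_right]; ring
  have e3 : t j * d j = ∑ i, t i * (if i = j then d j else 0) := by
    simp [Finset.sum_ite_eq']
  have hc : ∀ i, |⟪u j, ξ' i - ξ' i₀⟫_ℝ - (if i = j then d j else 0)|
      ≤ d j * (if (j : ℕ) + 1 ≤ (i : ℕ) then 1 else 0) + 2 * ε * (if 1 ≤ (i : ℕ) then 1 else 0) := by
    intro i
    by_cases hi : i = i₀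
    · subst hi
      rw [sub_self, inner_zero_right, if_neg (fun h => hj h.symm), sub_zero, abs_zero]
      have : (0 : ℝ) ≤ (if (j : ℕ) + 1 ≤ (i : ℕ) then 1 else 0) := by split_ifs <;> norm_num
      have : (0 : ℝ) ≤ (if 1 ≤ (i : ℕ) then 1 else 0) := by split_ifs <;> norm_num
      positivity
    have hi1 : 1 ≤ (i : ℕ) := by
      have : (i : ℕ) ≠ 0 := fun h => hi (Fin.ext (by rw [h, hi₀]))
      omega
    rw [if_pos hi1, mul_one]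
    have hsplit : ⟪u j, ξ' i - ξ' i₀⟫_ℝ = ⟪u j, ξ i - ξ i₀⟫_ℝ + ⟪u j, (ξ' i - ξ i) - (ξ' i₀ - ξ i₀)⟫_ℝ := by
      rw [← inner_add_right]; congr 1; abel
    have herr : |⟪u j, (ξ' i - ξ i) - (ξ' i₀ - ξ i₀)⟫_ℝ| ≤ 2 * ε := by
      calc |⟪u j, (ξ' i - ξ i) - (ξ' i₀ - ξ i₀)⟫_ℝ| ≤ ‖u j‖ * ‖(ξ' i - ξ i) - (ξ' i₀ - ξ i₀)‖ := abs_real_inner_le_norm _ _
        _ = ‖(ξ' i - ξ i) - (ξ' i₀ - ξ i₀)‖ := by rw [hun, one_mul]
        _ ≤ ‖ξ' i - ξ i‖ + ‖ξ' i₀ - ξ i₀‖ := norm_sub_le _ _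
        _ ≤ 2 * ε := by linarith [hξ' i, hξ' i₀]
    rw [hsplit]
    rcases lt_trichotomy i j with h | h | h
    · rw [hlow j i hj h, if_neg h.ne, if_neg (by have : (i : ℕ) < j := h; omega)]
      simpa using herr
    · subst h
      rw [hdiag i hj, if_pos rfl, if_neg (by omega)]
      simpa using herr
    · rw [if_neg h.ne', if_pos (by have : (j : ℕ) < i := h; omega), mul_one, sub_zero]
      exact (abs_add_le _ _).trans (add_le_add (hup j i hj) herr)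
  have e4 : t j * d j = (⟪u j, v⟫_ℝ - (∑ i, t i) * ⟪u j, ξ' i₀⟫_ℝ) - ∑ i, t i * (⟪u j, ξ' i - ξ' i₀⟫_ℝ - (if i = j then d j else 0)) := by
    rw [e2, e3, ← Finset.sum_sub_distrib]
    refine Finset.sum_congr rfl fun i _ => ?_
    ring
  have b1 : |⟪u j, v⟫_ℝ| ≤ ‖v‖ := by
    have := abs_real_inner_le_norm (u j) v
    rwa [hun, one_mul] at this
  have b2 : |⟪u j, ξ' i₀⟫_ℝ| ≤ ρ₀ + 1 := by
    have h1 := abs_real_inner_le_norm (u j) (ξ' i₀)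
    rw [hun, one_mul] at h1
    have h2 : ‖ξ' i₀‖ ≤ ‖ξ' i₀ - ξ i₀‖ + ‖ξ i₀‖ := by
      have := norm_add_le (ξ' i₀ - ξ i₀) (ξ i₀)
      rwa [sub_add_cancel] at this
    linarith [hξ' i₀, hρ i₀]
  have b3 : |∑ i, t i * (⟪u j, ξ' i - ξ' i₀⟫_ℝ - (if i = j then d j else 0))| ≤ d j * A + 2 * ε * S := by
    calc |∑ i, t i * (⟪u j, ξ' i - ξ' i₀⟫_ℝ - (if i = j then d j else 0))|
        ≤ ∑ i, |t i * (⟪u j, ξ' i - ξ' i₀⟫_ℝ - (if i = j then d j else 0))| := Finset.abs_sum_le_sum_abs _ _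
      _ ≤ ∑ i : Fin n, (d j * (if (j : ℕ) + 1 ≤ (i : ℕ) then |t i| else 0) + 2 * ε * (if 1 ≤ (i : ℕ) then |t i| else 0)) := by
          refine Finset.sum_le_sum fun i _ => ?_
          rw [abs_mul]
          calc |t i| * |⟪u j, ξ' i - ξ' i₀⟫_ℝ - (if i = j then d j else 0)|
              ≤ |t i| * (d j * (if (j : ℕ) + 1 ≤ (i : ℕ) then 1 else 0) + 2 * ε * (if 1 ≤ (i : ℕ) then 1 else 0)) :=
                mul_le_mul_of_nonneg_left (hc i) (abs_nonneg _)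
            _ = _ := by split_ifs <;> ring
      _ = d j * A + 2 * ε * S := by
          rw [Finset.sum_add_distrib, ← Finset.mul_sum, ← Finset.mul_sum, ← hA, ← hS]
  have b4 : |t j| * d j ≤ ‖v‖ + |∑ i, t i| * (ρ₀ + 1) + (d j * A + 2 * ε * S) := by
    rw [← abs_of_pos hdj0, ← abs_mul, abs_of_pos hdj0, e4]
    refine (abs_sub _ _).trans (add_le_add ((abs_sub _ _).trans (add_le_add b1 ?_)) b3)
    rw [abs_mul]
    exact mul_le_mul_of_nonneg_left b2 (abs_nonneg _)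
  have hX : 0 ≤ ‖v‖ + |∑ i, t i| * (ρ₀ + 1) + 2 * ε * S := by
    have : 0 ≤ ρ₀ := (norm_nonneg _).trans (hρ i₀)
    positivity
  rcases le_total (|t j|) A with h | h
  · nlinarith
  · nlinarith

theorem fls_tri_split (n : ℕ) (i₀ : Fin n) (hi₀ : (i₀ : ℕ) = 0) (f : Fin n → ℝ) :
    ∑ i, f i = f i₀ + ∑ i : Fin n, (if 1 ≤ (i : ℕ) then f i else 0) := by
  have h : ∀ i : Fin n, f i = (if i = i₀ then f i₀ else 0) + (if 1 ≤ (i : ℕ) then f i else 0) := by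
    intro i
    by_cases hi : i = i₀
    · subst hi; rw [if_pos rfl, if_neg (by omega), add_zero]
    · have : (i : ℕ) ≠ 0 := fun h => hi (Fin.ext (by rw [h, hi₀]))
      rw [if_neg hi, if_pos (by omega), zero_add]
  calc ∑ i, f i = ∑ i : Fin n, ((if i = i₀ then f i₀ else 0) + (if 1 ≤ (i : ℕ) then f i else 0)) := Finset.sum_congr rfl fun i _ => h i
    _ = f i₀ + ∑ i : Fin n, (if 1 ≤ (i : ℕ) then f i else 0) := by
        rw [Finset.sum_add_distrib]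
        simp

/-- the final arithmetic -/
theorem fls_tri_num {w ρ₀ P ε V τ S t0 : ℝ} (hw : 0 < w) (hw1 : w ≤ 1) (hρ : 0 ≤ ρ₀) (hP : 1 ≤ P) (hε : 8 * P * ε = w) (hV : 0 ≤ V) (hτ : 0 ≤ τ) (hS : 0 ≤ S)
    (h1 : w * S ≤ P * (V + τ * (ρ₀ + 1) + 2 * ε * S)) (h2 : t0 ≤ τ + S) : t0 + S ≤ 8 * P * (1 + ρ₀) / w * (V + τ) := by
  rw [div_mul_eq_mul_div, le_div_iff₀ hw]
  obtain ⟨Z, hZ⟩ : ∃ Z : ℝ, Z = (1 + ρ₀) * (V + τ) := ⟨_, rfl⟩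
  have hY : V + τ * (ρ₀ + 1) ≤ Z := by rw [hZ]; nlinarith
  have hτZ : τ ≤ Z := by rw [hZ]; nlinarith
  have hZ0 : 0 ≤ Z := hτ.trans hτZ
  have e1 : P * (2 * ε * S) = w * S / 4 := by
    have : P * (2 * ε * S) = (8 * P * ε) * S / 4 := by ring
    rw [this, hε]
  have h3 : w * S ≤ P * Z + w * S / 4 := by
    calc w * S ≤ P * (V + τ * (ρ₀ + 1) + 2 * ε * S) := h1
      _ = P * (V + τ * (ρ₀ + 1)) + P * (2 * ε * S) := by ring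
      _ ≤ P * Z + w * S / 4 := by rw [e1]; gcongr
  have h4 : w * τ ≤ P * Z := by
    calc w * τ ≤ 1 * τ := by gcongr
      _ = τ := one_mul _
      _ ≤ Z := hτZ
      _ ≤ P * Z := by nlinarith
  have h5 : (t0 + S) * w ≤ w * τ + 2 * (w * S) := by nlinarith
  have e2 : 8 * P * (1 + ρ₀) * (V + τ) = 8 * (P * Z) := by rw [hZ]; ring
  rw [e2]
  have h6 : 0 ≤ P * Z := by positivity
  linarith

/-- **L-FLS-TRI** (~300 l.).  Transversality from a triangular system of heights.  Indices: `0` = the base point; `u i`, `d i` are used for `i ≠ 0` only. -/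
theorem fls_tri (n : ℕ) (e : E n) (w ρ₀ : ℝ) (ξ u : Fin n → E n) (d : Fin n → ℝ) (i₀ : Fin n) (hi₀ : (i₀ : ℕ) = 0)
    (hw : 0 < w) (hw1 : w ≤ 1) (hρ : ∀ i, ‖ξ i‖ ≤ ρ₀)
    (hu : ∀ j, j ≠ i₀ → ‖u j‖ = 1 ∧ ⟪u j, e⟫_ℝ = 0) (hd : ∀ j, j ≠ i₀ → w ≤ d j)
    (hlow : ∀ j l, j ≠ i₀ → l < j → ⟪u j, ξ l - ξ i₀⟫_ℝ = 0) (hdiag : ∀ j, j ≠ i₀ → ⟪u j, ξ j - ξ i₀⟫_ℝ = d j)
    (hup : ∀ j l, j ≠ i₀ → |⟪u j, ξ l - ξ i₀⟫_ℝ| ≤ d j)
    (ξ' : Fin n → E n) (hξ' : ∀ i, ‖ξ' i - ξ i‖ ≤ w / 2 ^ (n + 3)) :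
    TransvF (2 ^ (n + 3) * (1 + ρ₀) / w) e ξ' := by
  intro t
  obtain ⟨ε, hεd⟩ : ∃ ε : ℝ, ε = w / 2 ^ (n + 3) := ⟨_, rfl⟩
  rw [← hεd] at hξ'
  obtain ⟨P, hP⟩ : ∃ P : ℝ, P = 2 ^ n := ⟨_, rfl⟩
  have hP1 : 1 ≤ P := by rw [hP]; exact one_le_pow₀ (by norm_num)
  have e8 : (2 : ℝ) ^ (n + 3) = 8 * P := by rw [hP]; ring
  have hε8 : 8 * P * ε = w := by rw [hεd, e8]; field_simp
  have hε0 : 0 ≤ ε := by rw [hεd]; positivity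
  have hε1 : ε ≤ 1 := by nlinarith
  have hρ0 : 0 ≤ ρ₀ := (norm_nonneg _).trans (hρ i₀)
  have hrow := fun j hj => fls_tri_row n e w ρ₀ ξ u d i₀ hi₀ hw hρ hu hd hlow hdiag hup ξ' ε hε0 hε1 hξ' t j hj
  obtain ⟨V, hV⟩ : ∃ V : ℝ, V = ‖∑ i, t i • flPr e (ξ' i)‖ := ⟨_, rfl⟩
  obtain ⟨S, hS⟩ : ∃ S : ℝ, S = ∑ i : Fin n, (if 1 ≤ (i : ℕ) then |t i| else 0) := ⟨_, rfl⟩
  rw [← hV, e8]
  simp only [← hV, ← hS] at hrow
  have hV0 : 0 ≤ V := by rw [hV]; exact norm_nonneg _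
  have hS0 : 0 ≤ S := by
    rw [hS]; exact Finset.sum_nonneg fun i _ => by split_ifs <;> positivity
  have hX0 : 0 ≤ V + |∑ i, t i| * (ρ₀ + 1) + 2 * ε * S := by positivity
  have hback := fls_tri_back n (fun k => if h : k < n then |t ⟨k, h⟩| else 0) ((V + |∑ i, t i| * (ρ₀ + 1) + 2 * ε * S) / w) (by positivity) (by
    intro j h1 hjn
    have h2 := hrow ⟨j, hjn⟩ (fun h => by have := congrArg Fin.val h; rw [hi₀] at this; simp at this; omega)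
    rw [fls_tri_sum n (fun i => |t i|) (j + 1)] at h2
    simp only [dif_pos hjn]
    rw [div_add' _ _ _ hw.ne', le_div_iff₀ hw]
    linarith)
  rw [← fls_tri_sum n (fun i => |t i|) 1, ← hS, ← hP] at hback
  have h1 : w * S ≤ P * (V + |∑ i, t i| * (ρ₀ + 1) + 2 * ε * S) := by
    rw [mul_div_assoc', le_div_iff₀ hw] at hback
    linarith
  have h2 : |t i₀| ≤ |∑ i, t i| + S := by
    have e1 := fls_tri_split n i₀ hi₀ t
    have e2 : t i₀ = (∑ i, t i) - ∑ i : Fin n, (if 1 ≤ (i : ℕ) then t i else 0) := by linarith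
    have e3 : |∑ i : Fin n, (if 1 ≤ (i : ℕ) then t i else 0)| ≤ S := by
      rw [hS]
      refine (Finset.abs_sum_le_sum_abs _ _).trans (le_of_eq (Finset.sum_congr rfl fun i _ => ?_))
      split_ifs <;> simp
    rw [e2]
    exact (abs_sub _ _).trans (by linarith)
  rw [fls_tri_split n i₀ hi₀ (fun i => |t i|), ← hS]
  exact fls_tri_num hw hw1 hρ0 hP1 hε8 hV0 (abs_nonneg _) hS0 h1 h2

/-- one step of the greedy recursion: `U` = the span of the directions found so far -/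
theorem fls_gr_step (n : ℕ) (e : E n) (β₀ w : ℝ) (T : Finset (E n)) (ξ₁ : E n) (he : ‖e‖ = 1) (hw : 0 < w)
    (hT : ∀ ξ ∈ T, |⟪e, ξ⟫_ℝ - β₀| ≤ w) (h1 : ξ₁ ∈ T) (U : Submodule ℝ (E n)) (hU : Module.finrank ℝ U < n) (heU : e ∈ U) :
    Strip2 w (T : Set (E n)) ∨ ∃ (ξs us : E n) (ds : ℝ), ξs ∈ T ∧ ‖us‖ = 1 ∧ us ∈ Uᗮ ∧ w ≤ ds ∧ ξs - ξ₁ ∈ U ⊔ Submodule.span ℝ {us} ∧
      ⟪us, ξs - ξ₁⟫_ℝ = ds ∧ ∀ ξ ∈ T, |⟪us, ξ - ξ₁⟫_ℝ| ≤ ds := by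
  obtain ⟨p, hp⟩ : ∃ p : E n → E n, p = fun x => x - U.starProjection x := ⟨_, rfl⟩
  have hp1 : ∀ x, p x ∈ Uᗮ := fun x => by rw [hp]; exact U.sub_starProjection_mem_orthogonal x
  have hp2 : ∀ v ∈ Uᗮ, ∀ x, ⟪v, x⟫_ℝ = ⟪v, p x⟫_ℝ := by
    intro v hv x
    have h3 : ⟪v, U.starProjection x⟫_ℝ = 0 := by
      rw [real_inner_comm]
      exact (Submodule.mem_orthogonal U v).1 hv _ (U.starProjection_apply_mem x)
    rw [hp]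
    simp only [inner_sub_right, h3, sub_zero]
  have hp3 : ∀ x, x - p x ∈ U := fun x => by
    rw [hp]
    simp only [sub_sub_cancel]
    exact U.starProjection_apply_mem x
  obtain ⟨ξs, hξs, hmax⟩ := T.exists_max_image (fun ξ => ‖p (ξ - ξ₁)‖) ⟨ξ₁, h1⟩
  by_cases hd : ‖p (ξs - ξ₁)‖ ≤ w
  · left
    have hne : Uᗮ ≠ ⊥ := by
      intro hbot
      have h3 := U.finrank_add_finrank_orthogonal
      rw [hbot, finrank_bot, finrank_euclideanSpace_fin] at h3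
      omega
    obtain ⟨v, hv, hv0⟩ := Submodule.exists_mem_ne_zero_of_ne_bot hne
    have hvn : 0 < ‖v‖ := norm_pos_iff.2 hv0
    have h2U : ‖v‖⁻¹ • v ∈ Uᗮ := Uᗮ.smul_mem _ hv
    have h2n : ‖‖v‖⁻¹ • v‖ = 1 := by
      rw [norm_smul, norm_inv, norm_norm, inv_mul_cancel₀ hvn.ne']
    refine ⟨e, ‖v‖⁻¹ • v, β₀, ⟪‖v‖⁻¹ • v, ξ₁⟫_ℝ, he, h2n, (Submodule.mem_orthogonal U _).1 h2U e heU, ?_⟩
    intro ξ hξ
    refine ⟨hT ξ hξ, ?_⟩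
    rw [← inner_sub_right, hp2 _ h2U]
    calc |⟪‖v‖⁻¹ • v, p (ξ - ξ₁)⟫_ℝ| ≤ ‖‖v‖⁻¹ • v‖ * ‖p (ξ - ξ₁)‖ := abs_real_inner_le_norm _ _
      _ = ‖p (ξ - ξ₁)‖ := by rw [h2n, one_mul]
      _ ≤ ‖p (ξs - ξ₁)‖ := hmax ξ hξ
      _ ≤ w := hd
  · right
    push Not at hd
    obtain ⟨d, hdd⟩ : ∃ d : ℝ, d = ‖p (ξs - ξ₁)‖ := ⟨_, rfl⟩
    rw [← hdd] at hd hmax
    have hd0 : 0 < d := hw.trans hd
    obtain ⟨us, hus⟩ : ∃ us : E n, us = d⁻¹ • p (ξs - ξ₁) := ⟨_, rfl⟩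
    have huU : us ∈ Uᗮ := by rw [hus]; exact Uᗮ.smul_mem _ (hp1 _)
    have hun : ‖us‖ = 1 := by
      rw [hus, norm_smul, ← hdd, norm_inv, Real.norm_of_nonneg hd0.le, inv_mul_cancel₀ hd0.ne']
    have hpd : p (ξs - ξ₁) = d • us := by
      rw [hus, smul_smul, mul_inv_cancel₀ hd0.ne', one_smul]
    refine ⟨ξs, us, d, hξs, hun, huU, hd.le, ?_, ?_, ?_⟩
    · have h3 : ξs - ξ₁ = (ξs - ξ₁ - p (ξs - ξ₁)) + d • us := by
        rw [← hpd]; abel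
      rw [h3]
      exact Submodule.add_mem_sup (hp3 _) (Submodule.smul_mem _ _ (Submodule.mem_span_singleton_self _))
    · rw [hp2 _ huU, hpd, inner_smul_right, real_inner_self_eq_norm_sq, hun]
      ring
    · intro ξ hξ
      rw [hp2 _ huU]
      calc |⟪us, p (ξ - ξ₁)⟫_ℝ| ≤ ‖us‖ * ‖p (ξ - ξ₁)‖ := abs_real_inner_le_norm _ _
        _ = ‖p (ξ - ξ₁)‖ := by rw [hun, one_mul]
        _ ≤ d := hmax ξ hξ

/-- the recursion -/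
theorem fls_gr_ind (n : ℕ) (e : E n) (β₀ w : ℝ) (T : Finset (E n)) (ξ₁ : E n) (he : ‖e‖ = 1) (hw : 0 < w)
    (hT : ∀ ξ ∈ T, |⟪e, ξ⟫_ℝ - β₀| ≤ w) (h1 : ξ₁ ∈ T) (hS : ¬ Strip2 w (T : Set (E n))) (m : ℕ) (hm1 : 1 ≤ m) (hmn : m ≤ n) :
    ∃ (U : Submodule ℝ (E n)) (ξ u : ℕ → E n) (d : ℕ → ℝ), Module.finrank ℝ U ≤ m ∧ e ∈ U ∧ ξ 0 = ξ₁ ∧ (∀ l < m, ξ l ∈ T ∧ ξ l - ξ₁ ∈ U) ∧
      ∀ j, 1 ≤ j → j < m → ‖u j‖ = 1 ∧ ⟪u j, e⟫_ℝ = 0 ∧ w ≤ d j ∧ (∀ l < j, ⟪u j, ξ l - ξ₁⟫_ℝ = 0) ∧ ⟪u j, ξ j - ξ₁⟫_ℝ = d j ∧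
        ∀ ξ' ∈ T, |⟪u j, ξ' - ξ₁⟫_ℝ| ≤ d j := by
  induction m, hm1 using Nat.le_induction with
  | base =>
    refine ⟨Submodule.span ℝ {e}, fun _ => ξ₁, fun _ => 0, fun _ => 0, ?_, Submodule.mem_span_singleton_self e, rfl, ?_, ?_⟩
    · rw [finrank_span_singleton (by intro h0; rw [h0, norm_zero] at he; exact zero_ne_one he)]
    · intro l _
      exact ⟨h1, by rw [sub_self]; exact Submodule.zero_mem _⟩
    · intro j h1j hj1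
      omega
  | succ m hm1 ih =>
    obtain ⟨U, ξ, u, d, hU, heU, h0, hl, hj⟩ := ih (by omega)
    rcases fls_gr_step n e β₀ w T ξ₁ he hw hT h1 U (by omega) heU with hs | ⟨ξs, us, ds, a1, a2, a3, a4, a5, a6, a7⟩
    · exact absurd hs hS
    have hξne : ∀ l, l < m → Function.update ξ m ξs l = ξ l := fun l hl => Function.update_of_ne (by omega) _ _
    have hune : ∀ l, l < m → Function.update u m us l = u l := fun l hl => Function.update_of_ne (by omega) _ _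
    have hdne : ∀ l, l < m → Function.update d m ds l = d l := fun l hl => Function.update_of_ne (by omega) _ _
    refine ⟨U ⊔ Submodule.span ℝ {us}, Function.update ξ m ξs, Function.update u m us, Function.update d m ds, ?_, Submodule.mem_sup_left heU, ?_, ?_, ?_⟩
    · have h3 := Submodule.finrank_add_le_finrank_add_finrank U (Submodule.span ℝ {us})
      rw [finrank_span_singleton (by intro h0; rw [h0, norm_zero] at a2; exact zero_ne_one a2)] at h3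
      omega
    · rw [hξne 0 (by omega)]; exact h0
    · intro l hlm
      rcases Nat.lt_succ_iff_lt_or_eq.1 hlm with h | h
      · rw [hξne l h]
        exact ⟨(hl l h).1, Submodule.mem_sup_left (hl l h).2⟩
      · subst h
        rw [Function.update_self]
        exact ⟨a1, a5⟩
    · intro j h1j hjm
      rcases Nat.lt_succ_iff_lt_or_eq.1 hjm with h | h
      · rw [hune j h, hdne j h, hξne j h]
        obtain ⟨b1, b2, b3, b4, b5, b6⟩ := hj j h1j h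
        refine ⟨b1, b2, b3, ?_, b5, b6⟩
        intro l hlj
        rw [hξne l (by omega)]
        exact b4 l hlj
      · subst h
        rw [Function.update_self, Function.update_self, Function.update_self]
        refine ⟨a2, ?_, a4, ?_, a6, a7⟩
        · rw [real_inner_comm]
          exact (Submodule.mem_orthogonal U _).1 a3 e heU
        · intro l hlj
          rw [hξne l hlj, real_inner_comm]
          exact (Submodule.mem_orthogonal U _).1 a3 _ (hl l hlj).2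

/-- **L-FLS-GREEDY** (~500 l.).  The greedy recursion: a strip, or a triangular system of heights. -/
theorem fls_greedy (n : ℕ) (hn : 2 ≤ n) (e : E n) (β₀ w : ℝ) (T : Finset (E n)) (ξ₁ : E n) (i₀ : Fin n) (hi₀ : (i₀ : ℕ) = 0)
    (he : ‖e‖ = 1) (hw : 0 < w) (hT : ∀ ξ ∈ T, |⟪e, ξ⟫_ℝ - β₀| ≤ w) (h1 : ξ₁ ∈ T) :
    Strip2 w (T : Set (E n)) ∨ ∃ (ξ u : Fin n → E n) (d : Fin n → ℝ), (∀ i, ξ i ∈ T) ∧ ξ i₀ = ξ₁ ∧
      (∀ j, j ≠ i₀ → ‖u j‖ = 1 ∧ ⟪u j, e⟫_ℝ = 0) ∧ (∀ j, j ≠ i₀ → w ≤ d j) ∧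
      (∀ j l, j ≠ i₀ → l < j → ⟪u j, ξ l - ξ i₀⟫_ℝ = 0) ∧ (∀ j, j ≠ i₀ → ⟪u j, ξ j - ξ i₀⟫_ℝ = d j) ∧
      (∀ j l, j ≠ i₀ → |⟪u j, ξ l - ξ i₀⟫_ℝ| ≤ d j) := by
  by_cases hS : Strip2 w (T : Set (E n))
  · exact Or.inl hS
  right
  obtain ⟨U, ξ, u, d, -, -, h0, hl, hj⟩ := fls_gr_ind n e β₀ w T ξ₁ he hw hT h1 hS n (by omega) le_rfl
  have hne : ∀ j : Fin n, j ≠ i₀ → 1 ≤ (j : ℕ) := by
    intro j hj
    have : (j : ℕ) ≠ 0 := fun h => hj (Fin.ext (by rw [h, hi₀]))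
    omega
  have e0 : ξ (i₀ : ℕ) = ξ₁ := by rw [hi₀]; exact h0
  refine ⟨fun i => ξ i, fun i => u i, fun i => d i, fun i => (hl i i.2).1, e0, ?_, ?_, ?_, ?_, ?_⟩
  · intro j hjn
    exact ⟨(hj j (hne j hjn) j.2).1, (hj j (hne j hjn) j.2).2.1⟩
  · intro j hjn
    exact (hj j (hne j hjn) j.2).2.2.1
  · intro j l hjn hlj
    simp only [e0]
    exact (hj j (hne j hjn) j.2).2.2.2.1 l hlj
  · intro j hjn
    simp only [e0]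
    exact (hj j (hne j hjn) j.2).2.2.2.2.1
  · intro j l hjn
    simp only [e0]
    exact (hj j (hne j hjn) j.2).2.2.2.2.2 _ (hl l l.2).1

/-- **robust simplex or strip** -/
theorem fls_simplex (n : ℕ) (hn : 2 ≤ n) (e : E n) (β₀ w ρ₀ : ℝ) (T : Finset (E n)) (ξ₁ : E n) (i₀ : Fin n) (hi₀ : (i₀ : ℕ) = 0)
    (he : ‖e‖ = 1) (hw : 0 < w) (hw1 : w ≤ 1) (hT : ∀ ξ ∈ T, |⟪e, ξ⟫_ℝ - β₀| ≤ w) (hρ : ∀ ξ ∈ T, ‖ξ‖ ≤ ρ₀) (h1 : ξ₁ ∈ T) :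
    Strip2 w (T : Set (E n)) ∨ ∃ ξ : Fin n → E n, (∀ i, ξ i ∈ T) ∧ ξ i₀ = ξ₁ ∧
      ∀ ξ' : Fin n → E n, (∀ i, ‖ξ' i - ξ i‖ ≤ w / 2 ^ (n + 3)) → TransvF (2 ^ (n + 3) * (1 + ρ₀) / w) e ξ' := by
  rcases fls_greedy n hn e β₀ w T ξ₁ i₀ hi₀ he hw hT h1 with h | ⟨ξ, u, d, hξ, h0, hu, hd, hlow, hdiag, hup⟩
  · exact Or.inl h
  · exact Or.inr ⟨ξ, hξ, h0, fun ξ' hξ' =>
      fls_tri n e w ρ₀ ξ u d i₀ hi₀ hw hw1 (fun i => hρ _ (hξ i)) hu hd hlow hdiag hup ξ' hξ'⟩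

end Claimed.Agent.R257
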